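import Vale.Agent.P032.S5.H767.Let

/-!
# P032: the crossing lemma and the parallelograms of a two-pair centre (wild frame `Irr U T`)

* `crossing` (CL) : a connected set of points with the colour `i` has no two points on different sides of the unit
  circle about a point with the colour `i`; `diam_le` : its diameter is at most `1`.
* `pgram` (G) : `z` with the pairs `ab | cd`, `P` on an exact `ab`-arc, `R` on an exact `cd`-arc of `S(z)`:
  `P + R - z` has only the colours `e, f`; `pgram_end` : if `T P = {a, b, e}` (end of an arc), then `P + R - z` has the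
  colour `f`, and none of `c, d`; if moreover ... the same with the pairs exchanged (`pgram_end'`).
-/

open Set Filter Topology Metric

noncomputable section

namespace Vale.Agent.P032.H892

open Vale.Agent.P032.Six Vale.Agent.P032.S5.H767

section
variable {k : ℕ} {U : Fin k → Set ℂ} {T : ℂ → Set (Fin k)}

/-- **(CL) crossing lemma.** -/
theorem crossing (h : Irr U T) {Γ : Set ℂ} (hΓ : IsPreconnected Γ) {i : Fin k} (hi : ∀ x ∈ Γ, i ∈ T x) {t p q : ℂ}
    (ht : i ∈ T t) (hp : p ∈ Γ) (hq : q ∈ Γ) (h1 : dist p t < 1) (h2 : 1 < dist q t) : False :=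
  h.mx.wlemma hΓ (fun x hx => h.sub x (hi x hx)) hp hq h1 h2 (h.sub t ht)

/-- a connected set of points with the colour `i` has diameter at most one -/
theorem diam_le (h : Irr U T) {Γ : Set ℂ} (hΓ : IsPreconnected Γ) {i : Fin k} (hi : ∀ x ∈ Γ, i ∈ T x) {p q : ℂ}
    (hp : p ∈ Γ) (hq : q ∈ Γ) : dist p q ≤ 1 := by
  by_contra hcon
  push Not at hcon
  exact crossing h hΓ hi (hi p hp) hp hq (by rw [dist_self]; norm_num) (by rwa [dist_comm])

/-- one point is near or far to a whole connected set -/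
theorem near_or_far (h : Irr U T) {Γ : Set ℂ} (hΓ : IsPreconnected Γ) {i : Fin k} (hi : ∀ x ∈ Γ, i ∈ T x) {t : ℂ}
    (ht : i ∈ T t) : (∀ p ∈ Γ, dist p t ≤ 1) ∨ ∀ p ∈ Γ, 1 ≤ dist p t := by
  by_contra hcon
  push Not at hcon
  obtain ⟨⟨q, hq, hq1⟩, p, hp, hp1⟩ := hcon
  exact crossing h hΓ hi ht hp hq hp1 hq1

/-- two connected sets with the colour `i`: if some pair is at distance less than one and another one at distance more
than one, then the two mixed pairs are at distance exactly one -/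
theorem near_far_two (h : Irr U T) {Γ Γ' : Set ℂ} (hΓ : IsPreconnected Γ) (hΓ' : IsPreconnected Γ') {i : Fin k}
    (hi : ∀ x ∈ Γ, i ∈ T x) (hi' : ∀ x ∈ Γ', i ∈ T x) {p q p' q' : ℂ} (hp : p ∈ Γ) (hq : q ∈ Γ) (hp' : p' ∈ Γ')
    (hq' : q' ∈ Γ') (h1 : dist p p' < 1) (h2 : 1 < dist q q') : dist p q' = 1 ∧ dist q p' = 1 := by
  have e1 := near_or_far h hΓ' hi' (hi p hp)
  have e2 := near_or_far h hΓ' hi' (hi q hq)
  have e3 := near_or_far h hΓ hi (hi' p' hp')
  have e4 := near_or_far h hΓ hi (hi' q' hq')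
  have a1 : ∀ y ∈ Γ', dist y p ≤ 1 := by
    rcases e1 with e | e
    · exact e
    · exact absurd (e p' hp') (by rw [dist_comm]; linarith)
  have a2 : ∀ y ∈ Γ', 1 ≤ dist y q := by
    rcases e2 with e | e
    · exact absurd (e q' hq') (by rw [dist_comm]; linarith)
    · exact e
  have a3 : ∀ y ∈ Γ, dist y p' ≤ 1 := by
    rcases e3 with e | e
    · exact e
    · exact absurd (e p hp) (by linarith)
  have a4 : ∀ y ∈ Γ, 1 ≤ dist y q' := by
    rcases e4 with e | e
    · exact absurd (e q hq) (by linarith)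
    · exact e
  refine ⟨le_antisymm ?_ (a4 p hp), le_antisymm (a3 q hq) ?_⟩
  · rw [dist_comm]; exact a1 q' hq'
  · rw [dist_comm]; exact a2 p' hp'

/-- **transversality**: `i` is carried by `S(z)` near `R`; a point `Q` with `|Q - R| = 1`, not on the line `zR`, has not
the colour `i` -/
theorem off_arc (h : Irr U T) {z R Q : ℂ} {i : Fin k} (hR : dist R z = 1)
    (hJ : ∀ᶠ q in 𝓝[sphere z 1] R, i ∈ T q) (hQ : dist R Q = 1) (hne : Q ≠ z) (hne' : Q + z ≠ 2 * R) : i ∉ T Q := by
  intro hi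
  rcases h.mx.partner_line hR (hJ.mono fun q hq => h.sub q hq) hQ (h.sub Q hi) with h1 | h1
  · exact hne h1
  · exact hne' h1

end

variable {U : Fin 6 → Set ℂ} {T : ℂ → Set (Fin 6)} {z : ℂ} {a b c d e f : Fin 6}

theorem dist_pg {z P R : ℂ} : dist (P + R - z) R = dist P z ∧ dist (P + R - z) P = dist R z := by
  constructor
  · rw [dist_eq_norm, dist_eq_norm]; congr 1; ring
  · rw [dist_eq_norm, dist_eq_norm]; congr 1; ring

/-- a point of the circle, a point of an exact arc with the pair `s, t`: `P + R - z` has neither `s` nor `t` -/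
theorem pg_off (h : Irr U T) {P R : ℂ} {s t : Fin 6} (hP : dist P z = 1) (hR : R ∈ Ex T z {s, t}) (hPR : P ≠ R)
    (hopp : P + R ≠ 2 * z) : s ∉ T (P + R - z) ∧ t ∉ T (P + R - z) := by
  have key : ∀ i ∈ ({s, t} : Set (Fin 6)), i ∉ T (P + R - z) := by
    intro i hi
    refine off_arc h hR.1 (hR.2.mono fun q hq => ?_) ?_ ?_ ?_
    · rw [hq]; exact hi
    · rw [dist_comm, dist_pg.1, hP]
    · intro hcon
      apply hopp
      linear_combination hcon
    · intro hcon
      apply hPR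
      linear_combination hcon
  exact ⟨key s (Or.inl rfl), key t (Or.inr rfl)⟩

theorem ex_ne (C : Ctr U T z a b c d e f) {P R : ℂ} (hP : P ∈ Ex T z {a, b}) (hR : R ∈ Ex T z {c, d}) : P ≠ R := by
  rintro rfl
  have h1 := ex_self hP
  rw [ex_self hR] at h1
  have h2 : c ∈ ({a, b} : Set (Fin 6)) := h1 ▸ Or.inl rfl
  exact C.ne_col (l := 2) (m := 3) (by decide) (s := c) (t := c) h2 (Or.inl rfl) rfl

/-- **(G)** the parallelogram of an exact `ab`-arc and an exact `cd`-arc has only the colours `e, f` -/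
theorem pgram (C : Ctr U T z a b c d e f) {P R : ℂ} (hP : P ∈ Ex T z {a, b}) (hR : R ∈ Ex T z {c, d})
    (hopp : P + R ≠ 2 * z) : T (P + R - z) ⊆ {e, f} := by
  obtain ⟨h1, h2⟩ := pg_off C.irr hP.1 hR (ex_ne C hP hR) hopp
  obtain ⟨h3, h4⟩ := pg_off C.irr hR.1 hP (ex_ne C hP hR).symm (by rwa [add_comm])
  rw [add_comm R P] at h3 h4
  intro i hi
  rcases C.all i with rfl | rfl | rfl | rfl | rfl | rfl
  · exact absurd hi h3
  · exact absurd hi h4
  · exact absurd hi h1
  · exact absurd hi h2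
  · exact Or.inl rfl
  · exact Or.inr rfl

/-- **(G)** an end `P` of an exact `ab`-arc with the colour `x ∈ {e, f}` and no further colour: `P + R - z` has the other
one `y` for every `R` on an exact `cd`-arc -/
theorem pgram_end (C : Ctr U T z a b c d e f) {P R : ℂ} {x y : Fin 6} (hx : (x = e ∧ y = f) ∨ (x = f ∧ y = e))
    (hP : dist P z = 1) (hPT : T P ⊆ {a, b, x}) (hR : R ∈ Ex T z {c, d}) (hPR : P ≠ R) (hopp : P + R ≠ 2 * z)
    (h3 : (T P).ncard ≤ 3) (hab : a ∈ T P) (hb : b ∈ T P) (hxP : x ∈ T P) : y ∈ T (P + R - z) := by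
  obtain ⟨h1, h2⟩ := pg_off C.irr hP hR hPR hopp
  obtain ⟨t, ht, htP⟩ := C.irr.not_sub' (x := P) (y := P + R - z) (by rw [dist_pg.2]; exact hR.1) h3
  rcases C.all t with rfl | rfl | rfl | rfl | rfl | rfl
  · exact absurd hab htP
  · exact absurd hb htP
  · exact absurd ht h1
  · exact absurd ht h2
  · rcases hx with ⟨h4, h5⟩ | ⟨h4, h5⟩
    · rw [h4] at hxP; exact absurd hxP htP
    · rw [h5]; exact ht
  · rcases hx with ⟨h4, h5⟩ | ⟨h4, h5⟩
    · rw [h5]; exact ht
    · rw [h4] at hxP; exact absurd hxP htP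

/-- **(G)** the same for an end `P` of an exact `cd`-arc -/
theorem pgram_end' (C : Ctr U T z a b c d e f) {P R : ℂ} {x y : Fin 6} (hx : (x = e ∧ y = f) ∨ (x = f ∧ y = e))
    (hP : dist P z = 1) (hR : R ∈ Ex T z {a, b}) (hPR : P ≠ R) (hopp : P + R ≠ 2 * z)
    (h3 : (T P).ncard ≤ 3) (hc : c ∈ T P) (hd : d ∈ T P) (hxP : x ∈ T P) : y ∈ T (P + R - z) := by
  obtain ⟨h1, h2⟩ := pg_off C.irr hP hR hPR hopp
  obtain ⟨t, ht, htP⟩ := C.irr.not_sub' (x := P) (y := P + R - z) (by rw [dist_pg.2]; exact hR.1) h3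
  rcases C.all t with rfl | rfl | rfl | rfl | rfl | rfl
  · exact absurd ht h1
  · exact absurd ht h2
  · exact absurd hc htP
  · exact absurd hd htP
  · rcases hx with ⟨h4, h5⟩ | ⟨h4, h5⟩
    · rw [h4] at hxP; exact absurd hxP htP
    · rw [h5]; exact ht
  · rcases hx with ⟨h4, h5⟩ | ⟨h4, h5⟩
    · rw [h5]; exact ht
    · rw [h4] at hxP; exact absurd hxP htP

end Vale.Agent.P032.H892
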