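import Vale.Agent.P032.H820.Dx
import Vale.Agent.P032.H892.Inst

/-!
# P032: limit directions of a colour at a point

Angles in units of 60 degrees.  `Dr T z c` : the closed set of limit directions of the colour `c` at `z`.

* `Irr.dr_cover` : every direction is a limit direction of some colour,
* `Irr.dr_nonempty` : a colour of `T z` has a limit direction, if `T z` has another colour,
* `Irr.dr_in`, `Irr.dr_out` : if `q = pt z u` carries `i` inside and `o` outside (`Sd`), then the limit directions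
  of `i` are in the closed half plane towards `q`, those of `o` in the closed half plane away from `q`.
-/

open Set Filter Topology Metric

noncomputable section

namespace Vale.Agent.P032.H892

open Vale.Agent.P032.Six Vale.Agent.P032.Words Vale.Agent.P032.S5.H767

variable {U : Fin 6 → Set ℂ} {T : ℂ → Set (Fin 6)} {z : ℂ}

/-- polar coordinates about `z`: radius, angle in units of 60 degrees -/
def po (z : ℂ) (p : ℝ × ℝ) : ℂ := z + p.1 * cis (p.2 * (Real.pi / 3))

theorem continuous_po (z : ℂ) : Continuous (po z) :=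
  continuous_const.add ((Complex.continuous_ofReal.comp continuous_fst).mul
    (continuous_cis.comp (continuous_snd.mul continuous_const)))

theorem po_zero (z : ℂ) (θ : ℝ) : po z (0, θ) = z := by simp [po]

theorem po_six (z : ℂ) (r θ : ℝ) : po z (r, θ + 6) = po z (r, θ) := by
  have h := pt_six z θ
  unfold pt at h
  unfold po
  rw [add_left_cancel h]

theorem pt_per (z : ℂ) (t : ℝ) (n : ℤ) : pt z (t + 6 * (n : ℝ)) = pt z t := by
  have h : Function.Periodic (pt z) 6 := fun t => pt_six z t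
  have := h.int_mul n t
  rw [mul_comm]; exact this

/-- the points with the colour `c` in polar coordinates -/
def PoS (T : ℂ → Set (Fin 6)) (z : ℂ) (c : Fin 6) : Set (ℝ × ℝ) := {p | 0 < p.1 ∧ c ∈ T (po z p)}

/-- the limit directions of the colour `c` at `z` -/
def Dr (T : ℂ → Set (Fin 6)) (z : ℂ) (c : Fin 6) : Set ℝ := {θ | (0, θ) ∈ closure (PoS T z c)}

theorem dr_closed (T : ℂ → Set (Fin 6)) (z : ℂ) (c : Fin 6) : IsClosed (Dr T z c) :=
  isClosed_closure.preimage (by fun_prop : Continuous fun θ : ℝ => ((0 : ℝ), θ))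

theorem mem_dr {c : Fin 6} {θ : ℝ} : θ ∈ Dr T z c ↔ ∃ᶠ p in 𝓝 ((0 : ℝ), θ), p ∈ PoS T z c :=
  mem_closure_iff_frequently

theorem dr_per (T : ℂ → Set (Fin 6)) (z : ℂ) (c : Fin 6) (θ : ℝ) :
    θ + 6 ∈ Dr T z c ↔ θ ∈ Dr T z c := by
  let g : ℝ × ℝ ≃ₜ ℝ × ℝ := (Homeomorph.refl ℝ).prodCongr (Homeomorph.addRight 6)
  have hg : ∀ p : ℝ × ℝ, g p = (p.1, p.2 + 6) := fun p => rfl
  have e : g ⁻¹' PoS T z c = PoS T z c := by
    ext p
    simp only [mem_preimage, hg, PoS, mem_ofPred_eq]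
    rw [po_six z p.1 p.2]
  have h := g.preimage_closure (PoS T z c)
  rw [e] at h
  constructor
  · intro hu
    show ((0 : ℝ), θ) ∈ closure (PoS T z c)
    rw [← h]; exact hu
  · intro hu
    have hu : ((0 : ℝ), θ) ∈ closure (PoS T z c) := hu
    rw [← h] at hu; exact hu

theorem dr_per_int (T : ℂ → Set (Fin 6)) (z : ℂ) (c : Fin 6) (θ : ℝ) (n : ℤ) :
    θ + 6 * n ∈ Dr T z c ↔ θ ∈ Dr T z c := by
  induction n using Int.induction_on with
  | zero => simp
  | succ n ih =>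
    rw [← ih, ← dr_per T z c (θ + 6 * (n : ℤ))]
    have e : θ + 6 * (((n : ℤ) + 1 : ℤ) : ℝ) = θ + 6 * ((n : ℤ) : ℝ) + 6 := by push_cast; ring
    rw [e]
  | pred n ih =>
    rw [← ih, ← dr_per T z c (θ + 6 * ((-(n : ℤ) - 1 : ℤ) : ℝ))]
    have e : θ + 6 * ((-(n : ℤ) - 1 : ℤ) : ℝ) + 6 = θ + 6 * ((-(n : ℤ) : ℤ) : ℝ) := by push_cast; ring
    rw [e]

/-- exact directions are limit directions -/
theorem dr_of_dx {c : Fin 6} {θ : ℝ} (h : Dx T z (cis (θ * (Real.pi / 3))) c) : θ ∈ Dr T z c := by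
  rw [mem_dr]
  have ht : Tendsto (fun r : ℝ => (r, θ)) (𝓝[>] 0) (𝓝 ((0 : ℝ), θ)) :=
    ((by fun_prop : Continuous fun r : ℝ => (r, θ)).tendsto 0).mono_left nhdsWithin_le_nhds
  refine ht.frequently ?_
  refine (Frequently.and_eventually h self_mem_nhdsWithin).mono fun r hr => ⟨hr.2, hr.1⟩

theorem dr_cover (h : Irr U T) (z : ℂ) (θ : ℝ) : ∃ c, θ ∈ Dr T z c := by
  obtain ⟨c, hc⟩ := h.exists_dx z (cis (θ * (Real.pi / 3)))
  exact ⟨c, dr_of_dx hc⟩

/-- polar coordinates of a point -/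
theorem exists_po {x z : ℂ} (hx : x ≠ z) : ∃ θ ∈ Icc (0 : ℝ) 6, x = po z (dist x z, θ) := by
  have hn : 0 < dist x z := dist_pos.2 hx
  have hne : ((dist x z : ℝ) : ℂ) ≠ 0 := by exact_mod_cast hn.ne'
  have h1 : ‖(x - z) / (dist x z : ℝ)‖ = 1 := by
    rw [norm_div, ← dist_eq_norm, Complex.norm_real, Real.norm_of_nonneg hn.le, div_self hn.ne']
  obtain ⟨φ, hφ⟩ := exists_cis h1
  set θ := φ * (3 / Real.pi) with hθ
  have hpi := Real.pi_pos
  have e1 : cis (θ * (Real.pi / 3)) = cis φ := by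
    congr 1
    rw [hθ]; field_simp
  have e2 : ∀ n : ℤ, cis ((θ + 6 * n) * (Real.pi / 3)) = cis (θ * (Real.pi / 3)) := by
    intro n
    have := pt_per 0 θ n
    unfold pt at this
    simpa using this
  refine ⟨θ + 6 * ((-⌊θ / 6⌋ : ℤ) : ℝ), ?_, ?_⟩
  · have h2 := Int.floor_le (θ / 6)
    have h3 := Int.lt_floor_add_one (θ / 6)
    push_cast
    constructor <;> linarith
  · unfold po
    simp only
    rw [e2, e1, ← hφ]
    field_simp
    ring

theorem dr_nonempty (h : Irr U T) {c d : Fin 6} (hc : c ∈ T z) (hd : d ∈ T z) (hcd : d ≠ c) :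
    ∃ θ, θ ∈ Dr T z c := by
  by_contra hcon
  push Not at hcon
  have h1 : ∀ θ ∈ Icc (0 : ℝ) 6, ∀ᶠ p : ℝ × ℝ in 𝓝 ((0 : ℝ), θ), ¬ (0 < p.1 ∧ c ∈ T (po z (p.1, p.2))) := by
    intro θ _
    have h2 := hcon θ
    rw [mem_dr, not_frequently] at h2
    exact h2
  have h2 : ∀ᶠ r : ℝ in 𝓝 0, ∀ θ ∈ Icc (0 : ℝ) 6, ¬ (0 < r ∧ c ∈ T (po z (r, θ))) :=
    isCompact_Icc.eventually_forall_of_forall_eventually
      (P := fun r θ => ¬ (0 < r ∧ c ∈ T (po z (r, θ)))) h1
  have h3 : Tendsto (fun x : ℂ => dist x z) (𝓝 z) (𝓝 0) := by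
    have := (continuous_id.dist continuous_const : Continuous fun x : ℂ => dist x z).tendsto z
    simpa using this
  obtain ⟨x, hx, hx2⟩ := ((h.pure z c hc).and_eventually (h3.eventually h2)).exists
  have hxz : x ≠ z := by
    rintro rfl
    rw [hx] at hd
    exact hcd (by simpa using hd)
  obtain ⟨θ, hθ, e⟩ := exists_po hxz
  refine hx2 θ hθ ⟨dist_pos.2 hxz, ?_⟩
  rw [← e, hx]; rfl

/-- distances to the points of the circle in polar coordinates -/
theorem sq_dist_po (z : ℂ) (r θ u : ℝ) : dist (po z (r, θ)) (pt z u) ^ 2 =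
    1 - 2 * r * Real.cos ((θ - u) * (Real.pi / 3)) + r ^ 2 := by
  rw [sq_dist]
  unfold po pt
  simp only [Complex.add_re, Complex.add_im, Complex.mul_re, Complex.mul_im, Complex.ofReal_re,
    Complex.ofReal_im, cis_re, cis_im]
  have e : (θ - u) * (Real.pi / 3) = θ * (Real.pi / 3) - u * (Real.pi / 3) := by ring
  rw [e, Real.cos_sub]
  have h1 := Real.sin_sq_add_cos_sq (θ * (Real.pi / 3))
  have h2 := Real.sin_sq_add_cos_sq (u * (Real.pi / 3))
  linear_combination r ^ 2 * h1 + h2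

theorem cosc (u : ℝ) : Continuous fun p : ℝ × ℝ => Real.cos ((p.2 - u) * (Real.pi / 3)) := by fun_prop

/-- the directions of a colour which is absent outside `S(q)` near `z` -/
theorem dr_in (h : Irr U T) {u θ : ℝ} {i : Fin 6} (hθ : θ ∈ Dr T z i)
    (hs : ∀ᶠ x in 𝓝 z, 1 < dist x (pt z u) → i ∉ Pal U x) : 0 ≤ Real.cos ((θ - u) * (Real.pi / 3)) := by
  by_contra hcon
  push Not at hcon
  rw [mem_dr] at hθ
  have h1 : ∀ᶠ p : ℝ × ℝ in 𝓝 ((0 : ℝ), θ), 1 < dist (po z p) (pt z u) → i ∉ Pal U (po z p) := by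
    have := (continuous_po z).tendsto ((0 : ℝ), θ)
    rw [po_zero] at this
    exact this.eventually hs
  have h2 : ∀ᶠ p : ℝ × ℝ in 𝓝 ((0 : ℝ), θ), Real.cos ((p.2 - u) * (Real.pi / 3)) < 0 :=
    (cosc u).continuousAt.eventually_lt_const hcon
  obtain ⟨p, hp, hp1, hp2⟩ := (hθ.and_eventually (h1.and h2)).exists
  refine hp1 ?_ (h.sub _ hp.2)
  have h3 := sq_dist_po z p.1 p.2 u
  have h4 := dist_nonneg (x := po z p) (y := pt z u)
  have h5 := hp.1
  have h6 : 1 < dist (po z p) (pt z u) ^ 2 := by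
    rw [show (p.1, p.2) = p from rfl] at h3
    rw [h3]; nlinarith
  by_contra h7
  push Not at h7
  nlinarith

/-- the directions of a colour which is absent inside `S(q)` near `z` -/
theorem dr_out (h : Irr U T) {u θ : ℝ} {o : Fin 6} (hθ : θ ∈ Dr T z o)
    (hs : ∀ᶠ x in 𝓝 z, dist x (pt z u) < 1 → o ∉ Pal U x) : Real.cos ((θ - u) * (Real.pi / 3)) ≤ 0 := by
  by_contra hcon
  push Not at hcon
  set C := Real.cos ((θ - u) * (Real.pi / 3)) with hC
  rw [mem_dr] at hθ
  have h1 : ∀ᶠ p : ℝ × ℝ in 𝓝 ((0 : ℝ), θ), dist (po z p) (pt z u) < 1 → o ∉ Pal U (po z p) := by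
    have := (continuous_po z).tendsto ((0 : ℝ), θ)
    rw [po_zero] at this
    exact this.eventually hs
  have h2 : ∀ᶠ p : ℝ × ℝ in 𝓝 ((0 : ℝ), θ), C / 2 < Real.cos ((p.2 - u) * (Real.pi / 3)) :=
    (cosc u).continuousAt.eventually_const_lt (by show C / 2 < C; linarith)
  have h3 : ∀ᶠ p : ℝ × ℝ in 𝓝 ((0 : ℝ), θ), p.1 < C :=
    continuous_fst.continuousAt.eventually_lt_const hcon
  obtain ⟨p, hp, hp1, hp2, hp3⟩ := (hθ.and_eventually (h1.and (h2.and h3))).exists
  refine hp1 ?_ (h.sub _ hp.2)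
  have h4 := sq_dist_po z p.1 p.2 u
  have h5 := dist_nonneg (x := po z p) (y := pt z u)
  have h6 := hp.1
  have h7 : dist (po z p) (pt z u) ^ 2 < 1 := by
    rw [show (p.1, p.2) = p from rfl] at h4
    rw [h4]; nlinarith
  by_contra h8
  push Not at h8
  nlinarith

end Vale.Agent.P032.H892
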