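import Vale.Agent.P032.H892.GermB

/-!
# P032: several centres with bits of arbitrary closed sets of directions in the state

The same as `GermB`, with the limit directions `Dr T (Z j) q` replaced by arbitrary closed sets `D j q` of times
(`j` in a finite type `B` which has nothing to do with the centres), for instance
`D j q = {θ | θ + 3/2 ∈ Dr T (Z j) q}` (`shD`, `shD_closed`: the ray of the direction `u (j)` turned by 90 degrees).

`cS, cR, cL, cAl, cAr, cBl, cBr` : the bits; `cA_step`, `cB_step`, `cS_iff`; `runCF`, `runC`, `no_closureC`, `no_invC`.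
-/

open Set Filter Topology Metric

noncomputable section

namespace Vale.Agent.P032.H892

open Vale.Agent.P032.Six Vale.Agent.P032.Words Vale.Agent.P032.S5.H767

variable {J B : Type} {U : Fin 6 → Set ℂ} {T : ℂ → Set (Fin 6)} {Z : J → ℂ} {D : B → Fin 6 → Set ℝ}

/-- the directions turned by 90 degrees -/
def shD (T : ℂ → Set (Fin 6)) (Z : J → ℂ) : J → Fin 6 → Set ℝ := fun j q => {θ | θ + 3 / 2 ∈ Dr T (Z j) q}

theorem shD_closed (T : ℂ → Set (Fin 6)) (Z : J → ℂ) (j : J) (q : Fin 6) : IsClosed (shD T Z j q) :=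
  (dr_closed T (Z j) q).preimage (by fun_prop : Continuous fun θ : ℝ => θ + 3 / 2)

section
variable (D)

/-- the colour `q` has a limit direction strictly between `u1 + m` and `u1 + m + 1` -/
def cS (u1 : ℝ) : GB B := fun j m q => (D j q ∩ Ioo (u1 + m.val) (u1 + m.val + 1)).Nonempty

/-- the limit directions of `q` accumulate at `u1 + m` from the right -/
def cR (u1 : ℝ) : GB B := fun j m q => AccR (D j q) (u1 + m.val)

/-- the limit directions of `q` accumulate at `u1 + m + 1` from the left -/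
def cL (u1 : ℝ) : GB B := fun j m q => AccL (D j q) (u1 + m.val + 1)

/-- bit `A` just before `u` -/
def cAl (u1 u : ℝ) : GB B := fun j m q => (D j q ∩ Ioo (u1 + m.val) (u + m.val)).Nonempty

/-- bit `A` just after `u` -/
def cAr (u1 u : ℝ) : GB B := fun j m q => (D j q ∩ Ioc (u1 + m.val) (u + m.val)).Nonempty

/-- bit `B` just before `u` -/
def cBl (u1 u : ℝ) : GB B := fun j m q => (D j q ∩ Ico (u + m.val) (u1 + m.val + 1)).Nonempty

/-- bit `B` just after `u` -/
def cBr (u1 u : ℝ) : GB B := fun j m q => (D j q ∩ Ioo (u + m.val) (u1 + m.val + 1)).Nonempty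

end

/-- the bits `A` at the time `u` -/
theorem cA_step {u1 u : ℝ} (h : u1 < u) (j : B) (m q : Fin 6) :
    cAr D u1 u j m q ↔ cAl D u1 u j m q ∨ u + m.val ∈ D j q := by
  constructor
  · rintro ⟨x, hx, h1, h2⟩
    rcases h2.lt_or_eq with h3 | h3
    · exact Or.inl ⟨x, hx, h1, h3⟩
    · exact Or.inr (h3 ▸ hx)
  · rintro (⟨x, hx, h1, h2⟩ | hx)
    · exact ⟨x, hx, h1, h2.le⟩
    · exact ⟨_, hx, by linarith, le_refl _⟩

/-- the bits `B` at the time `u` -/
theorem cB_step {u1 u : ℝ} (h : u < u1 + 1) (j : B) (m q : Fin 6) :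
    cBl D u1 u j m q ↔ cBr D u1 u j m q ∨ u + m.val ∈ D j q := by
  constructor
  · rintro ⟨x, hx, h1, h2⟩
    rcases h1.lt_or_eq with h3 | h3
    · exact Or.inl ⟨x, hx, h3, h2⟩
    · exact Or.inr (h3 ▸ hx)
  · rintro (⟨x, hx, h1, h2⟩ | hx)
    · exact ⟨x, hx, h1.le, h2⟩
    · exact ⟨_, hx, le_refl _, by linarith⟩

theorem cA_mono {u1 u : ℝ} {j : B} {m q : Fin 6} (h : cAl D u1 u j m q) : cAr D u1 u j m q := by
  obtain ⟨x, hx, h1, h2⟩ := h
  exact ⟨x, hx, h1, h2.le⟩

theorem cB_mono {u1 u : ℝ} {j : B} {m q : Fin 6} (h : cBr D u1 u j m q) : cBl D u1 u j m q := by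
  obtain ⟨x, hx, h1, h2⟩ := h
  exact ⟨x, hx, h1.le, h2⟩

/-- the whole sector -/
theorem cS_iff {u1 u : ℝ} (h : u ∈ Ioo u1 (u1 + 1)) (j : B) (m q : Fin 6) :
    cS D u1 j m q ↔ cAl D u1 u j m q ∨ u + m.val ∈ D j q ∨ cBr D u1 u j m q := by
  constructor
  · rintro ⟨x, hx, h1, h2⟩
    rcases lt_trichotomy x (u + m.val) with h3 | h3 | h3
    · exact Or.inl ⟨x, hx, h1, h3⟩
    · exact Or.inr (Or.inl (h3 ▸ hx))
    · exact Or.inr (Or.inr ⟨x, hx, h3, h2⟩)
  · rintro (⟨x, hx, h1, h2⟩ | hx | ⟨x, hx, h1, h2⟩)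
    · exact ⟨x, hx, h1, by linarith [h.2]⟩
    · exact ⟨_, hx, by linarith [h.1], by linarith [h.2]⟩
    · exact ⟨x, hx, by linarith [h.1], h2⟩

/-- accumulation of directions at `u + m` -/
theorem cAl_of_acc {u1 u : ℝ} (h : u1 < u) {j : B} {m q : Fin 6} (ha : AccL (D j q) (u + m.val)) :
    cAl D u1 u j m q := ha.ne (by linarith)

theorem cBr_of_acc {u1 u : ℝ} (h : u < u1 + 1) {j : B} {m q : Fin 6} (ha : AccR (D j q) (u + m.val)) :
    cBr D u1 u j m q := ha.ne (by linarith)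

section
variable [Finite J] [Finite B]

theorem ev_cbits_left (hD : ∀ j q, IsClosed (D j q)) {u1 u : ℝ} (h1 : u1 < u) (h2 : u ≤ u1 + 1) :
    ∀ᶠ v in 𝓝[<] u, cAr D u1 v = cAl D u1 u ∧
      cBr D u1 v = fun j m q => cBl D u1 u j m q ∨ (u = u1 + 1 ∧ cL D u1 j m q) := by
  have key : ∀ᶠ v in 𝓝[<] u, ∀ j : B, ∀ m q : Fin 6, cAr D u1 v j m q = cAl D u1 u j m q ∧
      cBr D u1 v j m q = (cBl D u1 u j m q ∨ (u = u1 + 1 ∧ cL D u1 j m q)) := by
    rw [eventually_all]; intro j
    rw [eventually_all]; intro m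
    rw [eventually_all]; intro q
    have e1 := (tendsto_add_left u (m.val : ℝ)).eventually
      (bitA_left (D := D j q) (a := u1 + m.val) (u := u + m.val))
    have e2 := (tendsto_add_left u (m.val : ℝ)).eventually
      (bitB_left (hD j q) (u := u + m.val) (b := u1 + m.val + 1) (by linarith))
    filter_upwards [e1, e2] with v k1 k2
    refine ⟨k1, ?_⟩
    have k3 : (u + m.val = u1 + m.val + 1) = (u = u1 + 1) :=
      propext ⟨fun h => by linarith, fun h => by linarith⟩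
    rw [k3] at k2
    exact k2
  filter_upwards [key] with v hv
  exact ⟨funext fun j => funext fun m => funext fun q => (hv j m q).1,
    funext fun j => funext fun m => funext fun q => (hv j m q).2⟩

theorem ev_cbits_right (hD : ∀ j q, IsClosed (D j q)) {u1 u : ℝ} (h1 : u1 ≤ u) :
    ∀ᶠ v in 𝓝[>] u, (cAr D u1 v = fun j m q => cAr D u1 u j m q ∨ (u = u1 ∧ cR D u1 j m q)) ∧
      cBr D u1 v = cBr D u1 u := by
  have key : ∀ᶠ v in 𝓝[>] u, ∀ j : B, ∀ m q : Fin 6,
      cAr D u1 v j m q = (cAr D u1 u j m q ∨ (u = u1 ∧ cR D u1 j m q)) ∧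
      cBr D u1 v j m q = cBr D u1 u j m q := by
    rw [eventually_all]; intro j
    rw [eventually_all]; intro m
    rw [eventually_all]; intro q
    have e1 := (tendsto_add_right u (m.val : ℝ)).eventually
      (bitA_right (hD j q) (a := u1 + m.val) (u := u + m.val) (by linarith))
    have e2 := (tendsto_add_right u (m.val : ℝ)).eventually
      (bitB_right (D := D j q) (u := u + m.val) (b := u1 + m.val + 1))
    filter_upwards [e1, e2] with v k1 k2
    refine ⟨?_, k2⟩
    have k3 : (u + m.val = u1 + m.val) = (u = u1) :=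
      propext ⟨fun h => by linarith, fun h => by linarith⟩
    rw [k3] at k1
    exact k1
  filter_upwards [key] with v hv
  exact ⟨funext fun j => funext fun m => funext fun q => (hv j m q).1,
    funext fun j => funext fun m => funext fun q => (hv j m q).2⟩

/-- **Induction with letters, bits and the flag.** -/
theorem runCF (C : ∀ j, Cn U T (Z j)) (hD : ∀ j q, IsClosed (D j q)) {u1 : ℝ} {I : (J → Fin 6 → Option L6) → GB B → GB B → Prop → Prop}
    (h0 : I (JR U T Z u1) (cR D u1) (cS D u1) False)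
    (hstep : ∀ u ∈ Ioo u1 (u1 + 1),
      I (JL U T Z u) (cAl D u1 u) (cBl D u1 u) (∃ v ∈ Ioo u1 u, ChgJ U T Z v) →
      I (JR U T Z u) (cAr D u1 u) (cBr D u1 u) (∃ v ∈ Ioc u1 u, ChgJ U T Z v)) :
    I (JL U T Z (u1 + 1)) (cS D u1) (cL D u1) (∃ v ∈ Ioo u1 (u1 + 1), ChgJ U T Z v) := by
  have key := run0 (S := (J → Fin 6 → Option L6) × GB B × GB B × Prop)
    (σ := fun u => (JR U T Z u, cAr D u1 u, cBr D u1 u, ∃ v ∈ Ioo u1 u, ChgJ U T Z v))
    (σl := fun u => (JL U T Z u, cAl D u1 u,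
      (fun j m q => cBl D u1 u j m q ∨ (u = u1 + 1 ∧ cL D u1 j m q)), ∃ v ∈ Ioo u1 u, ChgJ U T Z v))
    (σr := fun u => (JR U T Z u, (fun j m q => cAr D u1 u j m q ∨ (u = u1 ∧ cR D u1 j m q)),
      cBr D u1 u, ∃ v ∈ Ioc u1 u, ChgJ U T Z v))
    (I := fun x => I x.1 x.2.1 x.2.2.1 x.2.2.2) (a := u1) (b := u1 + 1) (by linarith) ?_ ?_ ?_ ?_
  · have e1 : cAl D u1 (u1 + 1) = cS D u1 := by
      funext j m q
      show (_ ∩ Ioo _ _).Nonempty = (_ ∩ Ioo _ _).Nonempty
      rw [show u1 + 1 + (m.val : ℝ) = u1 + m.val + 1 by ring]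
    have e2 : (fun j m q => cBl D u1 (u1 + 1) j m q ∨ (u1 + 1 = u1 + 1 ∧ cL D u1 j m q)) = cL D u1 := by
      funext j m q
      refine propext ⟨?_, fun h => Or.inr ⟨rfl, h⟩⟩
      rintro (⟨x, hx, k1, k2⟩ | h)
      · exact absurd k2 (not_lt.2 (by linarith))
      · exact h.2
    have key : I (JL U T Z (u1 + 1)) (cAl D u1 (u1 + 1))
      (fun j m q => cBl D u1 (u1 + 1) j m q ∨ (u1 + 1 = u1 + 1 ∧ cL D u1 j m q))
      (∃ v ∈ Ioo u1 (u1 + 1), ChgJ U T Z v) := key
    rw [e1, e2] at key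
    exact key
  · intro u hu
    filter_upwards [ev_leftJ C u, ev_cbits_left hD hu.1 hu.2,
      flag_left (a := u1) (no_chgJ_left C u)] with v k1 k2 k3
    exact Prod.ext k1.1 (Prod.ext k2.1 (Prod.ext k2.2 k3))
  · intro u hu
    filter_upwards [ev_rightJ C u, ev_cbits_right hD hu.1,
      flag_right (a := u1) (no_chgJ_right C u)] with v k1 k2 k3
    exact Prod.ext k1.1 (Prod.ext k2.1 (Prod.ext k2.2 k3))
  · have e : (∃ v ∈ Ioc u1 u1, ChgJ U T Z v) = False := by simp
    have e1 : (fun j m q => cAr D u1 u1 j m q ∨ (u1 = u1 ∧ cR D u1 j m q)) = cR D u1 := by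
      funext j m q
      refine propext ⟨?_, fun h => Or.inr ⟨rfl, h⟩⟩
      rintro (⟨x, hx, k1, k2⟩ | h)
      · exact absurd k1 (not_lt.2 k2)
      · exact h.2
    have e2 : cBr D u1 u1 = cS D u1 := rfl
    show I (JR U T Z u1) (fun j m q => cAr D u1 u1 j m q ∨ (u1 = u1 ∧ cR D u1 j m q)) (cBr D u1 u1)
      (∃ v ∈ Ioc u1 u1, ChgJ U T Z v)
    rw [e, e1, e2]; exact h0
  · intro u hu h
    have e1 : (fun j m q => cBl D u1 u j m q ∨ (u = u1 + 1 ∧ cL D u1 j m q)) = cBl D u1 u := by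
      funext j m q
      exact propext ⟨fun h => h.elim id fun h => absurd h.1 hu.2.ne, Or.inl⟩
    have e2 : (fun j m q => cAr D u1 u j m q ∨ (u = u1 ∧ cR D u1 j m q)) = cAr D u1 u := by
      funext j m q
      exact propext ⟨fun h => h.elim id fun h => absurd h.1 hu.1.ne', Or.inl⟩
    have h : I (JL U T Z u) (cAl D u1 u) (fun j m q => cBl D u1 u j m q ∨ (u = u1 + 1 ∧ cL D u1 j m q))
      (∃ v ∈ Ioo u1 u, ChgJ U T Z v) := h
    rw [e1] at h
    show I (JR U T Z u) (fun j m q => cAr D u1 u j m q ∨ (u = u1 ∧ cR D u1 j m q)) (cBr D u1 u)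
      (∃ v ∈ Ioc u1 u, ChgJ U T Z v)
    rw [e2]
    exact hstep u hu h

/-- **Induction with letters and bits.** -/
theorem runC (C : ∀ j, Cn U T (Z j)) (hD : ∀ j q, IsClosed (D j q)) {u1 : ℝ} {I : (J → Fin 6 → Option L6) → GB B → GB B → Prop}
    (h0 : I (JR U T Z u1) (cR D u1) (cS D u1))
    (hstep : ∀ u ∈ Ioo u1 (u1 + 1), I (JL U T Z u) (cAl D u1 u) (cBl D u1 u) →
      I (JR U T Z u) (cAr D u1 u) (cBr D u1 u)) :
    I (JL U T Z (u1 + 1)) (cS D u1) (cL D u1) :=
  runCF C hD (I := fun s A B _ => I s A B) h0 fun u hu h => hstep u hu h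

/-- **Closure form** with letters, bits and the flag: `V` holds just after `u1`, no event of `(u1, u1 + 1)` leaves it,
and it does not hold for the turned letters just before `u1`: contradiction. -/
theorem no_closureC (C : ∀ j, Cn U T (Z j)) (hD : ∀ j q, IsClosed (D j q)) {u1 : ℝ}
    {V : Prop → (J → Fin 6 → Option L6) → GB B → GB B → Prop}
    (h0 : V False (JR U T Z u1) (cR D u1) (cS D u1))
    (hstep : ∀ u ∈ Ioo u1 (u1 + 1),
      V (∃ v ∈ Ioo u1 u, ChgJ U T Z v) (JL U T Z u) (cAl D u1 u) (cBl D u1 u) →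
      V (∃ v ∈ Ioc u1 u, ChgJ U T Z v) (JR U T Z u) (cAr D u1 u) (cBr D u1 u))
    (hend : ∀ p, ¬ V p (shJ (JL U T Z u1)) (cS D u1) (cL D u1)) : False := by
  have key := runCF C hD (I := fun s A B p => V p s A B) h0 hstep
  rw [jl_succ C] at key
  exact hend _ key

/-- **Invariant form** (PDR): a predicate `V` of the letters and the bits which holds just after the class 0, is kept by
every event in between and fails for the turned letters just before the class 0. -/
theorem no_invC (C : ∀ j, Cn U T (Z j)) (hD : ∀ j q, IsClosed (D j q)) {u1 : ℝ} {V : (J → Fin 6 → Option L6) → GB B → GB B → Prop}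
    (h0 : V (JR U T Z u1) (cR D u1) (cS D u1))
    (hstep : ∀ u ∈ Ioo u1 (u1 + 1), V (JL U T Z u) (cAl D u1 u) (cBl D u1 u) →
      V (JR U T Z u) (cAr D u1 u) (cBr D u1 u))
    (hend : ¬ V (shJ (JL U T Z u1)) (cS D u1) (cL D u1)) : False := by
  have key := runC C hD h0 hstep
  rw [jl_succ C] at key
  exact hend key

end

end Vale.Agent.P032.H892
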