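import Vale.Agent.P032.H357.CellK
import Vale.Agent.P032.H892.Cross
import Vale.Agent.P032.S5.H80.Anti

/-!
# P032: solid arcs (rule book kinds SRC, A7, A8, A10, CLa, Z3, Z4, Z5), wild frame `Irr U T`

`q ∈ Pal U (pt x s)` for all `s ∈ Icc a b` : the arc of `S(x)` between the angles `a`, `b` (units of 60 degrees) is solid
in the colour `q`.

* `src_near`, `src_far` : a connected set of the colour `i` through `y` with a point inside (outside) `S(w)` : the points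
  of `U i` near `w` are inside (outside) `S(y)`,
* `CLa` : two points of a solid arc are not on different sides of the circle about a point with the colour,
* `A8` : an inner point of a solid arc,
* `arc_near`, `arc_far`, `arc_near'`, `arc_far'` (A10) : the ends of a solid arc,
* `no_ds`, `no_far`, `no_near`, `wedge` (A7) : the centre of a solid arc.
-/

open Set Filter Topology Metric

noncomputable section

namespace Vale.Agent.P032.H892

open Vale.Agent.P032.Six Vale.Agent.P032.H357 Vale.Agent.P032.H913 Vale.Agent.P032.S5.H767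

/-! ### connected sets -/

section src
variable {k : ℕ} {U : Fin k → Set ℂ} {T : ℂ → Set (Fin k)} {i : Fin k} {Γ : Set ℂ}

theorem pal_cross (h : Irr U T) (hΓ : IsPreconnected Γ) (hi : ∀ x ∈ Γ, i ∈ Pal U x) {t p q : ℂ} (ht : i ∈ Pal U t)
    (hp : p ∈ Γ) (hq : q ∈ Γ) (h1 : dist p t < 1) (h2 : 1 < dist q t) : False :=
  h.mx.wlemma hΓ (fun x hx => hi x hx) hp hq h1 h2 ht

/-- **SRC**, near case -/
theorem src_near (h : Irr U T) (hΓ : IsPreconnected Γ) (hi : ∀ x ∈ Γ, i ∈ Pal U x) {y p w : ℂ} (hy : y ∈ Γ)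
    (hp : p ∈ Γ) (hpw : dist p w < 1) : ∀ᶠ w' in 𝓝 w, w' ∈ U i → dist w' y < 1 := by
  have h1 : ∀ᶠ w' in 𝓝 w, dist p w' < 1 :=
    (continuous_const.dist continuous_id).continuousAt.eventually_lt_const hpw
  filter_upwards [h1] with w' hw' hU
  by_contra hcon
  push Not at hcon
  rcases hcon.eq_or_lt with h2 | h2
  · exact h.mx.notMem' hU h2.symm (hi y hy)
  · exact pal_cross h hΓ hi (subset_closure hU) hp hy hw' (by rwa [dist_comm])

/-- **SRC**, far case -/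
theorem src_far (h : Irr U T) (hΓ : IsPreconnected Γ) (hi : ∀ x ∈ Γ, i ∈ Pal U x) {y p w : ℂ} (hy : y ∈ Γ)
    (hp : p ∈ Γ) (hpw : 1 < dist p w) : ∀ᶠ w' in 𝓝 w, w' ∈ U i → 1 < dist w' y := by
  have h1 : ∀ᶠ w' in 𝓝 w, 1 < dist p w' :=
    (continuous_const.dist continuous_id).continuousAt.eventually_const_lt hpw
  filter_upwards [h1] with w' hw' hU
  by_contra hcon
  push Not at hcon
  rcases hcon.eq_or_lt with h2 | h2
  · exact h.mx.notMem' hU h2 (hi y hy)
  · exact pal_cross h hΓ hi (subset_closure hU) hy hp (by rwa [dist_comm]) hw'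

/-- **SRC**, closed forms for all points of the colour -/
theorem src_near_le (h : Irr U T) (hΓ : IsPreconnected Γ) (hi : ∀ x ∈ Γ, i ∈ Pal U x) {y p w : ℂ} (hy : y ∈ Γ)
    (hp : p ∈ Γ) (hpw : dist p w < 1) : ∀ᶠ w' in 𝓝 w, i ∈ Pal U w' → dist w' y ≤ 1 := by
  have h1 : ∀ᶠ w' in 𝓝 w, dist p w' < 1 :=
    (continuous_const.dist continuous_id).continuousAt.eventually_lt_const hpw
  filter_upwards [h1] with w' hw' hU
  by_contra hcon
  push Not at hcon
  exact pal_cross h hΓ hi hU hp hy hw' (by rwa [dist_comm])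

theorem src_far_le (h : Irr U T) (hΓ : IsPreconnected Γ) (hi : ∀ x ∈ Γ, i ∈ Pal U x) {y p w : ℂ} (hy : y ∈ Γ)
    (hp : p ∈ Γ) (hpw : 1 < dist p w) : ∀ᶠ w' in 𝓝 w, i ∈ Pal U w' → 1 ≤ dist w' y := by
  have h1 : ∀ᶠ w' in 𝓝 w, 1 < dist p w' :=
    (continuous_const.dist continuous_id).continuousAt.eventually_const_lt hpw
  filter_upwards [h1] with w' hw' hU
  by_contra hcon
  push Not at hcon
  exact pal_cross h hΓ hi hU hy hp (by rwa [dist_comm]) hw'

end src

variable {U : Fin 6 → Set ℂ} {T : ℂ → Set (Fin 6)} {x : ℂ} {a b : ℝ} {q : Fin 6}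

/-- the closed arc -/
def arcS (x : ℂ) (a b : ℝ) : Set ℂ := pt x '' Icc a b

theorem arcS_pre (x : ℂ) (a b : ℝ) : IsPreconnected (arcS x a b) :=
  (isPreconnected_Icc).image _ (continuous_pt x).continuousOn

theorem arcS_mem {s : ℝ} (hs : s ∈ Icc a b) : pt x s ∈ arcS x a b := ⟨s, hs, rfl⟩

theorem arcS_pal (hF : ∀ s ∈ Icc a b, q ∈ Pal U (pt x s)) : ∀ y ∈ arcS x a b, q ∈ Pal U y := by
  rintro _ ⟨s, hs, rfl⟩
  exact hF s hs

/-- **CLa** -/
theorem CLa (h : Irr U T) (hF : ∀ s ∈ Icc a b, q ∈ Pal U (pt x s)) {p : ℂ} (hp : q ∈ Pal U p) {s s' : ℝ}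
    (hs : s ∈ Icc a b) (hs' : s' ∈ Icc a b) (h1 : dist (pt x s) p < 1) (h2 : 1 < dist (pt x s') p) : False :=
  pal_cross h (arcS_pre x a b) (arcS_pal hF) hp (arcS_mem hs) (arcS_mem hs') h1 h2

/-- **A8** -/
theorem A8 (h : Irr U T) (hF : ∀ s ∈ Icc a b, q ∈ Pal U (pt x s)) {s : ℝ} (hs : s ∈ Ioo a b) {w : ℂ}
    (hw : dist (pt x s) w = 1) (h1 : w ≠ x) (h2 : w + x ≠ 2 * pt x s) : q ∉ Pal U w := by
  intro hq
  have hJ : ∀ᶠ y in 𝓝[sphere x 1] (pt x s), q ∈ Pal U y :=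
    ev_circle x (by
      filter_upwards [Ioo_mem_nhds hs.1 hs.2] with v hv
      exact hF v (Ioo_subset_Icc_self hv))
  rcases h.mx.partner_line (dist_pt x s) hJ hw hq with h3 | h3
  · exact h1 h3
  · exact h2 h3

/-! ### the ends of an arc (A10) -/

theorem sq_end (x : ℂ) (a s ε : ℝ) : dist (pt x (a + ε)) (pt x a + dir s) ^ 2 =
    3 - 2 * Real.cos (ε * (Real.pi / 3)) - 2 * Real.cos ((a + ε - s) * (Real.pi / 3)) +
      2 * Real.cos ((a - s) * (Real.pi / 3)) := by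
  have e1 : (a + ε) * (Real.pi / 3) - a * (Real.pi / 3) = ε * (Real.pi / 3) := by ring
  have e2 : (a + ε) * (Real.pi / 3) - s * (Real.pi / 3) = (a + ε - s) * (Real.pi / 3) := by ring
  have e3 : a * (Real.pi / 3) - s * (Real.pi / 3) = (a - s) * (Real.pi / 3) := by ring
  rw [sq_dist, ← e1, ← e2, ← e3, Real.cos_sub, Real.cos_sub, Real.cos_sub]
  unfold pt dir
  simp only [Complex.add_re, Complex.add_im, cis_re, cis_im]
  have h1 := Real.sin_sq_add_cos_sq ((a + ε) * (Real.pi / 3))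
  have h2 := Real.sin_sq_add_cos_sq (a * (Real.pi / 3))
  have h3 := Real.sin_sq_add_cos_sq (s * (Real.pi / 3))
  linear_combination h1 + h2 + h3

theorem sq_end' (x : ℂ) (a s ε : ℝ) : dist (pt x (a + ε)) (pt x a + dir s) ^ 2 - 1 =
    4 * Real.sin (ε * (Real.pi / 3) / 2) * (Real.sin (ε * (Real.pi / 3) / 2) *
      (1 + Real.cos ((a - s) * (Real.pi / 3))) +
      Real.sin ((a - s) * (Real.pi / 3)) * Real.cos (ε * (Real.pi / 3) / 2)) := by
  rw [sq_end]
  have e1 : (a + ε - s) * (Real.pi / 3) = (a - s) * (Real.pi / 3) + ε * (Real.pi / 3) := by ring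
  have e2 : Real.cos (ε * (Real.pi / 3)) = 1 - 2 * Real.sin (ε * (Real.pi / 3) / 2) ^ 2 := by
    have h1 := Real.cos_two_mul (ε * (Real.pi / 3) / 2)
    have h2 := Real.sin_sq_add_cos_sq (ε * (Real.pi / 3) / 2)
    have e : 2 * (ε * (Real.pi / 3) / 2) = ε * (Real.pi / 3) := by ring
    rw [e] at h1
    linear_combination h1 + 2 * h2
  have e3 : Real.sin (ε * (Real.pi / 3)) =
      2 * Real.sin (ε * (Real.pi / 3) / 2) * Real.cos (ε * (Real.pi / 3) / 2) := by
    have h1 := Real.sin_two_mul (ε * (Real.pi / 3) / 2)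
    have e : 2 * (ε * (Real.pi / 3) / 2) = ε * (Real.pi / 3) := by ring
    rwa [e] at h1
  rw [e1, Real.cos_add, e2, e3]
  ring

/-- near the end of an arc, `τ = 1` : the beginning, `τ = -1` : the end -/
theorem ev_end (x : ℂ) (a s : ℝ) {τ : ℝ} (hτ : τ = 1 ∨ τ = -1) :
    (0 < τ * Real.sin ((s - a) * (Real.pi / 3)) →
      ∀ᶠ ε : ℝ in 𝓝[>] 0, dist (pt x (a + τ * ε)) (pt x a + dir s) < 1) ∧
    ((τ * Real.sin ((s - a) * (Real.pi / 3)) < 0 ∨ dir s = dir a) →
      ∀ᶠ ε : ℝ in 𝓝[>] 0, 1 < dist (pt x (a + τ * ε)) (pt x a + dir s)) := by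
  have hpi := Real.pi_pos
  have hτ2 : τ ^ 2 = 1 := by rcases hτ with rfl | rfl <;> norm_num
  set S := Real.sin ((a - s) * (Real.pi / 3)) with hS
  have hS' : Real.sin ((s - a) * (Real.pi / 3)) = -S := by
    rw [hS, ← Real.sin_neg]; congr 1; ring
  set C := Real.cos ((a - s) * (Real.pi / 3)) with hC
  -- the bracket
  have hodd : ∀ ε : ℝ, Real.sin (τ * ε * (Real.pi / 3) / 2) = τ * Real.sin (ε * (Real.pi / 3) / 2) ∧
      Real.cos (τ * ε * (Real.pi / 3) / 2) = Real.cos (ε * (Real.pi / 3) / 2) := by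
    intro ε
    rcases hτ with rfl | rfl
    · simp
    · have e : (-1 : ℝ) * ε * (Real.pi / 3) / 2 = -(ε * (Real.pi / 3) / 2) := by ring
      rw [e, Real.sin_neg, Real.cos_neg]; simp
  have key : ∀ ε : ℝ, dist (pt x (a + τ * ε)) (pt x a + dir s) ^ 2 - 1 =
      4 * Real.sin (ε * (Real.pi / 3) / 2) * (Real.sin (ε * (Real.pi / 3) / 2) * (1 + C) +
        τ * S * Real.cos (ε * (Real.pi / 3) / 2)) := by
    intro ε
    rw [sq_end' x a s (τ * ε), (hodd ε).1, (hodd ε).2]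
    linear_combination (4 * Real.sin (ε * (Real.pi / 3) / 2) * Real.sin (ε * (Real.pi / 3) / 2) * (1 + C)) * hτ2
  have hb : Continuous fun ε : ℝ => Real.sin (ε * (Real.pi / 3) / 2) * (1 + C) +
      τ * S * Real.cos (ε * (Real.pi / 3) / 2) := by fun_prop
  have hb0 : Real.sin (0 * (Real.pi / 3) / 2) * (1 + C) + τ * S * Real.cos (0 * (Real.pi / 3) / 2) = τ * S := by
    simp
  have hsin : ∀ᶠ ε : ℝ in 𝓝[>] 0, 0 < Real.sin (ε * (Real.pi / 3) / 2) := by
    filter_upwards [Ioo_mem_nhdsGT (show (0 : ℝ) < 1 by norm_num)] with ε hε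
    refine Real.sin_pos_of_pos_of_lt_pi ?_ ?_
    · have := hε.1; positivity
    · nlinarith [hε.1, hε.2]
  constructor
  · intro h
    rw [hS'] at h
    have h1 : ∀ᶠ ε : ℝ in 𝓝[>] 0, Real.sin (ε * (Real.pi / 3) / 2) * (1 + C) +
        τ * S * Real.cos (ε * (Real.pi / 3) / 2) < 0 := by
      refine nhdsWithin_le_nhds (hb.continuousAt.eventually_lt_const ?_)
      show Real.sin (0 * (Real.pi / 3) / 2) * (1 + C) + τ * S * Real.cos (0 * (Real.pi / 3) / 2) < 0
      rw [hb0]; linarith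
    filter_upwards [h1, hsin] with ε h2 h3
    refine lt_one_of_sq dist_nonneg ?_
    have := key ε
    nlinarith
  · intro h
    rcases h with h | h
    · rw [hS'] at h
      have h1 : ∀ᶠ ε : ℝ in 𝓝[>] 0, 0 < Real.sin (ε * (Real.pi / 3) / 2) * (1 + C) +
          τ * S * Real.cos (ε * (Real.pi / 3) / 2) := by
        refine nhdsWithin_le_nhds (hb.continuousAt.eventually_const_lt ?_)
        show 0 < Real.sin (0 * (Real.pi / 3) / 2) * (1 + C) + τ * S * Real.cos (0 * (Real.pi / 3) / 2)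
        rw [hb0]; linarith
      filter_upwards [h1, hsin] with ε h2 h3
      refine one_lt_of_sq dist_nonneg ?_
      have := key ε
      nlinarith
    · have h4 := ip_dir a s
      have h5 := ip_dir a a
      rw [h] at h4
      rw [h4, sub_self, zero_mul, Real.cos_zero] at h5
      have hC1 : C = 1 := h5
      have hS1 : S = 0 := by
        have h6 := Real.sin_sq_add_cos_sq ((a - s) * (Real.pi / 3))
        rw [← hS, ← hC, hC1] at h6
        nlinarith
      filter_upwards [hsin] with ε h3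
      refine one_lt_of_sq dist_nonneg ?_
      have := key ε
      rw [hC1, hS1] at this
      nlinarith

/-- **A10**, beginning of the arc, near case -/
theorem arc_near (h : Irr U T) (hab : a < b) (hF : ∀ s ∈ Icc a b, q ∈ Pal U (pt x s)) {s : ℝ}
    (hs : 0 < Real.sin ((s - a) * (Real.pi / 3))) :
    ∀ᶠ w in 𝓝 (pt x a + dir s), w ∈ U q → dist w (pt x a) < 1 := by
  have h1 := (ev_end x a s (τ := 1) (Or.inl rfl)).1 (by simpa using hs)
  obtain ⟨ε, h2, h3⟩ := (h1.and (Ioo_mem_nhdsGT (show (0 : ℝ) < b - a by linarith))).exists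
  exact src_near h (arcS_pre x a b) (arcS_pal hF) (arcS_mem ⟨le_rfl, hab.le⟩)
    (arcS_mem ⟨by linarith [h3.1], by linarith [h3.2]⟩) h2

/-- **A10**, beginning of the arc, far case -/
theorem arc_far (h : Irr U T) (hab : a < b) (hF : ∀ s ∈ Icc a b, q ∈ Pal U (pt x s)) {s : ℝ}
    (hs : Real.sin ((s - a) * (Real.pi / 3)) < 0 ∨ dir s = dir a) :
    ∀ᶠ w in 𝓝 (pt x a + dir s), w ∈ U q → 1 < dist w (pt x a) := by
  have h1 := (ev_end x a s (τ := 1) (Or.inl rfl)).2 (by simpa using hs)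
  obtain ⟨ε, h2, h3⟩ := (h1.and (Ioo_mem_nhdsGT (show (0 : ℝ) < b - a by linarith))).exists
  exact src_far h (arcS_pre x a b) (arcS_pal hF) (arcS_mem ⟨le_rfl, hab.le⟩)
    (arcS_mem ⟨by linarith [h3.1], by linarith [h3.2]⟩) h2

/-- **A10**, end of the arc, near case -/
theorem arc_near' (h : Irr U T) (hab : a < b) (hF : ∀ s ∈ Icc a b, q ∈ Pal U (pt x s)) {s : ℝ}
    (hs : Real.sin ((s - b) * (Real.pi / 3)) < 0) :
    ∀ᶠ w in 𝓝 (pt x b + dir s), w ∈ U q → dist w (pt x b) < 1 := by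
  have h1 := (ev_end x b s (τ := -1) (Or.inr rfl)).1 (by linarith)
  obtain ⟨ε, h2, h3⟩ := (h1.and (Ioo_mem_nhdsGT (show (0 : ℝ) < b - a by linarith))).exists
  exact src_near h (arcS_pre x a b) (arcS_pal hF) (arcS_mem ⟨hab.le, le_rfl⟩)
    (arcS_mem ⟨by linarith [h3.2], by linarith [h3.1]⟩) h2

/-- **A10**, end of the arc, far case -/
theorem arc_far' (h : Irr U T) (hab : a < b) (hF : ∀ s ∈ Icc a b, q ∈ Pal U (pt x s)) {s : ℝ}
    (hs : 0 < Real.sin ((s - b) * (Real.pi / 3)) ∨ dir s = dir b) :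
    ∀ᶠ w in 𝓝 (pt x b + dir s), w ∈ U q → 1 < dist w (pt x b) := by
  have h1 := (ev_end x b s (τ := -1) (Or.inr rfl)).2 (hs.imp (fun h => by linarith) id)
  obtain ⟨ε, h2, h3⟩ := (h1.and (Ioo_mem_nhdsGT (show (0 : ℝ) < b - a by linarith))).exists
  exact src_far h (arcS_pre x a b) (arcS_pal hF) (arcS_mem ⟨hab.le, le_rfl⟩)
    (arcS_mem ⟨by linarith [h3.2], by linarith [h3.1]⟩) h2

/-! ### the centre of an arc (A7) -/

/-- a limit direction into the disc about one point of the arc and away from another one -/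
theorem no_ds (h : Irr U T) (hF : ∀ s ∈ Icc a b, q ∈ Pal U (pt x s)) {s1 s2 θ : ℝ} (h1 : s1 ∈ Icc a b)
    (h2 : s2 ∈ Icc a b) (hθ : θ ∈ DS (U q) x) (c1 : Real.cos ((θ - s1) * (Real.pi / 3)) < 0)
    (c2 : 0 < Real.cos ((θ - s2) * (Real.pi / 3))) : False := by
  set C := Real.cos ((θ - s2) * (Real.pi / 3)) with hC
  have e1 : ∀ᶠ p : ℝ × ℝ in 𝓝 ((0 : ℝ), θ), Real.cos ((p.2 - s1) * (Real.pi / 3)) < 0 :=
    (cosc s1).continuousAt.eventually_lt_const c1
  have e2 : ∀ᶠ p : ℝ × ℝ in 𝓝 ((0 : ℝ), θ), C / 2 < Real.cos ((p.2 - s2) * (Real.pi / 3)) :=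
    (cosc s2).continuousAt.eventually_const_lt (by show C / 2 < C; linarith)
  have e3 : ∀ᶠ p : ℝ × ℝ in 𝓝 ((0 : ℝ), θ), p.1 < C := continuous_fst.continuousAt.eventually_lt_const c2
  obtain ⟨p, hp, k1, k2, k3⟩ := (Frequently.and_eventually
    (show ∃ᶠ p in 𝓝 ((0 : ℝ), θ), p ∈ PS (U q) x from hθ) (e1.and (e2.and e3))).exists
  have f1 := sq_dist_po x p.1 p.2 s1
  have f2 := sq_dist_po x p.1 p.2 s2
  rw [show (p.1, p.2) = p from rfl] at f1 f2
  have hp0 := hp.1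
  refine CLa h hF (p := po x p) (subset_closure hp.2) h2 h1 (lt_one_of_sq dist_nonneg ?_)
    (one_lt_of_sq dist_nonneg ?_)
  · rw [dist_comm, f2]; nlinarith
  · rw [dist_comm, f1]; nlinarith

/-- points far from one point of the arc with a limit direction into the disc about another one -/
theorem no_far (h : Irr U T) (hF : ∀ s ∈ Icc a b, q ∈ Pal U (pt x s)) {s1 s2 θ : ℝ} (h1 : s1 ∈ Icc a b)
    (h2 : s2 ∈ Icc a b) (hθ : ∃ᶠ p in 𝓝 ((0 : ℝ), θ), p ∈ PS (U q) x ∧ 1 ≤ dist (po x p) (pt x s1))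
    (c2 : 0 < Real.cos ((θ - s2) * (Real.pi / 3))) : False := by
  set C := Real.cos ((θ - s2) * (Real.pi / 3)) with hC
  have e2 : ∀ᶠ p : ℝ × ℝ in 𝓝 ((0 : ℝ), θ), C / 2 < Real.cos ((p.2 - s2) * (Real.pi / 3)) :=
    (cosc s2).continuousAt.eventually_const_lt (by show C / 2 < C; linarith)
  have e3 : ∀ᶠ p : ℝ × ℝ in 𝓝 ((0 : ℝ), θ), p.1 < C := continuous_fst.continuousAt.eventually_lt_const c2
  obtain ⟨p, ⟨hp, hd⟩, k2, k3⟩ := (hθ.and_eventually (e2.and e3)).exists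
  have f2 := sq_dist_po x p.1 p.2 s2
  rw [show (p.1, p.2) = p from rfl] at f2
  have hp0 := hp.1
  rcases hd.eq_or_lt with h3 | h3
  · exact h.mx.notMem' hp.2 h3.symm (hF s1 h1)
  · refine CLa h hF (p := po x p) (subset_closure hp.2) h2 h1 (lt_one_of_sq dist_nonneg ?_)
      (by rwa [dist_comm])
    rw [dist_comm, f2]; nlinarith

/-- points near one point of the arc with a limit direction away from another one -/
theorem no_near (h : Irr U T) (hF : ∀ s ∈ Icc a b, q ∈ Pal U (pt x s)) {s1 s2 θ : ℝ} (h1 : s1 ∈ Icc a b)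
    (h2 : s2 ∈ Icc a b) (hθ : ∃ᶠ p in 𝓝 ((0 : ℝ), θ), p ∈ PS (U q) x ∧ dist (po x p) (pt x s1) < 1)
    (c2 : Real.cos ((θ - s2) * (Real.pi / 3)) < 0) : False := by
  have e1 : ∀ᶠ p : ℝ × ℝ in 𝓝 ((0 : ℝ), θ), Real.cos ((p.2 - s2) * (Real.pi / 3)) < 0 :=
    (cosc s2).continuousAt.eventually_lt_const c2
  obtain ⟨p, ⟨hp, hd⟩, k1⟩ := (hθ.and_eventually e1).exists
  have f2 := sq_dist_po x p.1 p.2 s2
  rw [show (p.1, p.2) = p from rfl] at f2
  have hp0 := hp.1
  refine CLa h hF (p := po x p) (subset_closure hp.2) h1 h2 (by rwa [dist_comm]) (one_lt_of_sq dist_nonneg ?_)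
  rw [dist_comm, f2]; nlinarith

section ticks
variable {K : ℕ} {t : ℕ → ℝ} (A : Tick K t)
include A

theorem tick_gap (g : ℕ) : t g < t (g + 1) ∧ t (g + 1) ≤ t g + 1 := by
  refine ⟨A.mono (Nat.lt_succ_self g), ?_⟩
  have h1 := A.per g
  have h2 := A.pos
  rw [← h1]
  exact A.mono.monotone (by omega)

/-- **A7** : the cells at the centre between the perpendicular rays of a solid gap, and the zones along them -/
theorem wedge (h : Irr U T) {g : ℕ} (hF : ∀ s ∈ Icc (t g) (t (g + 1)), q ∈ Pal U (pt x s)) :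
    ¬ Cl (U q) x t 0 g ∧ ¬ Cl (U q) x t 3 g ∧ ¬ Cl (U q) x t 2 g ∧ ¬ Cl (U q) x t 1 (g + 1) ∧
    ¬ Cl (U q) x t 0 (g + 3 * K) ∧ ¬ Cl (U q) x t 3 (g + 3 * K) ∧ ¬ Cl (U q) x t 2 (g + 1 + 3 * K) ∧
    ¬ Cl (U q) x t 1 (g + 1 + 3 * K) := by
  have hpi := Real.pi_pos
  obtain ⟨hg, hg1⟩ := tick_gap A g
  have m1 : t g ∈ Icc (t g) (t (g + 1)) := ⟨le_rfl, hg.le⟩
  have m2 : t (g + 1) ∈ Icc (t g) (t (g + 1)) := ⟨hg.le, le_rfl⟩
  have cneg : ∀ y : ℝ, 3 / 2 < y → y < 9 / 2 → Real.cos (y * (Real.pi / 3)) < 0 := fun y => cos_neg_of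
  have cpos : ∀ y : ℝ, -(3 / 2) < y → y < 3 / 2 → 0 < Real.cos (y * (Real.pi / 3)) := fun y h1 h2 =>
    Real.cos_pos_of_mem_Ioo ⟨by nlinarith, by nlinarith⟩
  have cpos' : ∀ y : ℝ, 9 / 2 < y → y < 15 / 2 → 0 < Real.cos (y * (Real.pi / 3)) := by
    intro y h1 h2
    have e : y * (Real.pi / 3) = (y - 6) * (Real.pi / 3) + 2 * Real.pi := by ring
    rw [e, Real.cos_add_two_pi]
    exact cpos _ (by linarith) (by linarith)
  have r0 : ra t g = t g + 3 / 2 := rfl
  have r1 : ra t (g + 1) = t (g + 1) + 3 / 2 := rfl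
  have r2 : ra t (g + 3 * K) = t g + 9 / 2 := by rw [CK.ra_half A, r0]; ring
  have r3 : ra t (g + 1 + 3 * K) = t (g + 1) + 9 / 2 := by rw [CK.ra_half A, r1]; ring
  have d2 : dir (t (g + 3 * K)) = -dir (t g) := CK.dir_half A g
  have d3 : dir (t (g + 1 + 3 * K)) = -dir (t (g + 1)) := CK.dir_half A (g + 1)
  refine ⟨fun hc => ?_, fun hc => ?_, fun hc => ?_, fun hc => ?_, fun hc => ?_, fun hc => ?_, fun hc => ?_,
    fun hc => ?_⟩
  · obtain ⟨θ, hθ, hd⟩ := cl_zero.1 hc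
    rw [r0, r1] at hθ
    exact no_ds h hF m1 m2 hd (cneg _ (by linarith [hθ.1]) (by linarith [hθ.2]))
      (cpos _ (by linarith [hθ.1]) (by linarith [hθ.2]))
  · refine no_far h hF m1 m2 (θ := ra t g) (((cl_pos (by norm_num)).1 hc).mono fun p hp => ⟨hp.1, ?_⟩)
      (cpos _ (by rw [r0]; linarith) (by rw [r0]; linarith))
    have h3 := zn_three.1 hp.2
    have h4 := dist_triangle (x + dir (t g)) (po x p) (x - dir (t g))
    have h5 : dist (x + dir (t g)) (x - dir (t g)) = 2 := by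
      rw [dist_eq_norm]
      have : x + dir (t g) - (x - dir (t g)) = 2 * dir (t g) := by ring
      rw [this, norm_mul, norm_dir]; norm_num
    rw [h5, dist_comm _ (po x p)] at h4
    rw [← add_dir]
    linarith
  · refine no_far h hF m1 m2 (θ := ra t g) (((cl_pos (by norm_num)).1 hc).mono fun p hp => ⟨hp.1, ?_⟩)
      (cpos _ (by rw [r0]; linarith) (by rw [r0]; linarith))
    rw [← add_dir]
    exact (zn_two.1 hp.2).1
  · refine no_near h hF m2 m1 (θ := ra t (g + 1)) (((cl_pos (by norm_num)).1 hc).mono fun p hp => ⟨hp.1, ?_⟩)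
      (cneg _ (by rw [r1]; linarith) (by rw [r1]; linarith))
    rw [← add_dir]
    exact zn_one.1 hp.2
  · obtain ⟨θ, hθ, hd⟩ := cl_zero.1 hc
    have r4 : ra t (g + 3 * K + 1) = t (g + 1) + 9 / 2 := by
      rw [show g + 3 * K + 1 = g + 1 + 3 * K by ring]; exact r3
    rw [r2, r4] at hθ
    exact no_ds h hF m2 m1 hd (cneg _ (by linarith [hθ.1]) (by linarith [hθ.2]))
      (cpos' _ (by linarith [hθ.1]) (by linarith [hθ.2]))
  · refine no_near h hF m1 m2 (θ := ra t (g + 3 * K)) (((cl_pos (by norm_num)).1 hc).mono fun p hp => ⟨hp.1, ?_⟩)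
      (cneg _ (by rw [r2]; linarith) (by rw [r2]; linarith))
    have h3 := zn_three.1 hp.2
    rw [d2, sub_neg_eq_add] at h3
    rw [← add_dir]
    exact h3
  · refine no_far h hF m2 m1 (θ := ra t (g + 1 + 3 * K)) (((cl_pos (by norm_num)).1 hc).mono fun p hp => ⟨hp.1, ?_⟩)
      (cpos' _ (by rw [r3]; linarith) (by rw [r3]; linarith))
    have h3 := (zn_two.1 hp.2).2
    rw [d3, sub_neg_eq_add] at h3
    rw [← add_dir]
    exact h3
  · refine no_far h hF m2 m1 (θ := ra t (g + 1 + 3 * K)) (((cl_pos (by norm_num)).1 hc).mono fun p hp => ⟨hp.1, ?_⟩)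
      (cpos' _ (by rw [r3]; linarith) (by rw [r3]; linarith))
    have h3 := zn_one.1 hp.2
    rw [d3] at h3
    have h4 := dist_triangle (x + dir (t (g + 1))) (po x p) (x + -dir (t (g + 1)))
    have h5 : dist (x + dir (t (g + 1))) (x + -dir (t (g + 1))) = 2 := by
      rw [dist_eq_norm]
      have : x + dir (t (g + 1)) - (x + -dir (t (g + 1))) = 2 * dir (t (g + 1)) := by ring
      rw [this, norm_mul, norm_dir]; norm_num
    rw [h5, dist_comm _ (po x p)] at h4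
    rw [← add_dir]
    linarith

end ticks

end Vale.Agent.P032.H892
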