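import Vale.Agent.P032.H892.ArcK
import Vale.Agent.P032.H61.WordK

/-!
# P032: the centre of a two-pair point (rule book kinds Z3, Z4, Z5), wild frame `Irr U T`

`Wdg T z α β i` : all points near `z` in the open sector of directions `(α, β)` (units of 60 degrees) have the palette
`{i}`.

* `no_pal` : no colour of a solid arc near the rays orthogonal to its inner directions,
* `d0_wedge` (Z3) : an open exact `CD` arc `(a, b)` of a two-pair point `A B | C D` gives the wedges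
  `(a + 3/2, b + 3/2)`, `(a + 9/2, b + 9/2)` of the colours `A`, `B` or `B`, `A`,
* `Wdg.cell`, `Wdg.cell_not` : cells,
* `Wdg.far`, `Wdg.near`, `Wdg.sd` (Z4) : near/far at every point of `S(z)` from a wedge,
* `z5_R`, `z5_L`, `z5_cl_R`, `z5_cl_L` (Z5) : the letter `{A, B}` with the side `A` inside, `B` outside.
-/

open Set Filter Topology Metric

noncomputable section

namespace Vale.Agent.P032.H892

open Vale.Agent.P032.Six Vale.Agent.P032.H357 Vale.Agent.P032.H913 Vale.Agent.P032.S5.H767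

variable {U : Fin 6 → Set ℂ} {T : ℂ → Set (Fin 6)} {x z : ℂ} {a b α β θ s : ℝ} {q i j A B C D : Fin 6}

/-- the sector of directions `(α, β)` at `z` has the palette `{i}` -/
def Wdg (T : ℂ → Set (Fin 6)) (z : ℂ) (α β : ℝ) (i : Fin 6) : Prop :=
  ∀ θ ∈ Ioo α β, ∀ᶠ p : ℝ × ℝ in 𝓝 ((0 : ℝ), θ), 0 < p.1 → T (po z p) = {i}

/-- a colour of a solid arc is absent near a direction into the disc about one point of the arc and away from another one -/
theorem no_pal (h : Irr U T) (hF : ∀ s ∈ Icc a b, q ∈ Pal U (pt x s)) {s1 s2 : ℝ} (h1 : s1 ∈ Icc a b)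
    (h2 : s2 ∈ Icc a b) (c1 : Real.cos ((θ - s1) * (Real.pi / 3)) < 0)
    (c2 : 0 < Real.cos ((θ - s2) * (Real.pi / 3))) :
    ∀ᶠ p : ℝ × ℝ in 𝓝 ((0 : ℝ), θ), 0 < p.1 → q ∉ Pal U (po x p) := by
  set C := Real.cos ((θ - s2) * (Real.pi / 3)) with hC
  have e1 : ∀ᶠ p : ℝ × ℝ in 𝓝 ((0 : ℝ), θ), Real.cos ((p.2 - s1) * (Real.pi / 3)) < 0 :=
    (cosc s1).continuousAt.eventually_lt_const c1
  have e2 : ∀ᶠ p : ℝ × ℝ in 𝓝 ((0 : ℝ), θ), C / 2 < Real.cos ((p.2 - s2) * (Real.pi / 3)) :=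
    (cosc s2).continuousAt.eventually_const_lt (by show C / 2 < C; linarith)
  have e3 : ∀ᶠ p : ℝ × ℝ in 𝓝 ((0 : ℝ), θ), p.1 < C := continuous_fst.continuousAt.eventually_lt_const c2
  filter_upwards [e1, e2, e3] with p k1 k2 k3 hp0 hq
  have f1 := sq_dist_po x p.1 p.2 s1
  have f2 := sq_dist_po x p.1 p.2 s2
  rw [show (p.1, p.2) = p from rfl] at f1 f2
  refine CLa h hF (p := po x p) hq h2 h1 (lt_one_of_sq dist_nonneg ?_) (one_lt_of_sq dist_nonneg ?_)
  · rw [dist_comm, f2]; nlinarith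
  · rw [dist_comm, f1]; nlinarith

theorem exists_eps (hs : s ∈ Ioo a b) : ∃ ε : ℝ, 0 < ε ∧ ε < 1 ∧ s - ε ∈ Ioo a b ∧ s + ε ∈ Ioo a b := by
  refine ⟨min (1 / 2) (min ((s - a) / 2) ((b - s) / 2)), ?_, ?_, ?_, ?_⟩
  · have h1 := hs.1; have h2 := hs.2
    refine lt_min (by norm_num) (lt_min (by linarith) (by linarith))
  · exact lt_of_le_of_lt (min_le_left _ _) (by norm_num)
  · have h1 := hs.1; have h2 := hs.2
    have h3 : min (1 / 2 : ℝ) (min ((s - a) / 2) ((b - s) / 2)) ≤ (s - a) / 2 :=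
      (min_le_right _ _).trans (min_le_left _ _)
    have h4 : 0 < min (1 / 2 : ℝ) (min ((s - a) / 2) ((b - s) / 2)) :=
      lt_min (by norm_num) (lt_min (by linarith) (by linarith))
    exact ⟨by linarith, by linarith⟩
  · have h1 := hs.1; have h2 := hs.2
    have h3 : min (1 / 2 : ℝ) (min ((s - a) / 2) ((b - s) / 2)) ≤ (b - s) / 2 :=
      (min_le_right _ _).trans (min_le_right _ _)
    have h4 : 0 < min (1 / 2 : ℝ) (min ((s - a) / 2) ((b - s) / 2)) :=
      lt_min (by norm_num) (lt_min (by linarith) (by linarith))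
    exact ⟨by linarith, by linarith⟩

/-- the colours of an open arc are absent near the orthogonal rays, `m = 3/2` or `m = 9/2` -/
theorem no_pal_orth (h : Irr U T) (hF : ∀ s ∈ Ioo a b, q ∈ Pal U (pt x s)) {m : ℝ} (hm : m = 3 / 2 ∨ m = 9 / 2)
    (hθ : θ ∈ Ioo (a + m) (b + m)) : ∀ᶠ p : ℝ × ℝ in 𝓝 ((0 : ℝ), θ), 0 < p.1 → q ∉ Pal U (po x p) := by
  have hpi := Real.pi_pos
  obtain ⟨ε, h0, h1, h2, h3⟩ := exists_eps (a := a) (b := b) (s := θ - m) ⟨by linarith [hθ.1], by linarith [hθ.2]⟩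
  have hF' : ∀ s ∈ Icc (θ - m - ε) (θ - m + ε), q ∈ Pal U (pt x s) := fun s hs =>
    hF s ⟨lt_of_lt_of_le h2.1 hs.1, lt_of_le_of_lt hs.2 h3.2⟩
  have m1 : θ - m - ε ∈ Icc (θ - m - ε) (θ - m + ε) := ⟨le_rfl, by linarith⟩
  have m2 : θ - m + ε ∈ Icc (θ - m - ε) (θ - m + ε) := ⟨by linarith, le_rfl⟩
  have hsin : 0 < Real.sin (ε * (Real.pi / 3)) := Real.sin_pos_of_pos_of_lt_pi (by positivity) (by nlinarith)
  rcases hm with rfl | rfl
  · refine no_pal h hF' m1 m2 ?_ ?_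
    · have e : (θ - (θ - 3 / 2 - ε)) * (Real.pi / 3) = ε * (Real.pi / 3) + Real.pi / 2 := by ring
      rw [e, Real.cos_add_pi_div_two]; linarith
    · have e : (θ - (θ - 3 / 2 + ε)) * (Real.pi / 3) = -(ε * (Real.pi / 3)) + Real.pi / 2 := by ring
      rw [e, Real.cos_add_pi_div_two, Real.sin_neg]; linarith
  · refine no_pal h hF' m2 m1 ?_ ?_
    · have e : (θ - (θ - 9 / 2 + ε)) * (Real.pi / 3) = -(ε * (Real.pi / 3)) + Real.pi / 2 + Real.pi := by ring
      rw [e, Real.cos_add_pi, Real.cos_add_pi_div_two, Real.sin_neg]; linarith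
    · have e : (θ - (θ - 9 / 2 - ε)) * (Real.pi / 3) = ε * (Real.pi / 3) + Real.pi / 2 + Real.pi := by ring
      rw [e, Real.cos_add_pi, Real.cos_add_pi_div_two]; linarith

/-- near an orthogonal ray of an exact arc the palette is one colour of the other pair -/
theorem d0_pt (h : Irr U T) (hz : DPt T z A B C D) (hJ : ∀ s ∈ Ioo a b, T (pt z s) = {C, D}) {m : ℝ}
    (hm : m = 3 / 2 ∨ m = 9 / 2) (hθ : θ ∈ Ioo (a + m) (b + m)) :
    (∀ᶠ p : ℝ × ℝ in 𝓝 ((0 : ℝ), θ), 0 < p.1 → T (po z p) = {A}) ∨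
      (∀ᶠ p : ℝ × ℝ in 𝓝 ((0 : ℝ), θ), 0 < p.1 → T (po z p) = {B}) := by
  have hc := no_pal_orth h (q := C) (fun s hs => h.sub _ (by rw [hJ s hs]; simp)) hm hθ
  have hd := no_pal_orth h (q := D) (fun s hs => h.sub _ (by rw [hJ s hs]; simp)) hm hθ
  obtain ⟨p0, hp0⟩ := hz.arc1
  have hp0T : T p0 = {A, B} := hp0.mem
  have hnl := (tendsto_po z θ).eventually (h.no_layer (z := z) (q := p0) hp0.1)
  have hnh := (tendsto_po z θ).eventually (h.nhd z)
  have key : ∀ᶠ p : ℝ × ℝ in 𝓝 ((0 : ℝ), θ), 0 < p.1 → T (po z p) = {A} ∨ T (po z p) = {B} := by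
    filter_upwards [hc, hd, hnl, hnh] with p k1 k2 k3 k4 hp
    have h5 : T (po z p) ⊆ {A, B} := by
      intro i hi
      have := k4 hi
      rw [hz.pal] at this
      rcases this with rfl | rfl | rfl | hid
      · simp
      · simp
      · exact absurd (h.sub _ hi) (k1 hp)
      · rw [mem_singleton_iff] at hid
        subst hid
        exact absurd (h.sub _ hi) (k2 hp)
    have hne : T (po z p) ≠ {A, B} := by
      intro h6
      have h7 := k3 (by rw [hp0T, h6])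
      rw [h6, Set.ncard_pair hz.ab] at h7
      omega
    have hnn := h.ne (po z p)
    by_cases hA : A ∈ T (po z p)
    · left
      refine Subset.antisymm (fun i hi => ?_) (by rw [singleton_subset_iff]; exact hA)
      rcases h5 hi with rfl | hi'
      · rfl
      · rw [mem_singleton_iff] at hi'
        subst hi'
        exact absurd (Subset.antisymm h5 (by rintro k (rfl | hk); exacts [hA, by rw [mem_singleton_iff] at hk; rw [hk]; exact hi])) hne
    · right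
      refine Subset.antisymm (fun i hi => ?_) ?_
      · rcases h5 hi with rfl | hi'
        · exact absurd hi hA
        · exact hi'
      · obtain ⟨i, hi⟩ := hnn
        rcases h5 hi with rfl | hi'
        · exact absurd hi hA
        · rw [mem_singleton_iff] at hi'; subst hi'; rw [singleton_subset_iff]; exact hi
  -- connected neighbourhoods
  rw [Metric.eventually_nhds_iff_ball] at key
  obtain ⟨ε, hε, hb⟩ := key
  have hconv : Convex ℝ (ball ((0 : ℝ), θ) ε ∩ {p : ℝ × ℝ | 0 < p.1}) := by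
    refine (convex_ball _ _).inter ?_
    exact (convex_Ioi (0 : ℝ)).linear_preimage (LinearMap.fst ℝ ℝ ℝ)
  have hpre := hconv.isPreconnected
  have hcl : ∀ i, IsClosed {p : ℝ × ℝ | i ∈ T (po z p)} := fun i => (h.closed i).preimage (continuous_po z)
  by_cases hA : ∃ p ∈ ball ((0 : ℝ), θ) ε ∩ {p : ℝ × ℝ | 0 < p.1}, A ∈ T (po z p)
  · left
    rw [Metric.eventually_nhds_iff_ball]
    refine ⟨ε, hε, fun p hp hp0 => ?_⟩
    rcases hb p hp hp0 with h1 | h1
    · exact h1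
    · exfalso
      obtain ⟨p', hp', hA'⟩ := hA
      obtain ⟨r, hr, hrA, hrB⟩ := isPreconnected_closed_iff.1 hpre _ _ (hcl A) (hcl B) (by
        intro r hr
        rcases hb r hr.1 hr.2 with h2 | h2
        · left; show A ∈ T (po z r); rw [h2]; rfl
        · right; show B ∈ T (po z r); rw [h2]; rfl) ⟨p', hp', hA'⟩ ⟨p, ⟨hp, hp0⟩, by
          show B ∈ T (po z p); rw [h1]; rfl⟩
      rw [mem_ofPred_eq] at hrA hrB
      rcases hb r hr.1 hr.2 with h2 | h2
      · rw [h2, mem_singleton_iff] at hrB; exact hz.ab hrB.symm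
      · rw [h2, mem_singleton_iff] at hrA; exact hz.ab hrA
  · right
    push Not at hA
    rw [Metric.eventually_nhds_iff_ball]
    refine ⟨ε, hε, fun p hp hp0 => ?_⟩
    rcases hb p hp hp0 with h1 | h1
    · exact absurd (show A ∈ T (po z p) by rw [h1]; rfl) (hA p ⟨hp, hp0⟩)
    · exact h1

/-- the colour is constant on the sector -/
theorem d0_sector (h : Irr U T) (hz : DPt T z A B C D) (hJ : ∀ s ∈ Ioo a b, T (pt z s) = {C, D}) {m : ℝ}
    (hm : m = 3 / 2 ∨ m = 9 / 2) : Wdg T z (a + m) (b + m) A ∨ Wdg T z (a + m) (b + m) B := by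
  set P : Fin 6 → Set ℝ := fun i => {θ : ℝ | ∀ᶠ p : ℝ × ℝ in 𝓝 ((0 : ℝ), θ), 0 < p.1 → T (po z p) = {i}} with hP
  have hopen : ∀ i, IsOpen (P i) := by
    intro i
    rw [isOpen_iff_mem_nhds]
    intro θ hθ
    have h1 : ∀ᶠ p : ℝ × ℝ in 𝓝 ((0 : ℝ), θ), ∀ᶠ p' in 𝓝 p, 0 < p'.1 → T (po z p') = {i} :=
      eventually_eventually_nhds.2 hθ
    have h2 : Tendsto (fun θ' : ℝ => ((0 : ℝ), θ')) (𝓝 θ) (𝓝 ((0 : ℝ), θ)) := by
      have : Continuous fun θ' : ℝ => ((0 : ℝ), θ') := by fun_prop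
      exact this.tendsto θ
    exact h2.eventually h1
  have hdis : ∀ θ, θ ∈ P A → θ ∈ P B → False := by
    intro θ h1 h2
    have h3 : ∀ᶠ r : ℝ in 𝓝[>] 0, (0 < r → T (po z (r, θ)) = {A}) ∧ (0 < r → T (po z (r, θ)) = {B}) := by
      have h4 : Tendsto (fun r : ℝ => (r, θ)) (𝓝[>] 0) (𝓝 ((0 : ℝ), θ)) := by
        have : Continuous fun r : ℝ => (r, θ) := by fun_prop
        exact (this.tendsto 0).mono_left nhdsWithin_le_nhds
      exact (h4.eventually h1).and (h4.eventually h2)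
    obtain ⟨r, ⟨h5, h6⟩, h7⟩ := (h3.and self_mem_nhdsWithin).exists
    have h8 := h5 h7
    rw [h6 h7] at h8
    exact hz.ab (singleton_injective h8).symm
  have hcov : Ioo (a + m) (b + m) ⊆ P A ∪ P B := fun θ hθ => d0_pt h hz hJ hm hθ
  rcases isPreconnected_iff_subset_of_disjoint.1 (isPreconnected_Ioo (a := a + m) (b := b + m)) _ _ (hopen A)
    (hopen B) hcov (by
      rw [Set.eq_empty_iff_forall_notMem]
      rintro θ ⟨-, h1, h2⟩
      exact hdis θ h1 h2) with h1 | h1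
  · exact Or.inl fun θ hθ => h1 hθ
  · exact Or.inr fun θ hθ => h1 hθ

theorem tendsto_ray (θ : ℝ) : Tendsto (fun r : ℝ => (r, θ)) (𝓝[>] 0) (𝓝 ((0 : ℝ), θ)) := by
  have : Continuous fun r : ℝ => (r, θ) := by fun_prop
  exact (this.tendsto 0).mono_left nhdsWithin_le_nhds

theorem Wdg.ray (h : Irr U T) (W : Wdg T z α β i) (hθ : θ ∈ Ioo α β) : Ray (U i) z (dir θ) := by
  have h1 := (tendsto_ray θ).eventually (W θ hθ)
  show ∀ᶠ r : ℝ in 𝓝[>] 0, z + r * dir θ ∈ U i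
  filter_upwards [h1, self_mem_nhdsWithin] with r h2 h3
  exact h.mem_of_single (by rw [show z + (r : ℂ) * dir θ = po z (r, θ) from rfl, h2 h3])

theorem Wdg.mono {α' β' : ℝ} (W : Wdg T z α β i) (h1 : α ≤ α') (h2 : β' ≤ β) : Wdg T z α' β' i :=
  fun θ hθ => W θ ⟨lt_of_le_of_lt h1 hθ.1, lt_of_lt_of_le hθ.2 h2⟩

theorem ip_dirs (s t : ℝ) : ip (dir s) (dir t) = Real.cos ((s - t) * (Real.pi / 3)) := by
  unfold ip dir
  rw [cis_re, cis_im, cis_re, cis_im, sub_mul, Real.cos_sub]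

/-- **Z4**, a wedge towards the point `pt z s` : no `i` outside `S(z)` near it -/
theorem Wdg.far (h : Irr U T) (W : Wdg T z α β i) (hθ : θ ∈ Ioo α β)
    (hc : 0 < Real.cos ((θ - s) * (Real.pi / 3))) : ∀ᶠ w in 𝓝 (pt z s), 1 < dist w z → i ∉ Pal U w :=
  h.mx.far (W.ray h hθ) (dist_pt z s) (by
    have e : pt z s - z = dir s := by unfold pt dir; ring
    rw [e, ip_dirs]; exact hc)

/-- **Z4**, a wedge away from the point `pt z s` : no `i` inside `S(z)` near it -/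
theorem Wdg.near (h : Irr U T) (W : Wdg T z α β i) (hθ : θ ∈ Ioo α β)
    (hc : Real.cos ((θ - s) * (Real.pi / 3)) < 0) : ∀ᶠ w in 𝓝 (pt z s), dist w z < 1 → i ∉ Pal U w :=
  h.mx.near (W.ray h hθ) (dist_pt z s) (by
    have e : pt z s - z = dir s := by unfold pt dir; ring
    rw [e, ip_dirs]; exact hc)

/-- **sides** from two opposite wedges -/
theorem Wdg.sd (h : Irr U T) (W : Wdg T z α β i) (W' : Wdg T z (α + 3) (β + 3) j) (hθ : θ ∈ Ioo α β) :
    (0 < Real.cos ((θ - s) * (Real.pi / 3)) → Sd U z (pt z s) i j) ∧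
      (Real.cos ((θ - s) * (Real.pi / 3)) < 0 → Sd U z (pt z s) j i) := by
  have hθ' : θ + 3 ∈ Ioo (α + 3) (β + 3) := ⟨by linarith [hθ.1], by linarith [hθ.2]⟩
  have e : Real.cos ((θ + 3 - s) * (Real.pi / 3)) = -Real.cos ((θ - s) * (Real.pi / 3)) := by
    rw [← Real.cos_add_pi]; congr 1; ring
  constructor
  · intro hc
    filter_upwards [W.far h hθ hc, W'.near h hθ' (by rw [e]; linarith)] with w h1 h2
    exact ⟨h1, h2⟩
  · intro hc
    filter_upwards [W'.far h hθ' (by rw [e]; linarith), W.near h hθ hc] with w h1 h2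
    exact ⟨h1, h2⟩

/-- **Z3** : the two wedges of an open exact `CD` arc -/
theorem d0_wedge (h : Irr U T) (hz : DPt T z A B C D) (hab : a < b) (hJ : ∀ s ∈ Ioo a b, T (pt z s) = {C, D}) :
    (Wdg T z (a + 3 / 2) (b + 3 / 2) A ∧ Wdg T z (a + 9 / 2) (b + 9 / 2) B) ∨
      (Wdg T z (a + 3 / 2) (b + 3 / 2) B ∧ Wdg T z (a + 9 / 2) (b + 9 / 2) A) := by
  obtain ⟨p, hp⟩ := hz.arc1
  -- two opposite wedges of one colour are impossible
  have hno : ∀ i ∈ ({A, B} : Set (Fin 6)), Wdg T z (a + 3 / 2) (b + 3 / 2) i →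
      Wdg T z (a + 9 / 2) (b + 9 / 2) i → False := by
    intro i hi W1 W2
    obtain ⟨y, hy, hy1, hy2⟩ := hp.exists_off_line (y := pt z ((a + b) / 2))
    have m1 : (a + b) / 2 + 3 / 2 ∈ Ioo (a + 3 / 2) (b + 3 / 2) := ⟨by linarith, by linarith⟩
    have m2 : (a + b) / 2 + 9 / 2 ∈ Ioo (a + 9 / 2) (b + 9 / 2) := ⟨by linarith, by linarith⟩
    have r1 := W1.ray h m1
    have r2 := W2.ray h m2
    have e2 : dir ((a + b) / 2 + 9 / 2) = -dir ((a + b) / 2 + 3 / 2) := by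
      have : dir ((a + b) / 2 + 9 / 2) = dir ((a + b) / 2 + 3 / 2 + 3) := by congr 1; ring
      rw [this, dir_add_three]
    rw [e2] at r2
    refine h.mx.not_both_rays r1 r2 (y := y) (by rw [dist_comm]; exact hy.1)
      (h.sub y (by rw [hy.mem]; exact hi)) ?_
    intro h0
    have e3 : dir ((a + b) / 2 + 3 / 2) = Complex.I * dir ((a + b) / 2) := by
      unfold dir
      have : ((a + b) / 2 + 3 / 2) * (Real.pi / 3) = (a + b) / 2 * (Real.pi / 3) + Real.pi / 2 := by ring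
      rw [this]
      apply Complex.ext
      · rw [cis_re, Complex.mul_re, Complex.I_re, Complex.I_im, cis_re, cis_im, Real.cos_add_pi_div_two]; ring
      · rw [cis_im, Complex.mul_im, Complex.I_re, Complex.I_im, cis_re, cis_im, Real.sin_add_pi_div_two]; ring
    rw [e3, ip_I] at h0
    have e4 : pt z ((a + b) / 2) - z = dir ((a + b) / 2) := by unfold pt dir; ring
    have hcr := cr_ne_of (g := pt z ((a + b) / 2)) (V := y) (z := z) (dist_pt z _) hy.1 (fun h5 => hy1 h5.symm)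
      (fun h5 => hy2 (by rw [← h5]; ring))
    rw [e4] at hcr
    exact hcr h0
  rcases d0_sector h hz hJ (m := 3 / 2) (Or.inl rfl) with h1 | h1 <;>
    rcases d0_sector h hz hJ (m := 9 / 2) (Or.inr rfl) with h2 | h2
  · exact absurd h2 fun h2 => hno A (by simp) h1 h2
  · exact Or.inl ⟨h1, h2⟩
  · exact Or.inr ⟨h1, h2⟩
  · exact absurd h2 fun h2 => hno B (by simp) h1 h2

/-! ### cells -/

section ticks
variable {K : ℕ} {t : ℕ → ℝ} (hT : Tick K t)
include hT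

/-- the cell of a sector inside a wedge has its colour -/
theorem Wdg.cell (W : Wdg T z α β i) {g : ℕ} (h1 : α ≤ ra t g) (h2 : ra t (g + 1) ≤ β) :
    Cl (Sq T i) z t 0 g := by
  have hlt : ra t g < ra t (g + 1) := CK.ra_lt hT (Nat.lt_succ_self g)
  refine cl_zero.2 ⟨(ra t g + ra t (g + 1)) / 2, ⟨by linarith, by linarith⟩, ?_⟩
  have h3 : (ra t g + ra t (g + 1)) / 2 ∈ Ioo α β := ⟨by linarith, by linarith⟩
  refine (tendsto_ray _).frequently (Eventually.frequently ?_)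
  filter_upwards [(tendsto_ray _).eventually (W _ h3), self_mem_nhdsWithin] with r h4 h5
  exact ⟨h5, h4 h5⟩

omit hT in
/-- and no other one -/
theorem Wdg.cell_not (W : Wdg T z α β i) {g : ℕ} (h1 : α ≤ ra t g) (h2 : ra t (g + 1) ≤ β) (hj : j ≠ i) :
    ¬ Cl {w | j ∈ T w} z t 0 g := by
  intro hc
  obtain ⟨θ, hθ, hd⟩ := cl_zero.1 hc
  obtain ⟨p, hp, h3⟩ := (Frequently.and_eventually
    (show ∃ᶠ p in 𝓝 ((0 : ℝ), θ), p ∈ PS {w | j ∈ T w} z from hd)
    (W θ ⟨lt_of_le_of_lt h1 hθ.1, lt_of_lt_of_le hθ.2 h2⟩)).exists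
  have h4 : j ∈ T (po z p) := hp.2
  rw [h3 hp.1, mem_singleton_iff] at h4
  exact hj h4

end ticks

/-! ### the letter `{A, B}` with sides (Z5) -/

/-- near a point with the palette `{A, B}` and the sides `A` inside, `B` outside -/
theorem side_pure (h : Irr U T) {y : ℂ} (hs : ∀ᶠ w in 𝓝 y, (1 < dist w z → A ∉ Pal U w) ∧
    (dist w z < 1 → B ∉ Pal U w)) (hy : dist y z = 1) (hT : T y = {A, B}) :
    (∃ᶠ w in 𝓝 y, T w = {A} ∧ dist w z < 1) ∧ (∃ᶠ w in 𝓝 y, T w = {B} ∧ 1 < dist w z) := by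
  have h1 : ∀ w, T w ⊆ {A, B} → B ∉ T w → T w = {A} := by
    intro w hw hB
    have hn := h.ne w
    refine Subset.antisymm (fun i hi => ?_) ?_
    · rcases hw hi with rfl | hi'
      · rfl
      · rw [mem_singleton_iff] at hi'; subst hi'; exact absurd hi hB
    · obtain ⟨i, hi⟩ := hn
      rcases hw hi with rfl | hi'
      · rw [singleton_subset_iff]; exact hi
      · rw [mem_singleton_iff] at hi'; subst hi'; exact absurd hi hB
  have h2 : ∀ w, T w ⊆ {A, B} → A ∉ T w → T w = {B} := by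
    intro w hw hA
    have hn := h.ne w
    refine Subset.antisymm (fun i hi => ?_) ?_
    · rcases hw hi with rfl | hi'
      · exact absurd hi hA
      · exact hi'
    · obtain ⟨i, hi⟩ := hn
      rcases hw hi with rfl | hi'
      · exact absurd hi hA
      · rw [mem_singleton_iff] at hi'; subst hi'; rw [singleton_subset_iff]; exact hi
  constructor
  · refine ((H61.freq_in hy).and_eventually (hs.and (h.nhd y))).mono fun w hw => ⟨?_, hw.1⟩
    exact h1 w (by rw [← hT]; exact hw.2.2) fun hB => hw.2.1.2 hw.1 (h.sub _ hB)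
  · refine ((H61.freq_out hy).and_eventually (hs.and (h.nhd y))).mono fun w hw => ⟨?_, hw.1⟩
    exact h2 w (by rw [← hT]; exact hw.2.2) fun hA => hw.2.1.1 hw.1 (h.sub _ hA)

/-- **Z5**, letter after the direction `s` -/
theorem z5_R (h : Irr U T) (hs : Sd U z (pt z s) A B) (hL : ∃ᶠ τ in 𝓝[>] (0 : ℝ), T (pt z (s + τ)) = {A, B}) :
    (∃ᶠ p in 𝓝 ((0 : ℝ), s + 3 / 2), 0 < p.1 ∧ T (po (pt z s) p) = {A} ∧ dist (po (pt z s) p) z < 1) ∧
    (∃ᶠ p in 𝓝 ((0 : ℝ), s + 3 / 2), 0 < p.1 ∧ T (po (pt z s) p) = {B} ∧ 1 < dist (po (pt z s) p) z ∧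
      1 < dist (po (pt z s) p) (2 * pt z s - z)) := by
  have hs' : ∀ᶠ τ in 𝓝[>] (0 : ℝ), ∀ᶠ w in 𝓝 (pt z (s + τ)), (1 < dist w z → A ∉ Pal U w) ∧
      (dist w z < 1 → B ∉ Pal U w) :=
    (H61.tendsto_pt_shift (Or.inl rfl) z s).eventually (eventually_eventually_nhds.2 hs)
  have h1 : ∀ᶠ τ : ℝ in 𝓝[>] 0, τ ≠ 0 ∧ |τ| < 1 := by
    filter_upwards [Ioo_mem_nhdsGT (one_pos : (0 : ℝ) < 1)] with τ hτ
    exact ⟨hτ.1.ne', by rw [abs_of_pos hτ.1]; exact hτ.2⟩
  constructor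
  · exact H61.freq_lim (H61.lim_R s) ((hL.and_eventually (hs'.and H61.pos_R)).mono fun τ hτ =>
      H61.freq_po hτ.2.2 (H61.chord_right z s τ) (side_pure h hτ.2.1 (dist_pt z _) hτ.1).1)
  · refine H61.freq_lim (H61.lim_R s) ((hL.and_eventually (hs'.and (H61.pos_R.and h1))).mono fun τ hτ =>
      H61.freq_po (P := fun y => T y = {B} ∧ 1 < dist y z ∧ 1 < dist y (2 * pt z s - z)) hτ.2.2.1
        (H61.chord_right z s τ) ?_)
    have h2 : ∀ᶠ y in 𝓝 (pt z (s + τ)), 1 < dist y (2 * pt z s - z) :=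
      (continuous_id.dist continuous_const).continuousAt.eventually_const_lt
        (H61.far_mirror hτ.2.2.2.1 hτ.2.2.2.2)
    exact ((side_pure h hτ.2.1 (dist_pt z _) hτ.1).2.and_eventually h2).mono fun y hy =>
      ⟨hy.1.1, hy.1.2, hy.2⟩

/-- **Z5**, letter before the direction `s` -/
theorem z5_L (h : Irr U T) (hs : Sd U z (pt z s) A B) (hL : ∃ᶠ τ in 𝓝[<] (0 : ℝ), T (pt z (s + τ)) = {A, B}) :
    (∃ᶠ p in 𝓝 ((0 : ℝ), s - 3 / 2), 0 < p.1 ∧ T (po (pt z s) p) = {A} ∧ dist (po (pt z s) p) z < 1) ∧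
    (∃ᶠ p in 𝓝 ((0 : ℝ), s - 3 / 2), 0 < p.1 ∧ T (po (pt z s) p) = {B} ∧ 1 < dist (po (pt z s) p) z ∧
      1 < dist (po (pt z s) p) (2 * pt z s - z)) := by
  have hs' : ∀ᶠ τ in 𝓝[<] (0 : ℝ), ∀ᶠ w in 𝓝 (pt z (s + τ)), (1 < dist w z → A ∉ Pal U w) ∧
      (dist w z < 1 → B ∉ Pal U w) :=
    (H61.tendsto_pt_shift (Or.inr rfl) z s).eventually (eventually_eventually_nhds.2 hs)
  have h1 : ∀ᶠ τ : ℝ in 𝓝[<] 0, τ ≠ 0 ∧ |τ| < 1 := by
    filter_upwards [Ioo_mem_nhdsLT (by norm_num : (-1 : ℝ) < 0)] with τ hτ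
    exact ⟨hτ.2.ne, by rw [abs_of_neg hτ.2]; linarith [hτ.1]⟩
  constructor
  · exact H61.freq_lim (H61.lim_L s) ((hL.and_eventually (hs'.and H61.pos_L)).mono fun τ hτ =>
      H61.freq_po hτ.2.2 (H61.chord_left z s τ) (side_pure h hτ.2.1 (dist_pt z _) hτ.1).1)
  · refine H61.freq_lim (H61.lim_L s) ((hL.and_eventually (hs'.and (H61.pos_L.and h1))).mono fun τ hτ =>
      H61.freq_po (P := fun y => T y = {B} ∧ 1 < dist y z ∧ 1 < dist y (2 * pt z s - z)) hτ.2.2.1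
        (H61.chord_left z s τ) ?_)
    have h2 : ∀ᶠ y in 𝓝 (pt z (s + τ)), 1 < dist y (2 * pt z s - z) :=
      (continuous_id.dist continuous_const).continuousAt.eventually_const_lt
        (H61.far_mirror hτ.2.2.2.1 hτ.2.2.2.2)
    exact ((side_pure h hτ.2.1 (dist_pt z _) hτ.1).2.and_eventually h2).mono fun y hy =>
      ⟨hy.1.1, hy.1.2, hy.2⟩

section ticks
variable {K : ℕ} {t : ℕ → ℝ} {g : ℕ}

/-- **Z5**, cells at `z + dir (t g)` for the letter after the tick `g` -/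
theorem z5_cl_R (h : Irr U T) (hs : Sd U z (pt z (t g)) A B)
    (hL : ∃ᶠ τ in 𝓝[>] (0 : ℝ), T (pt z (t g + τ)) = {A, B}) :
    Cl (Sq T A) (z + dir (t g)) t 3 g ∧ Cl (Sq T B) (z + dir (t g)) t 2 g := by
  obtain ⟨h1, h2⟩ := z5_R h hs hL
  constructor
  · rw [cl_pos (by norm_num)]
    refine h1.mono fun p hp => ⟨⟨hp.1, hp.2.1⟩, zn_three.2 ?_⟩
    rw [add_sub_cancel_right]
    exact hp.2.2
  · rw [cl_pos (by norm_num)]
    refine h2.mono fun p hp => ⟨⟨hp.1, hp.2.1⟩, zn_two.2 ⟨?_, ?_⟩⟩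
    · have e : z + dir (t g) + dir (t g) = 2 * pt z (t g) - z := by unfold pt dir; ring
      rw [e]; exact hp.2.2.2.le
    · rw [add_sub_cancel_right]
      exact hp.2.2.1.le

/-- **Z5**, cells at `z + dir (t g)` for the letter before the tick `g` -/
theorem z5_cl_L (h : Irr U T) (hT : Tick K t) (hs : Sd U z (pt z (t g)) A B)
    (hL : ∃ᶠ τ in 𝓝[<] (0 : ℝ), T (pt z (t g + τ)) = {A, B}) :
    Cl (Sq T A) (z + dir (t g)) t 1 (g + 3 * K) ∧ Cl (Sq T B) (z + dir (t g)) t 2 (g + 3 * K) := by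
  obtain ⟨h1, h2⟩ := z5_L h hs hL
  constructor
  · rw [cl_pos (by norm_num), CK.ra_half hT, show ra t g + 3 = t g + 9 / 2 by unfold ra; ring]
    refine H61.Wd.shift_L (P := fun p w => (0 < p.1 ∧ w ∈ Sq T A) ∧
      Zn (z + dir (t g)) (dir (t (g + 3 * K))) 1 w) ?_ (fun r θ w h => h)
    refine h1.mono fun p hp => ⟨⟨hp.1, hp.2.1⟩, zn_one.2 ?_⟩
    rw [CK.dir_half hT, add_neg_cancel_right]
    exact hp.2.2
  · rw [cl_pos (by norm_num), CK.ra_half hT, show ra t g + 3 = t g + 9 / 2 by unfold ra; ring]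
    refine H61.Wd.shift_L (P := fun p w => (0 < p.1 ∧ w ∈ Sq T B) ∧
      Zn (z + dir (t g)) (dir (t (g + 3 * K))) 2 w) ?_ (fun r θ w h => h)
    refine h2.mono fun p hp => ⟨⟨hp.1, hp.2.1⟩, zn_two.2 ⟨?_, ?_⟩⟩
    · rw [CK.dir_half hT, add_neg_cancel_right]
      exact hp.2.2.1.le
    · rw [CK.dir_half hT, sub_neg_eq_add]
      have e : z + dir (t g) + dir (t g) = 2 * pt z (t g) - z := by unfold pt dir; ring
      rw [e]; exact hp.2.2.2.le

end ticks

end Vale.Agent.P032.H892
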