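import Vale.Agent.P032.H892.Six

/-!
# P032: events on the circle of a six-coloured point

Facts about the two states `SL u`, `SR u` (just before and just after a time `u`).

* `C6.step_fst`, `C6.step_snd` : an end point of a hull moves by at most one sector,
* `C6.sec_of_dr`, `C6.ray_of_dr` : sectors and rays in which a colour may be present at the time `u`,
* `C6.free_ray`, `C6.free_sec` : rays and sectors strictly inside the hull at the time `u`,
* `C6.hc_L`, `C6.hc_R` : half arcs; `C6.no_swap` : the inner letter on one side is not the outer letter on the other.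
-/

open Set Filter Topology Metric

noncomputable section

namespace Vale.Agent.P032.H892

open Vale.Agent.P032.Six Vale.Agent.P032.Words Vale.Agent.P032.S5.H767

variable {U : Fin 6 → Set ℂ} {T : ℂ → Set (Fin 6)} {z : ℂ}

/-- the sector `m` is between the sectors of the end points -/
def secIn (m : Fin 6) (h : Hu) : Prop := (m - h.1).val ≤ h.2.val

instance (m : Fin 6) (h : Hu) : Decidable (secIn m h) := by unfold secIn; infer_instance

theorem secIn_enc {p q : ℤ} (h1 : p ≤ q) (h2 : q ≤ p + 3) {m : Fin 6} :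
    secIn m (enc p q) ↔ ∃ n : ℤ, p ≤ m.val + 6 * n ∧ m.val + 6 * n ≤ q := by
  unfold secIn enc
  simp only
  have hv := m6_val p
  have hm := m.isLt
  have hlt := (m6 p).isLt
  rw [Fin.sub_def]
  simp only
  constructor
  · intro h
    refine ⟨(p + (((6 - (m6 p).val + m.val) % 6 : ℕ) : ℤ) - m.val) / 6, ?_⟩
    omega
  · rintro ⟨n, a, b⟩
    omega

theorem rayIn_enc {p q : ℤ} (h1 : p ≤ q) (h2 : q ≤ p + 3) {m : Fin 6} :
    rayIn m (enc p q) ↔ ∃ n : ℤ, p ≤ m.val + 6 * n ∧ m.val + 6 * n + 1 ≤ q := by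
  unfold rayIn enc
  simp only
  have hv := m6_val p
  have hm := m.isLt
  have hlt := (m6 p).isLt
  rw [Fin.sub_def]
  simp only
  constructor
  · intro h
    refine ⟨(p + (((6 - (m6 p).val + m.val) % 6 : ℕ) : ℤ) - m.val) / 6, ?_⟩
    omega
  · rintro ⟨n, a, b⟩
    omega

namespace C6

variable (C : C6 U T z)
include C

theorem cl_le (c : Fin 6) (u : ℝ) :
    ⌈(hl (Dr T z c)).1 - 1 / 2 - u⌉ - 1 ≤ ⌈(hl (Dr T z c)).2 - 1 / 2 - u⌉ - 1 ∧
    ⌈(hl (Dr T z c)).2 - 1 / 2 - u⌉ - 1 ≤ ⌈(hl (Dr T z c)).1 - 1 / 2 - u⌉ - 1 + 3 := by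
  have h := C.hull c
  have h0 : ⌈(hl (Dr T z c)).1 - 1 / 2 - u⌉ ≤ ⌈(hl (Dr T z c)).2 - 1 / 2 - u⌉ :=
    Int.ceil_le_ceil (by linarith [h.le])
  have h1 : ⌈(hl (Dr T z c)).2 - 1 / 2 - u⌉ ≤ ⌈(hl (Dr T z c)).1 - 1 / 2 - u + (3 : ℤ)⌉ :=
    Int.ceil_le_ceil (by push_cast; linarith [h.len])
  rw [Int.ceil_add_intCast] at h1
  constructor <;> linarith

omit C in
/-- the first sector moves by at most one -/
theorem step_fst (u : ℝ) (c : Fin 6) :
    (HR T z u c).1 = (HL T z u c).1 ∨ (HR T z u c).1 + 1 = (HL T z u c).1 := by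
  set x := (hl (Dr T z c)).1 - 1 / 2 - u with hx
  have e4 := Int.floor_le_ceil x
  have e5 := Int.ceil_le_floor_add_one x
  have e6 : ⌈x⌉ = ⌊x⌋ ∨ ⌈x⌉ = ⌊x⌋ + 1 := by omega
  rcases e6 with h | h
  · right
    show m6 (⌈x⌉ - 1) + 1 = m6 ⌊x⌋
    rw [m6_sub_one, h]
    exact sub_add_cancel _ _
  · left
    show m6 (⌈x⌉ - 1) = m6 ⌊x⌋
    rw [h]; congr 1; ring

/-- the last sector moves by at most one -/
theorem step_snd (u : ℝ) (c : Fin 6) :
    (HR T z u c).1 + (HR T z u c).2.castLE (by norm_num) =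
      (HL T z u c).1 + (HL T z u c).2.castLE (by norm_num) ∨
    (HR T z u c).1 + (HR T z u c).2.castLE (by norm_num) + 1 =
      (HL T z u c).1 + (HL T z u c).2.castLE (by norm_num) := by
  obtain ⟨f1, f2⟩ := C.fl_le c u
  obtain ⟨g1, g2⟩ := C.cl_le c u
  have k1 : (HR T z u c).1 + (HR T z u c).2.castLE (by norm_num) = m6 (⌈(hl (Dr T z c)).2 - 1 / 2 - u⌉ - 1) :=
    enc_snd g1 g2
  have k2 : (HL T z u c).1 + (HL T z u c).2.castLE (by norm_num) = m6 ⌊(hl (Dr T z c)).2 - 1 / 2 - u⌋ :=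
    enc_snd f1 f2
  rw [k1, k2]
  set x := (hl (Dr T z c)).2 - 1 / 2 - u with hx
  have e4 := Int.floor_le_ceil x
  have e5 := Int.ceil_le_floor_add_one x
  have e6 : ⌈x⌉ = ⌊x⌋ ∨ ⌈x⌉ = ⌊x⌋ + 1 := by omega
  rcases e6 with h | h
  · right
    rw [m6_sub_one, h]
    exact sub_add_cancel _ _
  · left
    rw [h]; congr 1; ring

/-- **presence in an open sector** at the time `u` -/
theorem sec_of_dr {u θ : ℝ} {c m : Fin 6} (hθ : θ ∈ Dr T z c) (h1 : u + m.val + 1 / 2 < θ)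
    (h2 : θ < u + m.val + 3 / 2) : secIn m (HL T z u c) ∧ secIn m (HR T z u c) := by
  obtain ⟨n, n1, n2⟩ := (C.hull c).sub _ hθ
  obtain ⟨f1, f2⟩ := C.fl_le c u
  obtain ⟨g1, g2⟩ := C.cl_le c u
  refine ⟨(secIn_enc f1 f2).2 ⟨n, ?_, ?_⟩, (secIn_enc g1 g2).2 ⟨n, ?_, ?_⟩⟩
  · have : ⌊(hl (Dr T z c)).1 - 1 / 2 - u⌋ < m.val + 6 * n + 1 := by
      rw [Int.floor_lt]; push_cast; linarith
    omega
  · rw [Int.le_floor]; push_cast; linarith
  · have : ⌈(hl (Dr T z c)).1 - 1 / 2 - u⌉ ≤ m.val + 6 * n + 1 := by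
      rw [Int.ceil_le]; push_cast; linarith
    omega
  · have : (m.val : ℤ) + 6 * n < ⌈(hl (Dr T z c)).2 - 1 / 2 - u⌉ := by
      rw [Int.lt_ceil]; push_cast; linarith
    omega

/-- **presence on a ray** at the time `u`: the ray between the sectors `m` and `m + 1` -/
theorem ray_of_dr {u : ℝ} {c m : Fin 6} (hθ : u + m.val + 3 / 2 ∈ Dr T z c) :
    secIn (m + 1) (HL T z u c) ∧ secIn m (HR T z u c) := by
  obtain ⟨n, n1, n2⟩ := (C.hull c).sub _ hθ
  obtain ⟨f1, f2⟩ := C.fl_le c u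
  obtain ⟨g1, g2⟩ := C.cl_le c u
  refine ⟨?_, (secIn_enc g1 g2).2 ⟨n, ?_, ?_⟩⟩
  · have hm : ∃ n' : ℤ, (m.val : ℤ) + 1 + 6 * n = ((m + 1).val : ℤ) + 6 * n' := by
      have h0 := m.isLt
      have h3 : (m + 1).val = (m.val + 1) % 6 := by rw [Fin.val_add]; rfl
      refine ⟨n + (m.val + 1) / 6, ?_⟩
      rw [h3]
      push_cast
      omega
    obtain ⟨n', hn'⟩ := hm
    refine (secIn_enc f1 f2).2 ⟨n', ?_, ?_⟩
    · rw [← hn']
      have : ⌊(hl (Dr T z c)).1 - 1 / 2 - u⌋ < m.val + 1 + 6 * n + 1 := by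
        rw [Int.floor_lt]; push_cast; linarith
      omega
    · rw [← hn', Int.le_floor]; push_cast; linarith
  · have : ⌈(hl (Dr T z c)).1 - 1 / 2 - u⌉ ≤ m.val + 6 * n + 1 := by
      rw [Int.ceil_le]; push_cast; linarith
    omega
  · have : (m.val : ℤ) + 6 * n < ⌈(hl (Dr T z c)).2 - 1 / 2 - u⌉ := by
      rw [Int.lt_ceil]; push_cast; linarith
    omega

/-- **free rays**: the ray between the sectors `m` and `m + 1` is strictly inside the hull at the time `u` -/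
theorem free_ray {u : ℝ} {c m : Fin 6} (h1 : rayIn m (HL T z u c)) (h2 : rayIn m (HR T z u c)) :
    ∃ n : ℤ, (hl (Dr T z c)).1 < u + m.val + 3 / 2 + 6 * n ∧
      u + m.val + 3 / 2 + 6 * n < (hl (Dr T z c)).2 := by
  obtain ⟨f1, f2⟩ := C.fl_le c u
  obtain ⟨g1, g2⟩ := C.cl_le c u
  obtain ⟨n, n1, n2⟩ := (rayIn_enc f1 f2).1 h1
  obtain ⟨n', n3, n4⟩ := (rayIn_enc g1 g2).1 h2
  have e1 := Int.floor_le_ceil ((hl (Dr T z c)).1 - 1 / 2 - u)
  have e2 := Int.ceil_le_floor_add_one ((hl (Dr T z c)).1 - 1 / 2 - u)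
  have e3 := Int.floor_le_ceil ((hl (Dr T z c)).2 - 1 / 2 - u)
  have e4 := Int.ceil_le_floor_add_one ((hl (Dr T z c)).2 - 1 / 2 - u)
  have hn : n' = n := by omega
  subst hn
  refine ⟨n', ?_, ?_⟩
  · have : (hl (Dr T z c)).1 - 1 / 2 - u < ((m.val + 6 * n' + 1 : ℤ) : ℝ) := by
      rw [← Int.floor_lt]; omega
    push_cast at this
    linarith
  · have : ((m.val + 6 * n' + 1 : ℤ) : ℝ) < (hl (Dr T z c)).2 - 1 / 2 - u := by
      rw [← Int.lt_ceil]; omega
    push_cast at this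
    linarith

/-- **free sectors**: the closed sector `m + 1` is inside the hull at the time `u` -/
theorem free_sec {u : ℝ} {c m : Fin 6} (h1 : rayIn m (HR T z u c)) (h2 : rayIn (m + 1) (HL T z u c)) :
    ∃ n : ℤ, (hl (Dr T z c)).1 ≤ u + m.val + 3 / 2 + 6 * n ∧
      u + m.val + 5 / 2 + 6 * n ≤ (hl (Dr T z c)).2 := by
  obtain ⟨f1, f2⟩ := C.fl_le c u
  obtain ⟨g1, g2⟩ := C.cl_le c u
  obtain ⟨n, n1, n2⟩ := (rayIn_enc g1 g2).1 h1
  obtain ⟨n', n3, n4⟩ := (rayIn_enc f1 f2).1 h2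
  have e1 := Int.floor_le_ceil ((hl (Dr T z c)).1 - 1 / 2 - u)
  have e2 := Int.ceil_le_floor_add_one ((hl (Dr T z c)).1 - 1 / 2 - u)
  have e3 := Int.floor_le_ceil ((hl (Dr T z c)).2 - 1 / 2 - u)
  have e4 := Int.ceil_le_floor_add_one ((hl (Dr T z c)).2 - 1 / 2 - u)
  have h0 := m.isLt
  have h3 : (m + 1).val = (m.val + 1) % 6 := by rw [Fin.val_add]; rfl
  rw [h3] at n3 n4
  push_cast at n3 n4
  refine ⟨n, ?_, ?_⟩
  · have : (hl (Dr T z c)).1 - 1 / 2 - u ≤ ((m.val + 6 * n + 1 : ℤ) : ℝ) := by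
      rw [← Int.ceil_le]; omega
    push_cast at this
    linarith
  · have : ((m.val + 6 * n + 2 : ℤ) : ℝ) ≤ (hl (Dr T z c)).2 - 1 / 2 - u := by
      rw [← Int.le_floor]; omega
    push_cast at this
    linarith

/-! ### half arcs -/

omit C in
/-- points of the circle after a turn -/
theorem pt_turn (z : ℂ) (w s : ℝ) : z + (pt z w - z) * cis s = pt z (w + s * (3 / Real.pi)) := by
  unfold pt
  have h1 : (w + s * (3 / Real.pi)) * (Real.pi / 3) = w * (Real.pi / 3) + s := by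
    have := Real.pi_ne_zero
    field_simp
  rw [h1, Six.cis_add]; ring

/-- the half arc just after `w` carries the two colours of its letter -/
theorem hc_R (w : ℝ) {i : Fin 6} (hi : i = (LR U T z w).1 ∨ i = (LR U T z w).2) :
    Hc U z (pt z w) 1 i := by
  have hpi := Real.pi_pos
  have ht : Tendsto (fun δ : ℝ => w + 1 * δ * (3 / Real.pi)) (𝓝[>] 0) (𝓝[>] w) := by
    refine tendsto_nhdsWithin_iff.2 ⟨?_, ?_⟩
    · have := (by fun_prop : Continuous fun δ : ℝ => w + 1 * δ * (3 / Real.pi)).tendsto 0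
      simp only [mul_zero, zero_mul, add_zero] at this
      exact this.mono_left nhdsWithin_le_nhds
    · filter_upwards [self_mem_nhdsWithin] with δ hδ
      have hδ : 0 < δ := hδ
      show w < w + 1 * δ * (3 / Real.pi)
      have : 0 < 1 * δ * (3 / Real.pi) := by positivity
      linarith
  filter_upwards [ht.eventually (C.lr_spec w)] with δ hδ
  rw [pt_turn]
  refine C.irr.sub _ ?_
  rw [hδ.1]
  rcases hi with h | h
  · exact Or.inl h
  · exact Or.inr h

/-- the half arc just before `w` carries the two colours of its letter -/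
theorem hc_L (w : ℝ) {i : Fin 6} (hi : i = (LL U T z w).1 ∨ i = (LL U T z w).2) :
    Hc U z (pt z w) (-1) i := by
  have hpi := Real.pi_pos
  have ht : Tendsto (fun δ : ℝ => w + -1 * δ * (3 / Real.pi)) (𝓝[>] 0) (𝓝[<] w) := by
    refine tendsto_nhdsWithin_iff.2 ⟨?_, ?_⟩
    · have := (by fun_prop : Continuous fun δ : ℝ => w + -1 * δ * (3 / Real.pi)).tendsto 0
      simp only [mul_zero, zero_mul, add_zero] at this
      exact this.mono_left nhdsWithin_le_nhds
    · filter_upwards [self_mem_nhdsWithin] with δ hδ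
      have hδ : 0 < δ := hδ
      show w + -1 * δ * (3 / Real.pi) < w
      have : 0 < δ * (3 / Real.pi) := by positivity
      linarith
  filter_upwards [ht.eventually (C.ll_spec w)] with δ hδ
  rw [pt_turn]
  refine C.irr.sub _ ?_
  rw [hδ.1]
  rcases hi with h | h
  · exact Or.inl h
  · exact Or.inr h

/-- a colour which is an inner letter near `w` is absent outside near `pt z w` -/
theorem out_of_inner {w : ℝ} {i : Fin 6} (h : ∃ᶠ v in 𝓝 w, ∃ j, v ∈ O6 U T z (i, j)) :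
    OutF U z (pt z w) i := by
  rcases C.irr.mx.sided_of_ct (z := z) (V := pt z w) (C.ct i) with h1 | h1
  · exact h1
  · exfalso
    have h2 : ∀ᶠ v in 𝓝 w, InF U z (pt z v) i :=
      (continuous_pt z).continuousAt.eventually (Filter.Eventually.eventually_nhds h1)
    obtain ⟨v, ⟨j, hv⟩, hv2⟩ := (h.and_eventually h2).exists
    refine C.irr.not_both_free (c := i) (V := pt z v) (z := z) ?_ ?_ hv2
    · rw [hv.1]; exact Or.inl rfl
    · exact hv.2.2.mono fun x hx => hx.1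

theorem in_of_outer {w : ℝ} {j : Fin 6} (h : ∃ᶠ v in 𝓝 w, ∃ i, v ∈ O6 U T z (i, j)) :
    InF U z (pt z w) j := by
  rcases C.irr.mx.sided_of_ct (z := z) (V := pt z w) (C.ct j) with h1 | h1
  · exfalso
    have h2 : ∀ᶠ v in 𝓝 w, OutF U z (pt z v) j :=
      (continuous_pt z).continuousAt.eventually (Filter.Eventually.eventually_nhds h1)
    obtain ⟨v, ⟨i, hv⟩, hv2⟩ := (h.and_eventually h2).exists
    refine C.irr.not_both_free (c := j) (V := pt z v) (z := z) ?_ hv2 ?_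
    · rw [hv.1]; exact Or.inr rfl
    · exact hv.2.2.mono fun x hx => hx.2
  · exact h1

theorem freq_L (w : ℝ) : ∃ᶠ v in 𝓝 w, v ∈ O6 U T z (LL U T z w) :=
  (C.ll_spec w).frequently.filter_mono nhdsWithin_le_nhds

theorem freq_R (w : ℝ) : ∃ᶠ v in 𝓝 w, v ∈ O6 U T z (LR U T z w) :=
  (C.lr_spec w).frequently.filter_mono nhdsWithin_le_nhds

/-- the inner letters are absent outside, the outer letters are absent inside, also at the ends of their arcs -/
theorem sided_L (w : ℝ) : OutF U z (pt z w) (LL U T z w).1 ∧ InF U z (pt z w) (LL U T z w).2 :=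
  ⟨C.out_of_inner ((C.freq_L w).mono fun _ hv => ⟨_, hv⟩),
    C.in_of_outer ((C.freq_L w).mono fun _ hv => ⟨_, hv⟩)⟩

theorem sided_R (w : ℝ) : OutF U z (pt z w) (LR U T z w).1 ∧ InF U z (pt z w) (LR U T z w).2 :=
  ⟨C.out_of_inner ((C.freq_R w).mono fun _ hv => ⟨_, hv⟩),
    C.in_of_outer ((C.freq_R w).mono fun _ hv => ⟨_, hv⟩)⟩

theorem mem_L (w : ℝ) : (LL U T z w).1 ∈ T (pt z w) ∧ (LL U T z w).2 ∈ T (pt z w) := by
  have key : ∀ i, (i = (LL U T z w).1 ∨ i = (LL U T z w).2) → i ∈ T (pt z w) := by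
    intro i hi
    have h1 : ∃ᶠ v in 𝓝 w, pt z v ∈ {x | i ∈ T x} := (C.freq_L w).mono fun v hv => by
      show i ∈ T (pt z v)
      rw [hv.1]
      rcases hi with h | h
      · exact Or.inl h
      · exact Or.inr h
    exact (C.irr.closed i).mem_of_frequently_of_tendsto h1 ((continuous_pt z).tendsto w)
  exact ⟨key _ (Or.inl rfl), key _ (Or.inr rfl)⟩

theorem mem_R (w : ℝ) : (LR U T z w).1 ∈ T (pt z w) ∧ (LR U T z w).2 ∈ T (pt z w) := by
  have key : ∀ i, (i = (LR U T z w).1 ∨ i = (LR U T z w).2) → i ∈ T (pt z w) := by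
    intro i hi
    have h1 : ∃ᶠ v in 𝓝 w, pt z v ∈ {x | i ∈ T x} := (C.freq_R w).mono fun v hv => by
      show i ∈ T (pt z v)
      rw [hv.1]
      rcases hi with h | h
      · exact Or.inl h
      · exact Or.inr h
    exact (C.irr.closed i).mem_of_frequently_of_tendsto h1 ((continuous_pt z).tendsto w)
  exact ⟨key _ (Or.inl rfl), key _ (Or.inr rfl)⟩

/-- **ct rule**: an inner letter on one side is not an outer letter on the other side -/
theorem no_swap (w : ℝ) : (LL U T z w).1 ≠ (LR U T z w).2 ∧ (LL U T z w).2 ≠ (LR U T z w).1 := by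
  obtain ⟨l1, l2⟩ := C.sided_L w
  obtain ⟨r1, r2⟩ := C.sided_R w
  obtain ⟨m1, m2⟩ := C.mem_L w
  refine ⟨fun h => ?_, fun h => ?_⟩
  · rw [← h] at r2
    exact C.irr.not_both_free m1 l1 r2
  · rw [← h] at r1
    exact C.irr.not_both_free m2 r1 l2

end C6

end Vale.Agent.P032.H892
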