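import Vale.Agent.P032.H357.SymV
import Vale.Agent.P032.H61.BlkX

/-!
# P032: the pair blocks with ordered colours; assembly of the block X1

* `CWS` : frames of `CW Q 5 k` where the colours of the letters of the centre appear in order, `dead_srt` : a pattern
  about the colour 5 which is dead in `CWS` is dead in `CW`,
* `ho_E5`, `ho_E4` : the base clauses `EX xs ++ eV5 ++ symE 4`, `EX xs ++ V4E 1 ++ symE 4` of the masters,
* `dead_join` : the two halves of X1 (the second point has the colour 5; both points have the same colours),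
* `x1_words`, `x1_dead` : **the block X1 from the trees and two queries.**
-/

open Set Filter Topology Metric

noncomputable section

namespace Vale.Agent.P032.BlkS

open Vale.Agent.P032.Six Vale.Agent.P032.Words Vale.Agent.P032.S5.H767
  Vale.Agent.P032.H913 Vale.Agent.P032.H357 Vale.Agent.P032.H61 Vale.Agent.P032.BlkE
  Vale.Agent.P032.H357.SymV
open Vale.Agent.P032.BlkV (CN eN wa_t av_t)
open Vale.Agent.P032.H357.MK
open Vale.Agent.P032.H820.K (a0 a1 a2 a3 a4 En en_eq dec Md av lv Ho ps ng lv_ps lv_ng nbf lb lb_iff trv ho_trv EZ)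

section
variable {NP NW TB TC k : ℕ} {B : Tb NP NW TB TC} {F : Fr} {M : Md 2 NP NW (nbf 2 TB)} {Q : (ℂ → Set (Fin 6)) → Prop}

/-- frames of `CW` where the colours of the letters of the centre appear in order -/
structure CWS (Q : (ℂ → Set (Fin 6)) → Prop) (k NW TC : ℕ) (F : Fr) : Prop where
  cw : CW Q 5 k NW TC F
  srt : SrtF 4 F

theorem up5_five (τ : Equiv.Perm (Fin 5)) : ∀ q < 6, (pn (up5 τ) q < 5 ↔ q < 5) := by
  intro q hq
  by_cases h : q < 5
  · rw [pn_up5 τ h]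
    exact ⟨fun _ => h, fun _ => (τ ⟨q, h⟩).isLt⟩
  · have e : q = 5 := by omega
    rw [e, pn_up5_last]

/-- **the order of the colours is no restriction** -/
theorem dead_srt {P : List ℕ} (hP : ∀ l ∈ P, a4 (l / 2) = 5) (H : Dead (kap TC) (CWS Q k NW TC) P) :
    Dead (kap TC) (CW Q 5 k NW TC) P := by
  intro F hF hall
  obtain ⟨τ, hτ⟩ := exists_sorted F
  refine H _ ⟨hF.col _ (up5_five τ), hτ⟩ fun l hl => ?_
  have h1 := hall l hl
  have e : H61.tv (kap TC) (F.col (up5 τ)) (l / 2) ↔ H61.tv (kap TC) F (l / 2) := by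
    unfold H61.tv
    rw [tva_col, hP l hl, pn_up5_last]
  unfold lf at h1 ⊢
  rw [e]
  exact h1

theorem CWS.cx (h : CWS Q k NW TC F) : CX NW TC F := ⟨h.cw.cq.cn.ok, h.cw.cq.cn.2⟩

theorem cw_cx (h : CW Q 5 k NW TC F) : CX NW TC F := ⟨h.cq.cn.ok, h.cq.cn.2⟩

/-- the base clauses for two five-coloured points -/
theorem ho_E5 (hM : Mdl B F M) (h : CWS Q 5 NW TC F) (h0 : kap TC 0 = (0, 0)) (g0 : Gp NP TC 0) (c0 : Ce NW TC 0)
    (h1 : kap TC 1 = (1, 0)) (g1 : Gp NP TC 1) {xs : List ℕ} (hx : ∀ x ∈ xs, Gp NP TC x) :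
    ∀ c ∈ EX xs ++ eV5 ++ symE 4, Ho M c := by
  intro c hc
  rcases List.mem_append.1 hc with hc | hc
  · rcases List.mem_append.1 hc with hc | hc
    · exact ho_EX hM h.cx h0 g0 hx c hc
    · exact eV5_ho h1 g1 h.cw hM c hc
  · exact ho_symE hM c0 (by norm_num) h.srt c hc

/-- the base clauses for five and four colours -/
theorem ho_E4 (hM : Mdl B F M) (h : CWS Q 4 NW TC F) (h0 : kap TC 0 = (0, 0)) (g0 : Gp NP TC 0) (c0 : Ce NW TC 0)
    (h1 : kap TC 1 = (1, 0)) (g1 : Gp NP TC 1) {xs : List ℕ} (hx : ∀ x ∈ xs, Gp NP TC x) :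
    ∀ c ∈ EX xs ++ V4E 1 ++ symE 4, Ho M c := by
  intro c hc
  rcases List.mem_append.1 hc with hc | hc
  · rcases List.mem_append.1 hc with hc | hc
    · exact ho_EX hM h.cx h0 g0 hx c hc
    · exact ho_V4E hM g1 (by rw [BlkV.P_one h1]; exact h.cw.v) c hc
  · exact ho_symE hM c0 (by norm_num) h.srt c hc

/-- the base clauses without order -/
theorem ho_E5' (hM : Mdl B F M) (h : CW Q 5 5 NW TC F) (h0 : kap TC 0 = (0, 0)) (g0 : Gp NP TC 0)
    (h1 : kap TC 1 = (1, 0)) (g1 : Gp NP TC 1) {xs : List ℕ} (hx : ∀ x ∈ xs, Gp NP TC x) :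
    ∀ c ∈ EX xs ++ eV5, Ho M c := by
  intro c hc
  rcases List.mem_append.1 hc with hc | hc
  · exact ho_EX hM (cw_cx h) h0 g0 hx c hc
  · exact eV5_ho h1 g1 h hM c hc

/-! ### equal colours -/

theorem card_five {S : Set (Fin 6)} (h : ∃ i, i ∉ S) : S.ncard ≤ 5 := by
  obtain ⟨i, hi⟩ := h
  have h1 := Set.ncard_le_ncard (show S ⊆ {i}ᶜ from fun j hj e => hi (e ▸ hj)) (Set.toFinite _)
  have h2 := Set.ncard_add_ncard_compl ({i} : Set (Fin 6))
  rw [Set.ncard_singleton, Nat.card_eq_fintype_card, Fintype.card_fin] at h2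
  omega

/-- the second point has the colours of the centre -/
theorem eq_T (h : CW N55E 5 5 NW TC F) : F.T (pt F.z F.b) = F.T F.z := by
  have hd : dist F.z (pt F.z F.b) = 1 := by
    rw [dist_comm]
    unfold pt
    rw [dist_eq_norm, add_sub_cancel_left]
    exact norm_cis _
  exact (h.cq.q _ _ hd (by rw [h.cq.cn.card (by norm_num)]) h.v).symm

theorem ho_n5 (hM : Mdl B F M) (h : CW N55E 5 5 NW TC F) (h1 : kap TC 1 = (1, 0)) (g1 : Gp NP TC 1) :
    ∀ c ∈ [[ng (En 4 1 0 0 5)]], Ho M c := by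
  intro c hc
  rw [List.mem_singleton.1 hc]
  refine ⟨_, List.mem_singleton_self _, ?_⟩
  rw [lv_ng, av_t hM g1 (by norm_num), BlkV.P_one h1, eq_T h, h.cq.cn.2 5 (by norm_num)]
  norm_num

/-- **the two halves of X1** -/
theorem dead_join (hNP : NP ≤ 4096) (hg : Gp NP TC 1) (h1 : kap TC 1 = (1, 0))
    (ha : Dead (kap TC) (CW (fun _ => True) 5 5 NW TC) [ps (En 4 1 0 0 5)])
    (hb : Dead (kap TC) (CW N55E 5 5 NW TC) []) : Dead (kap TC) (CW (fun _ => True) 5 5 NW TC) [] := by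
  intro F hF hall
  have ho := hF.cq.cn.ok
  refine hb F ⟨⟨hF.cq.cn, ?_⟩, hF.v⟩ hall
  exact n55e_of_dead hNP hg h1 ha ho.irr ho.lf3 ho.ctn ho.ln fun y => card_five (ho.five y)

end

/-! ### the assembly with the tables of the 73 points -/

section
open Vale.Agent.P032.H61.TF

theorem tabs73 : Tabs (kap TF.TC) (Gp 73 TF.TC) (Ce 73 TF.TC) (ptb TG) :=
  tabs_of_gchk (by norm_num) le_rfl g73

theorem okN5 : BlkV.okN 5 PX 120 = true := by decide +kernel

theorem ce_zero : Ce 73 TF.TC 0 := ⟨by norm_num, gp_zero.2⟩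

/-- the base clauses of X1, different colours (the unit `5 ∈ T v` is the pattern) -/
def EX1a (xs : List ℕ) : List (List ℕ) := EX xs ++ eV5 ++ symE 4

/-- the base clauses of the words of X1, equal colours -/
def EX1w (xs : List ℕ) : List (List ℕ) := EX xs ++ eV5 ++ [[ng (En 4 1 0 0 5)]]

/-- the base clauses of the master of X1, equal colours -/
def EX1b (xs : List ℕ) : List (List ℕ) := EX xs ++ eV5 ++ symE 4 ++ [[ng (En 4 1 0 0 5)]]

theorem ho_EX1w {F : Fr} {M : Md 2 73 73 (nbf 2 TF.TB)} {xs : List ℕ} (hx : ∀ x ∈ xs, Gp 73 TF.TC x)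
    (hF : CW N55E 5 5 73 TF.TC F) (hM : Mdl (tb (le_refl 73)) F M) : ∀ c ∈ EX1w xs, Ho M c := by
  intro c hc
  unfold EX1w at hc
  rcases List.mem_append.1 hc with hc | hc
  · exact ho_E5' hM hF kap_zero gp_zero kap_one gp_one hx c hc
  · exact ho_n5 hM hF kap_one gp_one c hc

theorem ho_EX1b {F : Fr} {M : Md 2 73 73 (nbf 2 TF.TB)} {xs : List ℕ} (hx : ∀ x ∈ xs, Gp 73 TF.TC x)
    (hF : CWS N55E 5 73 TF.TC F) (hM : Mdl (tb (le_refl 73)) F M) : ∀ c ∈ EX1b xs, Ho M c := by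
  intro c hc
  unfold EX1b at hc
  rcases List.mem_append.1 hc with hc | hc
  · exact ho_E5 hM hF kap_zero gp_zero ce_zero kap_one gp_one hx c hc
  · exact ho_n5 hM hF.cw kap_one gp_one c hc

theorem fn_n5e {F : Fr} {M : Md 2 73 73 (nbf 2 TF.TB)} (hF : CW N55E 5 5 73 TF.TC F)
    (hM : Mdl (tb (le_refl 73)) F M) (n : ℕ) : Ho M (n5eC 73 TF.TB n) := by
  obtain ⟨Y, a, hR⟩ := rdm_of hM
  exact n5eC_ho hR hF.cq.q hF.cq.cn.ok.five n

/-- the certified patterns: all frames with a five-coloured centre -/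
abbrev D1 (t : PTr) : Prop :=
  t.All fun p => Dead (kap TF.TC) (CN 5 73 TF.TC) (pk p) ∧ Vl (Gp 73 TF.TC) (Ce 73 TF.TC) (pk p)

/-- the patterns of the pair of equal points -/
abbrev D2 (t : PTr) : Prop :=
  t.All fun p => Dead (kap TF.TC) (CW N55E 5 5 73 TF.TC) (pk p) ∧ Vl (Gp 73 TF.TC) (Ce 73 TF.TC) (pk p)

/-- **the words of X1** : a query with base clauses, units, images of `t1` and the clauses `n5eC` -/
theorem x1_words {t1 : PTr} (ht1 : D1 t1) {xs : List ℕ} (hx : ∀ x ∈ xs, Gp 73 TF.TC x) {P : List ℕ}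
    (hv : Vl (Gp 73 TF.TC) (Ce 73 TF.TC) P) {cs : List ℕ}
    (hq : Qy 73 73 TF.TB (cs.map (mX2 (EX1w xs) P t1 PX 120 TG (n5eC 73 TF.TB)))) :
    Dead (kap TF.TC) (CW N55E 5 5 73 TF.TC) P :=
  dead_X2 (tb (le_refl 73)) g73 (fun _ hF => hF.cq.cn.ok) (fun _ hF => hF.cq.cn) (fun _ hF => hF.rot tabs73 le_rfl)
    (fun _ hF => hF.mir tabs73 le_rfl) (BlkV.okPT_of okN5) ht1 (fun _ _ hF hM => ho_EX1w hx hF hM)
    (fun _ _ hF hM => fn_n5e hF hM) hv hq

/-- the same without the clauses `n5eC`, in the form of `H286.Y73.Wd` -/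
theorem x1_words' {t1 : PTr} (ht1 : D1 t1) {xs : List ℕ} (hx : ∀ x ∈ xs, Gp 73 TF.TC x) {P : List ℕ}
    (hv : Vl (Gp 73 TF.TC) (Ce 73 TF.TC) P) {cs : List ℕ}
    (hq : Qy 73 73 TF.TB (cs.map (eC (EX1w xs ++ uns P) t1 PX 120 TG))) :
    Dead (kap TF.TC) (CW N55E 5 5 73 TF.TC) P :=
  dead_qy (tb (le_refl 73)) g73 (fun _ hF => hF.cq.cn.ok) (fun _ hF => hF.cq.cn) (fun _ hF => hF.rot tabs73 le_rfl)
    (fun _ hF => hF.mir tabs73 le_rfl) (BlkV.okPT_of okN5) ht1 (fun _ _ hF hM => ho_EX1w hx hF hM) hv hq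

/-- X1, different colours -/
theorem x1_a {t1 : PTr} (ht1 : D1 t1) {xs : List ℕ} (hx : ∀ x ∈ xs, Gp 73 TF.TC x) {cs : List ℕ}
    (hq : Qy 73 73 TF.TB (cs.map (mX2 (EX1a xs) [ps (En 4 1 0 0 5)] t1 PX 120 TG fun _ => trv))) :
    Dead (kap TF.TC) (CW (fun _ => True) 5 5 73 TF.TC) [ps (En 4 1 0 0 5)] := by
  refine dead_srt (fun l hl => ?_) (dead_X2 (tb (le_refl 73)) g73 (fun _ hF => hF.cw.cq.cn.ok)
    (fun _ hF => hF.cw.cq.cn) (fun _ hF => hF.rot tabs73 le_rfl) (fun _ hF => hF.mir tabs73 le_rfl)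
    (BlkV.okPT_of okN5) ht1 (fun F M hF hM => ho_E5 hM hF kap_zero gp_zero ce_zero kap_one gp_one hx)
    (fun _ _ _ _ _ => ho_trv _) (fun l hl => ?_) hq)
  · rw [List.mem_singleton.1 hl]
    decide +kernel
  · rw [List.mem_singleton.1 hl]
    have h9 : ps (En 4 1 0 0 5) / 2 = En 4 1 0 0 5 := by
      have : ps (En 4 1 0 0 5) = 2 * En 4 1 0 0 5 := rfl
      omega
    rw [h9]
    exact wn_of tabs73.lt (wa_t gp_one (by norm_num))

/-- X1, equal colours -/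
theorem x1_b {t1 t2 : PTr} (ht1 : D1 t1) (ht2 : D2 t2) {xs : List ℕ} (hx : ∀ x ∈ xs, Gp 73 TF.TC x) {cs : List ℕ}
    (hq : Qy 73 73 TF.TB (cs.map (mX3 (EX1b xs) [] t1 t2 PX 120 PX 120 TG (n5eC 73 TF.TB)))) :
    Dead (kap TF.TC) (CW N55E 5 5 73 TF.TC) [] :=
  dead_srt (fun _ hl => absurd hl List.not_mem_nil) (dead_X3 (tb (le_refl 73)) g73 (fun _ hF => hF.cw.cq.cn.ok)
    (fun _ hF => hF.cw.cq.cn) (fun _ hF => hF.cw) (fun _ hF => hF.rot tabs73 le_rfl)
    (fun _ hF => hF.mir tabs73 le_rfl) (fun _ hF => hF.mir inv_n55e tabs73 le_rfl)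
    (BlkV.okPT_of okN5) (okPTW_of okN5) ht1 ht2 (fun F M hF hM => ho_EX1b hx hF hM)
    (fun _ _ hF hM => fn_n5e hF.cw hM) (fun _ hl => absurd hl List.not_mem_nil) hq)

/-- **the block X1** -/
theorem x1_dead (ha : Dead (kap TF.TC) (CW (fun _ => True) 5 5 73 TF.TC) [ps (En 4 1 0 0 5)])
    (hb : Dead (kap TF.TC) (CW N55E 5 5 73 TF.TC) []) : Dead (kap TF.TC) (CW (fun _ => True) 5 5 73 TF.TC) [] :=
  dead_join (by norm_num) gp_one kap_one ha hb

end

end Vale.Agent.P032.BlkS
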