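import Vale.Agent.P032.H892.TabW
import Vale.Agent.P032.H892.BlkS

/-!
# P032: extra clauses of the certified patterns of the pair blocks; levels 2 and 3 of the last block

* `fam3 im` : base clauses, `N55`, `ND5`, images (`im`), code = `4 c + kind`, `fam3_ho`; `fam2 im` : without `ND5`,
* `trF` : the tree of a list of patterns which are certified with clauses of a function, `tr3`, `tr2`, `tr1`,
* `DQ Q t` : the patterns of the tree are dead for all frames with a five-coloured centre and `Q`; `DQ.of1`, `DQ.mono`,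
* `words`, `master` : queries of levels 2 and 3 for the block (5, 4) with the condition `Q`,
* `n54_of_n55` : **the block (5, 4) without the block of the two-pair points.**
-/

open Set Filter Topology Metric

noncomputable section

namespace Vale.Agent.P032.Fam

open Vale.Agent.P032.Six Vale.Agent.P032.Words Vale.Agent.P032.S5.H767
  Vale.Agent.P032.H913 Vale.Agent.P032.H357 Vale.Agent.P032.H61 Vale.Agent.P032.BlkE Vale.Agent.P032.BlkS
  Vale.Agent.P032.TW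
open Vale.Agent.P032.BlkV (CN eN eN_ho okPT_of okN)
open Vale.Agent.P032.H357.MK
open Vale.Agent.P032.H820.K (a0 a1 a2 a3 a4 En en_eq dec Md av lv Ho ps ng lv_ps lv_ng nbf lb lb_iff trv ho_trv nthC
  nthC_ho Crt)
open Vale.Agent.P032.H61.TF (tb g73 gp_zero gp_one kap_zero kap_one PX TG)

/-! ### trees -/

/-- **the tree of a list of patterns which are certified with clauses of the function `fam`** -/
theorem trF {NP NW TB TC : ℕ} (B : Tb NP NW TB TC) {t : PTr} {L : List (List ℕ)} {fam : ℕ → List ℕ}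
    (h : chT NP NW TC t L = true) (hL : ∀ P ∈ L, CrtF NP NW TB TC fam P) {C : Fr → Prop}
    (hC : ∀ F, C F → FOk (kap TC) (cxv NW TC) F) (hE : ∀ F M, C F → Mdl B F M → ∀ c, Ho M (fam c)) :
    t.All fun p => Dead (kap TC) C (pk p) ∧ Vl (Gp NP TC) (Ce NW TC) (pk p) := by
  refine (PTr.all_of (acc := []) fun x hx => ?_).1
  obtain ⟨h1, h2⟩ := chL_spec h x hx
  obtain ⟨cs, I, hI⟩ := hL _ h1
  refine ⟨dead_of_pat (B := B) hC (fun F M hF hM c hc => ?_) h2 hI, h2⟩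
  obtain ⟨i, -, rfl⟩ := List.mem_map.1 hc
  exact hE F M hF hM i

theorem all_mono {P Q : ℕ → Prop} {t : PTr} (h : t.All P) (hPQ : ∀ n, P n → Q n) : t.All Q := by
  induction t with
  | leaf n => exact hPQ n h
  | node l r ihl ihr => exact ⟨ihl h.1, ihr h.2⟩

/-- the patterns are dead for the class `C` -/
abbrev DC (C : Fr → Prop) (t : PTr) : Prop :=
  t.All fun p => Dead (kap TF.TC) C (pk p) ∧ Vl (Gp 73 TF.TC) (Ce 73 TF.TC) (pk p)

theorem DC.mono {C C' : Fr → Prop} {t : PTr} (h : DC C t) (hC : ∀ F, C' F → C F) : DC C' t :=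
  all_mono h fun _ hn => ⟨fun F hF => hn.1 F (hC F hF), hn.2⟩

/-- the patterns are dead for all frames with a five-coloured centre and the condition `Q` -/
abbrev DQ (Q : (ℂ → Set (Fin 6)) → Prop) (t : PTr) : Prop := DC (CQ Q 5 73 TF.TC) t

theorem DQ.of1 {Q : (ℂ → Set (Fin 6)) → Prop} {t : PTr} (h : D1 t) : DQ Q t :=
  DC.mono h fun _ hF => hF.cn

theorem DQ.mono {Q Q' : (ℂ → Set (Fin 6)) → Prop} {t : PTr} (h : DQ Q t) (hQ : ∀ T, Q' T → Q T) : DQ Q' t :=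
  DC.mono h fun F hF => ⟨hF.cn, hQ F.T hF.q⟩

/-- both conditions -/
def Q3 (T : ℂ → Set (Fin 6)) : Prop := N55 T ∧ ND5 T

theorem inv_q3 : Inv Q3 := inv_and inv_n55 inv_nd5

/-! ### the clauses -/

/-- base clauses, `N55`, `ND5`, `im` -/
def fam3 (im : ℕ → List ℕ) : ℕ → List ℕ := sel4 (nthC (eN 5)) (n55C 73 TF.TB) (harmC 73 73 TF.TB) im

/-- base clauses, `N55`, `im` -/
def fam2 (im : ℕ → List ℕ) : ℕ → List ℕ := sel4 (nthC (eN 5)) (n55C 73 TF.TB) (fun _ => trv) im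

/-- base clauses, `im` -/
def fam1 (im : ℕ → List ℕ) : ℕ → List ℕ := sel4 (nthC (eN 5)) (fun _ => trv) (fun _ => trv) im

/-- no images -/
def im0 : ℕ → List ℕ := fun _ => trv

section
variable {F : Fr} {M : Md 2 73 73 (nbf 2 TF.TB)} {im : ℕ → List ℕ} {t tr : PTr} {L : List (List ℕ)}
  {Q : (ℂ → Set (Fin 6)) → Prop}

theorem fam3_ho (hF : CQ Q3 5 73 TF.TC F) (hM : Mdl (tb (le_refl 73)) F M) (him : ∀ c, Ho M (im c)) (c : ℕ) :
    Ho M (fam3 im c) := by
  obtain ⟨Y, a, hR⟩ := rdm_of hM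
  exact sel4_ho (nthC_ho (eN_ho kap_zero gp_zero (by norm_num) (by norm_num) hF.cn hM)) (n55C_ho hR hF.q.1)
    (harmC_ho hR hF.q.2 le_rfl) him c

theorem fam2_ho (hF : CQ N55 5 73 TF.TC F) (hM : Mdl (tb (le_refl 73)) F M) (him : ∀ c, Ho M (im c)) (c : ℕ) :
    Ho M (fam2 im c) := by
  obtain ⟨Y, a, hR⟩ := rdm_of hM
  exact sel4_ho (nthC_ho (eN_ho kap_zero gp_zero (by norm_num) (by norm_num) hF.cn hM)) (n55C_ho hR hF.q)
    (fun _ => ho_trv M) him c

theorem fam1_ho (hF : CN 5 73 TF.TC F) (hM : Mdl (tb (le_refl 73)) F M) (him : ∀ c, Ho M (im c)) (c : ℕ) :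
    Ho M (fam1 im c) :=
  sel4_ho (nthC_ho (eN_ho kap_zero gp_zero (by norm_num) (by norm_num) hF hM)) (fun _ => ho_trv M)
    (fun _ => ho_trv M) him c

/-- **patterns of the block with both conditions**, `tr` = tree of earlier patterns -/
theorem tr3 (h : chT 73 73 TF.TC t L = true) (hL : ∀ P ∈ L, CrtF 73 73 TF.TB TF.TC (fam3 (imX 5 tr)) P)
    (htr : DQ Q3 tr) : DQ Q3 t :=
  trF (tb (le_refl 73)) h hL (fun _ hF => hF.cn.ok)
    (fun _ _ hF hM c => fam3_ho hF hM (fun c => imQ_ho inv_q3 hF.q hM htr c) c)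

/-- the same without images -/
theorem tr3' (h : chT 73 73 TF.TC t L = true) (hL : ∀ P ∈ L, CrtF 73 73 TF.TB TF.TC (fam3 im0) P) : DQ Q3 t :=
  trF (tb (le_refl 73)) h hL (fun _ hF => hF.cn.ok)
    (fun _ M hF hM c => fam3_ho hF hM (fun _ => ho_trv M) c)

/-- **patterns with the condition `N55`** -/
theorem tr2 (h : chT 73 73 TF.TC t L = true) (hL : ∀ P ∈ L, CrtF 73 73 TF.TB TF.TC (fam2 (imX 5 tr)) P)
    (htr : DQ N55 tr) : DQ N55 t :=
  trF (tb (le_refl 73)) h hL (fun _ hF => hF.cn.ok)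
    (fun _ _ hF hM c => fam2_ho hF hM (fun c => imQ_ho inv_n55 hF.q hM htr c) c)

theorem tr2' (h : chT 73 73 TF.TC t L = true) (hL : ∀ P ∈ L, CrtF 73 73 TF.TB TF.TC (fam2 im0) P) : DQ N55 t :=
  trF (tb (le_refl 73)) h hL (fun _ hF => hF.cn.ok)
    (fun _ M hF hM c => fam2_ho hF hM (fun _ => ho_trv M) c)

/-- **patterns without conditions, with images of earlier patterns** -/
theorem tr1 (h : chT 73 73 TF.TC t L = true) (hL : ∀ P ∈ L, CrtF 73 73 TF.TB TF.TC (fam1 (imX 5 tr)) P)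
    (htr : D1 tr) : D1 t :=
  trF (tb (le_refl 73)) h hL (fun _ hF => hF.ok)
    (fun _ _ hF hM c => fam1_ho hF hM (fun c => imX_ho hM htr c) c)

/-- certified patterns without extra clauses -/
theorem tr0 (h : chT 73 73 TF.TC t L = true) (hL : ∀ P ∈ L, Crt 73 73 TF.TB TF.TC (eN 5) P) : D1 t :=
  tr_all h hL (tb (le_refl 73)) (fun _ hF => hF.ok)
    (fun _ _ hF hM => eN_ho kap_zero gp_zero (by norm_num) (by norm_num) hF hM)

theorem D1.node {l r : PTr} (h : D1 l) (h' : D1 r) : D1 (PTr.node l r) := ⟨h, h'⟩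

theorem DC.node {C : Fr → Prop} {l r : PTr} (h : DC C l) (h' : DC C r) : DC C (PTr.node l r) := ⟨h, h'⟩

/-! ### levels 2 and 3 of a block (5, 4) -/

/-- base clauses of the words -/
def EXw (xs : List ℕ) : List (List ℕ) := EX xs ++ V4E 1

/-- base clauses of the master -/
def EXm (xs : List ℕ) : List (List ℕ) := EX xs ++ V4E 1 ++ symE 4

theorem ho_EXw {xs : List ℕ} (hx : ∀ x ∈ xs, Gp 73 TF.TC x) (hF : CW Q 5 4 73 TF.TC F)
    (hM : Mdl (tb (le_refl 73)) F M) : ∀ c ∈ EXw xs, Ho M c := by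
  intro c hc
  unfold EXw at hc
  rcases List.mem_append.1 hc with hc | hc
  · exact ho_EX hM ⟨hF.cq.cn.ok, hF.cq.cn.2⟩ kap_zero gp_zero hx c hc
  · exact ho_V4E hM gp_one (by rw [BlkV.P_one kap_one]; exact hF.v) c hc

/-- **words of a block (5, 4)** : base clauses and units, images of `t1`, the function `f` -/
theorem words (hQ : Inv Q) {t1 : PTr} (ht1 : DQ Q t1) {xs : List ℕ} (hx : ∀ x ∈ xs, Gp 73 TF.TC x) {f : ℕ → List ℕ}
    (hf : ∀ F (M : Md 2 73 73 (nbf 2 TF.TB)), CW Q 5 4 73 TF.TC F → Mdl (tb (le_refl 73)) F M → ∀ c, Ho M (f c))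
    {P : List ℕ} (hv : Vl (Gp 73 TF.TC) (Ce 73 TF.TC) P) {cs : List ℕ}
    (hq : Qy 73 73 TF.TB (cs.map (mX2 (EXw xs) P t1 PX 120 TG f))) : Dead (kap TF.TC) (CW Q 5 4 73 TF.TC) P :=
  dead_X2 (tb (le_refl 73)) g73 (fun _ hF => hF.cq.cn.ok) (fun _ hF => hF.cq) (fun _ hF => hF.rot tabs73 le_rfl)
    (fun _ hF => hF.mir hQ tabs73 le_rfl) (okPTQ_of okN5) ht1 (fun _ _ hF hM => ho_EXw hx hF hM) hf hv hq

/-- **the master of a block (5, 4)** : base clauses, images of `t1`, the function `f`, images of the words `t2` -/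
theorem master (hQ : Inv Q) {t1 t2 : PTr} (ht1 : DQ Q t1) (ht2 : DC (CW Q 5 4 73 TF.TC) t2) {xs : List ℕ}
    (hx : ∀ x ∈ xs, Gp 73 TF.TC x) {f : ℕ → List ℕ}
    (hf : ∀ F (M : Md 2 73 73 (nbf 2 TF.TB)), CW Q 5 4 73 TF.TC F → Mdl (tb (le_refl 73)) F M → ∀ c, Ho M (f c))
    {cs : List ℕ} (hq : Qy 73 73 TF.TB (cs.map (mX3 (EXm xs) [] t1 t2 PX 120 PX 120 TG f))) :
    Dead (kap TF.TC) (CW Q 5 4 73 TF.TC) [] :=
  dead_srt (fun _ hl => absurd hl List.not_mem_nil) (dead_X3 (tb (le_refl 73)) g73 (fun _ hF => hF.cw.cq.cn.ok)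
    (fun _ hF => hF.cw.cq) (fun _ hF => hF.cw) (fun _ hF => hF.rot tabs73 le_rfl)
    (fun _ hF => hF.mir hQ tabs73 le_rfl) (fun _ hF => hF.mir hQ tabs73 le_rfl)
    (okPTQ_of okN5) (okPTW_of okN5) ht1 ht2
    (fun _ _ hF hM => ho_E4 hM hF kap_zero gp_zero ce_zero kap_one gp_one hx)
    (fun F M hF hM => hf F M hF.cw hM) (fun _ hl => absurd hl List.not_mem_nil) hq)

/-- the clauses `N55`, `ND5`, images of `tr` as one function (code = `4 c + kind`) -/
theorem f3_ho (htr : DQ Q3 tr) (hF : CW Q3 5 4 73 TF.TC F) (hM : Mdl (tb (le_refl 73)) F M) (c : ℕ) :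
    Ho M (fam3 (imX 5 tr) c) :=
  fam3_ho hF.cq hM (fun c => imQ_ho inv_q3 hF.cq.q hM htr c) c

theorem f3_ho' (hF : CW Q3 5 4 73 TF.TC F) (hM : Mdl (tb (le_refl 73)) F M) (c : ℕ) : Ho M (fam3 im0 c) :=
  fam3_ho hF.cq hM (fun _ => ho_trv M) c

theorem f2_ho (htr : DQ N55 tr) (hF : CW N55 5 4 73 TF.TC F) (hM : Mdl (tb (le_refl 73)) F M) (c : ℕ) :
    Ho M (fam2 (imX 5 tr) c) :=
  fam2_ho hF.cq hM (fun c => imQ_ho inv_n55 hF.cq.q hM htr c) c

theorem f2_ho' (hF : CW N55 5 4 73 TF.TC F) (hM : Mdl (tb (le_refl 73)) F M) (c : ℕ) : Ho M (fam2 im0 c) :=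
  fam2_ho hF.cq hM (fun _ => ho_trv M) c

end

/-! ### the conclusions -/

section
variable {NW TC : ℕ} {U : Fin 6 → Set ℂ} {T : ℂ → Set (Fin 6)}

/-- **the block (5, 4) without the block of the two-pair points** -/
theorem n54_of_n55 (hD : Dead (kap TC) (CW N55 5 4 NW TC) []) (h : Irr U T) (hl : LF3 U T)
    (hc : ∀ y, Ctn U T y) (hn : Ln U T) (h5 : ∀ y, (T y).ncard ≤ 5) (h55 : N55 T) : N54 T := fun x y hxy h1 h2 =>
  no_pair hD h hl hc hn h5 h55 (by rw [dist_comm]; exact hxy) (le_antisymm (h5 x) h1) h2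

/-- **both blocks together** : X1 and the block (5, 4) with `N55` give the block (5, 4) -/
theorem dead_54 (h1 : Dead (kap TC) (CW (fun _ => True) 5 5 NW TC) [])
    (h2 : Dead (kap TC) (CW N55 5 4 NW TC) []) : Dead (kap TC) (CW (fun _ => True) 5 4 NW TC) [] := by
  intro F hF hall
  have ho := hF.cq.cn.ok
  refine h2 F ⟨⟨hF.cq.cn, ?_⟩, hF.v⟩ hall
  exact n55_of_dead h1 ho.irr ho.lf3 ho.ctn ho.ln fun y => card_five (ho.five y)

/-- the hypothesis of `H355.hX_of_dead` -/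
theorem dead_cv (h : Dead (kap TC) (CW (fun _ => True) 5 4 NW TC) []) : Dead (kap TC) (BlkV.CV 5 NW TC) [] :=
  fun F hF hall => h F ⟨⟨hF.1, trivial⟩, hF.2⟩ hall

end

end Vale.Agent.P032.Fam
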