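import Vale.Agent.P032.H892.Perm
import Vale.Agent.P032.H820.Hull

/-!
# P032: isometries and mirror images of frames

`mx_isom`, `irr_isom`, `ct_isom`, `ctn_isom`, `lf3_isom` : frames under an isometry `e` (the family `e ⁻¹' U i`,
the cover `T (e x)`).
`C6.mirror` : the mirror image of a six-coloured point; `lr_mirror`, `ll_mirror` : the letters just after `-u` of
the mirror image are the letters just before `u`.
-/

open Set Filter Topology Metric

noncomputable section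

namespace Vale.Agent.P032.H892

open Vale.Agent.P032.Six Vale.Agent.P032.Words Vale.Agent.P032.S5.H767

section isom

variable {k : ℕ} {U : Fin k → Set ℂ} {T : ℂ → Set (Fin k)} (e : ℂ ≃ᵢ ℂ)

theorem closure_isom (A : Set ℂ) : closure (e ⁻¹' A) = e ⁻¹' closure A :=
  (e.toHomeomorph.preimage_closure A).symm

theorem interior_isom (A : Set ℂ) : interior (e ⁻¹' A) = e ⁻¹' interior A :=
  (e.toHomeomorph.preimage_interior A).symm

theorem pal_isom (x : ℂ) : Pal (fun i => e ⁻¹' U i) x = Pal U (e x) := by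
  ext i
  show x ∈ closure (e ⁻¹' U i) ↔ e x ∈ closure (U i)
  rw [closure_isom]; rfl

theorem xx_isom (x : ℂ) : x ∈ XX (fun i => e ⁻¹' U i) ↔ e x ∈ XX U := Iff.rfl

theorem ev_isom {x : ℂ} {p : ℂ → Prop} (h : ∀ᶠ w in 𝓝 (e x), p w) : ∀ᶠ w in 𝓝 x, p (e w) :=
  e.continuous.continuousAt.eventually h

theorem fr_isom {x : ℂ} {p : ℂ → Prop} (h : ∃ᶠ w in 𝓝 (e x), p w) : ∃ᶠ w in 𝓝 x, p (e w) := by
  have h1 : Filter.map e (𝓝 x) = 𝓝 (e x) := e.toHomeomorph.map_nhds_eq x
  rw [← h1] at h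
  exact h

theorem mx_isom (h : Mx U) : Mx (fun i => e ⁻¹' U i) := by
  obtain ⟨h1, h2, h3, h4, C, hC⟩ := h
  refine ⟨fun i => (h1 i).preimage e.continuous, ?_, fun i x hx y hy => ?_, fun i x hx => ?_,
    fun z => C (e z), fun z => ?_⟩
  · have e1 : (⋃ i, e ⁻¹' U i) = e ⁻¹' ⋃ i, U i := (preimage_iUnion).symm
    rw [e1, dense_iff_closure_eq, closure_isom, h2.closure_eq, preimage_univ]
  · rw [closure_isom] at hy
    rw [← e.dist_eq]
    exact h3 i (e x) hx (e y) hy
  · rw [pal_isom] at hx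
    exact h4 i (e x) hx
  · obtain ⟨c1, c2, c3⟩ := hC (e z)
    refine ⟨fun i hi => by rw [pal_isom]; exact c1 hi, ?_, fun hz i hi => ?_⟩
    · filter_upwards [ev_isom e c2] with w hw
      obtain ⟨i, hi, hiw⟩ := hw
      exact ⟨i, hi, by rw [pal_isom]; exact hiw⟩
    · first
        | (obtain ⟨⟨y, hy, hiy⟩, h5⟩ := c3 hz i hi
           refine ⟨⟨e.symm y, ?_, ?_⟩, ?_⟩
           · rw [← e.dist_eq, e.apply_symm_apply]; exact hy
           · rw [pal_isom, e.apply_symm_apply]; exact hiy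
           · filter_upwards [ev_isom e h5] with w hw hw2
             rw [closure_isom, interior_isom] at hw2
             exact hw hw2)
        | (obtain ⟨y, hy, hiy⟩ := c3 hz i hi
           refine ⟨e.symm y, ?_, ?_⟩
           · rw [← e.dist_eq, e.apply_symm_apply]; exact hy
           · rw [pal_isom, e.apply_symm_apply]; exact hiy)

theorem irr_isom (h : Irr U T) : Irr (fun i => e ⁻¹' U i) (fun x => T (e x)) where
  mx := mx_isom e h.mx
  max := by
    have key : ∀ i x, (∀ y ∈ closure (e ⁻¹' U i), dist x y ≠ 1) →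
        ∀ y ∈ closure (U i), dist (e x) y ≠ 1 := by
      intro i x hx y hy hd
      refine hx (e.symm y) ?_ ?_
      · rw [closure_isom]
        show e (e.symm y) ∈ closure (U i)
        rw [e.apply_symm_apply]; exact hy
      · rw [← e.dist_eq, e.apply_symm_apply]; exact hd
    first
      | exact fun i x hx => h.max i (e x) (key i x hx)
      | exact fun i x hT hx => h.max i (e x) hT (key i x hx)
  closed := fun i => (h.closed i).preimage e.continuous
  ne := fun x => h.ne (e x)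
  sub := fun x => by rw [pal_isom]; exact h.sub (e x)
  off := fun x hx i hi => h.off (e x) hx i hi
  pure := fun x i hi => fr_isom e (h.pure (e x) i hi)

theorem ct_isom {z : ℂ} {i : Fin k} (h : Ct U (e z) i) : Ct (fun i => e ⁻¹' U i) z i := by
  obtain ⟨Q, hQ, hc, hz, x, hxQ, hxU⟩ := h
  refine ⟨e ⁻¹' Q, ?_, ?_, hz, e.symm x, ?_, ?_⟩
  · show e ⁻¹' Q ⊆ closure (e ⁻¹' U i)
    rw [closure_isom]; exact preimage_mono hQ
  · exact (e.toHomeomorph.isPreconnected_preimage).2 hc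
  · show e (e.symm x) ∈ Q
    rw [e.apply_symm_apply]; exact hxQ
  · show e (e.symm x) ∈ U i
    rw [e.apply_symm_apply]; exact hxU

theorem ctn_isom {z : ℂ} (h : Ctn U T (e z)) : Ctn (fun i => e ⁻¹' U i) (fun x => T (e x)) z := by
  filter_upwards [ev_isom e h] with w hw c hc
  obtain ⟨Q, hQ, hp, hz, hwQ⟩ := hw c hc
  refine ⟨e ⁻¹' Q, ?_, (e.toHomeomorph.isPreconnected_preimage).2 hp, hz, hwQ⟩
  show e ⁻¹' Q ⊆ closure (e ⁻¹' U c)
  rw [closure_isom]; exact preimage_mono hQ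

end isom

/-! ### the mirror image -/

variable {U : Fin 6 → Set ℂ} {T : ℂ → Set (Fin 6)} {z : ℂ}

/-- complex conjugation -/
def cj : ℂ ≃ᵢ ℂ := Complex.conjLIE.toIsometryEquiv

theorem cj_apply (x : ℂ) : cj x = (starRingEnd ℂ) x := rfl

theorem cj_cj (x : ℂ) : cj (cj x) = x := by simp [cj_apply]

theorem cj_cis (a : ℝ) : (starRingEnd ℂ) (cis a) = cis (-a) := by
  apply Complex.ext
  · simp [cis_re]
  · simp [cis_im]

theorem cj_pt (z : ℂ) (u : ℝ) : cj (pt (cj z) u) = pt z (-u) := by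
  rw [cj_apply, cj_apply]
  unfold pt
  rw [map_add, cj_cis, Complex.conj_conj, neg_mul]

theorem cj_po (z : ℂ) (p : ℝ × ℝ) : cj (po (cj z) p) = po z (p.1, -p.2) := by
  rw [cj_apply, cj_apply]
  unfold po
  rw [map_add, map_mul, cj_cis, Complex.conj_conj, Complex.conj_ofReal, neg_mul]

theorem dr_mirror (c : Fin 6) (θ : ℝ) : θ ∈ Dr (fun x => T (cj x)) (cj z) c ↔ -θ ∈ Dr T z c := by
  let g : ℝ × ℝ ≃ₜ ℝ × ℝ := (Homeomorph.refl ℝ).prodCongr (Homeomorph.neg ℝ)
  have hg : ∀ p : ℝ × ℝ, g p = (p.1, -p.2) := fun p => rfl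
  have e : g ⁻¹' PoS T z c = PoS (fun x => T (cj x)) (cj z) c := by
    ext p
    simp only [mem_preimage, hg, PoS, mem_ofPred_eq]
    rw [cj_po]
  have h := g.preimage_closure (PoS T z c)
  rw [e] at h
  show ((0 : ℝ), θ) ∈ closure (PoS (fun x => T (cj x)) (cj z) c) ↔ ((0 : ℝ), -θ) ∈ closure (PoS T z c)
  rw [← h]
  exact Iff.rfl

theorem sd_mirror {V : ℂ} {i j : Fin 6} (h : Sd U z (cj V) i j) :
    Sd (fun i => cj ⁻¹' U i) (cj z) V i j := by
  have h1 := ev_isom cj h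
  filter_upwards [h1] with x hx
  have e1 : dist x (cj z) = dist (cj x) z := by
    rw [← cj.dist_eq, cj_cj]
  rw [pal_isom, e1]
  exact hx

theorem o6_mirror (l : L6) (u : ℝ) :
    u ∈ O6 (fun i => cj ⁻¹' U i) (fun x => T (cj x)) (cj z) l ↔ -u ∈ O6 U T z l := by
  constructor
  · rintro ⟨h1, h2, h3⟩
    have h1 : T (cj (pt (cj z) u)) = {l.1, l.2} := h1
    rw [cj_pt] at h1
    refine ⟨h1, h2, ?_⟩
    -- mirror back
    have h4 := sd_mirror (U := fun i => cj ⁻¹' U i) (z := cj z) (V := pt z (-u)) (i := l.1) (j := l.2)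
      (by rw [← cj_pt, cj_cj]; exact h3)
    have e1 : (fun i => cj ⁻¹' ((fun i => cj ⁻¹' U i) i)) = U := by
      funext i
      ext x
      show cj (cj x) ∈ U i ↔ x ∈ U i
      rw [cj_cj]
    rw [e1, cj_cj] at h4
    exact h4
  · rintro ⟨h1, h2, h3⟩
    refine ⟨?_, h2, sd_mirror ?_⟩
    · show T (cj (pt (cj z) u)) = {l.1, l.2}
      rw [cj_pt]; exact h1
    · rw [cj_pt]; exact h3

theorem tendsto_neg_ne (u : ℝ) : Tendsto (fun v : ℝ => -v) (𝓝[≠] u) (𝓝[≠] (-u)) := by
  refine tendsto_nhdsWithin_iff.2 ⟨(continuous_neg.tendsto u).mono_left nhdsWithin_le_nhds, ?_⟩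
  filter_upwards [self_mem_nhdsWithin] with v hv h
  exact hv (neg_injective h)

theorem tendsto_neg_lt (u : ℝ) : Tendsto (fun v : ℝ => -v) (𝓝[<] u) (𝓝[>] (-u)) := by
  refine tendsto_nhdsWithin_iff.2 ⟨(continuous_neg.tendsto u).mono_left nhdsWithin_le_nhds, ?_⟩
  filter_upwards [self_mem_nhdsWithin] with v hv
  have hv : v < u := hv
  exact neg_lt_neg hv

theorem tendsto_neg_gt (u : ℝ) : Tendsto (fun v : ℝ => -v) (𝓝[>] u) (𝓝[<] (-u)) := by
  refine tendsto_nhdsWithin_iff.2 ⟨(continuous_neg.tendsto u).mono_left nhdsWithin_le_nhds, ?_⟩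
  filter_upwards [self_mem_nhdsWithin] with v hv
  have hv : u < v := hv
  exact neg_lt_neg hv

namespace C6

variable (C : C6 U T z)
include C

/-- **The mirror image** -/
theorem mirror : C6 (fun i => cj ⁻¹' U i) (fun x => T (cj x)) (cj z) where
  irr := irr_isom cj C.irr
  pal := fun i => by
    show i ∈ T (cj (cj z))
    rw [cj_cj]; exact C.pal i
  ct := fun i => ct_isom cj (by rw [cj_cj]; exact C.ct i)
  lf := fun u => by
    filter_upwards [(tendsto_neg_ne u).eventually (C.lf (-u))] with v hv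
    show (T (cj (pt (cj z) v))).ncard ≤ 2
    rw [cj_pt]; exact hv
  hp := fun c => by
    obtain ⟨V, hV⟩ := C.hp c
    refine ⟨-V, fun θ hθ => ?_⟩
    have h1 := hV (-θ) ((dr_mirror c θ).1 hθ)
    have e : (-θ - V) * (Real.pi / 3) = -((θ - -V) * (Real.pi / 3)) := by ring
    rw [e, Real.cos_neg] at h1
    exact h1

theorem lr_mirror (u : ℝ) :
    LR (fun i => cj ⁻¹' U i) (fun x => T (cj x)) (cj z) u = LL U T z (-u) := by
  refine C.mirror.lr_eq (Filter.Eventually.frequently ?_)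
  filter_upwards [(tendsto_neg_gt u).eventually (C.ll_spec (-u))] with v hv
  exact (o6_mirror _ _).2 hv

theorem ll_mirror (u : ℝ) :
    LL (fun i => cj ⁻¹' U i) (fun x => T (cj x)) (cj z) u = LR U T z (-u) := by
  refine C.mirror.ll_eq (Filter.Eventually.frequently ?_)
  filter_upwards [(tendsto_neg_lt u).eventually (C.lr_spec (-u))] with v hv
  exact (o6_mirror _ _).2 hv

end C6

/-- mirror image of six letters -/
def mrW (w : Fin 6 → L6) : Fin 6 → L6 := fun k => w (-k)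

theorem neg_fin6 (k : Fin 6) : ∃ m : ℤ, (-(k.val : ℝ)) = ((-k : Fin 6).val : ℝ) + 6 * (m : ℝ) := by
  have h : ∃ m : ℤ, (-(k.val : ℤ)) = ((-k : Fin 6).val : ℤ) + 6 * m := by
    fin_cases k
    · exact ⟨0, rfl⟩
    · exact ⟨-1, rfl⟩
    · exact ⟨-1, rfl⟩
    · exact ⟨-1, rfl⟩
    · exact ⟨-1, rfl⟩
    · exact ⟨-1, rfl⟩
  obtain ⟨m, hm⟩ := h
  exact ⟨m, by exact_mod_cast hm⟩

namespace C6

variable (C : C6 U T z)
include C

theorem lr_per (w : ℝ) (m : ℤ) : LR U T z (w + 6 * m) = LR U T z w := by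
  have h : Function.Periodic (LR U T z) 6 := fun t => C.lr_six t
  have := h.int_mul m w
  rw [mul_comm]; exact this

theorem ll_per (w : ℝ) (m : ℤ) : LL U T z (w + 6 * m) = LL U T z w := by
  have h : Function.Periodic (LL U T z) 6 := fun t => C.ll_six t
  have := h.int_mul m w
  rw [mul_comm]; exact this

theorem sr_mirror (u : ℝ) :
    (SR (fun i => cj ⁻¹' U i) (fun x => T (cj x)) (cj z) u).1 = mrW (SL U T z (-u)).1 := by
  funext k
  show LR _ _ _ (u + (k.val : ℝ)) = LL U T z (-u + ((-k : Fin 6).val : ℝ))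
  rw [C.lr_mirror]
  obtain ⟨m, hm⟩ := neg_fin6 k
  have : -(u + (k.val : ℝ)) = -u + ((-k : Fin 6).val : ℝ) + 6 * m := by
    rw [neg_add, hm]; ring
  rw [this, C.ll_per]

theorem sl_mirror (u : ℝ) :
    (SL (fun i => cj ⁻¹' U i) (fun x => T (cj x)) (cj z) u).1 = mrW (SR U T z (-u)).1 := by
  funext k
  show LL _ _ _ (u + (k.val : ℝ)) = LR U T z (-u + ((-k : Fin 6).val : ℝ))
  rw [C.ll_mirror]
  obtain ⟨m, hm⟩ := neg_fin6 k
  have : -(u + (k.val : ℝ)) = -u + ((-k : Fin 6).val : ℝ) + 6 * m := by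
    rw [neg_add, hm]; ring
  rw [this, C.lr_per]

omit C in
theorem mrW_inj {v w : Fin 6 → L6} (h : mrW v = mrW w) : v = w := by
  funext k
  have := congrFun h (-k)
  unfold mrW at this
  simpa using this

theorem chg_mirror (u : ℝ) :
    Chg (fun i => cj ⁻¹' U i) (fun x => T (cj x)) (cj z) u ↔ Chg U T z (-u) := by
  unfold Chg
  rw [C.sl_mirror, C.sr_mirror]
  constructor
  · intro h e
    exact h (by rw [e])
  · intro h e
    exact h (mrW_inj e).symm

end C6

/-- **Events of letters** at some six-coloured point of some frame -/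
def EvL (s t : Fin 6 → L6) : Prop :=
  ∃ (U : Fin 6 → Set ℂ) (T : ℂ → Set (Fin 6)) (z : ℂ) (_ : C6 U T z) (u : ℝ),
    (SL U T z u).1 = s ∧ (SR U T z u).1 = t

theorem EvL.mirror {s t : Fin 6 → L6} (h : EvL s t) : EvL (mrW t) (mrW s) := by
  obtain ⟨U, T, z, C, u, rfl, rfl⟩ := h
  refine ⟨_, _, _, C.mirror, -u, ?_, ?_⟩
  · rw [C.sl_mirror, neg_neg]
  · rw [C.sr_mirror, neg_neg]

end Vale.Agent.P032.H892
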