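import Vale.Agent.P032.H892.Diam
import Vale.Agent.P032.H892.Mirror
import Vale.Agent.P032.H821.CaseI

/-!
# P032: assembly of `no six-coloured point`

* `Rot6` : at every six-coloured point one of 16 six-fold events occurs (one-class table),
* `Stable` : after the diametral word there is no change of letters during the next turn by 60 degrees,
* `Dead n` : the six-fold event number `n` does not occur (two-class closures), `n = 2, ..., 7`,
* `C6.no6_of` : these three give that there is no six-coloured point with connected colours.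
-/

open Set Filter Topology Metric

noncomputable section

namespace Vale.Agent.P032.H892

open Vale.Agent.P032.Six Vale.Agent.P032.Words Vale.Agent.P032.S5.H767

/-- inner letters before, outer letters before, inner letters after, outer letters after -/
def tab6 : Fin 16 → (Fin 6 → Fin 6) × (Fin 6 → Fin 6) × (Fin 6 → Fin 6) × (Fin 6 → Fin 6) := ![
  (![0,1,2,3,4,5], ![2,3,0,5,0,3], ![1,2,3,4,5,0], ![4,5,0,1,2,3]),
  (![0,1,2,3,4,5], ![2,3,4,5,0,1], ![1,2,3,4,5,0], ![4,5,0,1,2,3]),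
  (![0,1,2,3,4,5], ![2,3,5,0,1,3], ![1,2,3,4,5,0], ![4,0,5,0,2,3]),
  (![0,1,2,3,4,5], ![2,4,0,5,1,3], ![1,2,3,4,5,0], ![5,4,0,2,1,3]),
  (![0,1,2,3,4,5], ![2,4,0,5,2,3], ![1,2,3,4,5,0], ![5,4,0,1,2,3]),
  (![0,1,2,3,4,5], ![2,4,5,0,1,3], ![1,2,3,4,5,0], ![5,4,5,2,1,3]),
  (![0,1,2,3,4,5], ![2,4,5,0,2,3], ![1,2,3,4,5,0], ![5,0,5,1,2,3]),
  (![0,1,2,3,4,5], ![2,4,5,0,2,3], ![1,2,3,4,5,0], ![5,4,5,1,2,3]),
  (![0,1,2,3,4,5], ![2,5,0,5,2,3], ![1,2,3,4,5,0], ![4,5,0,1,2,3]),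
  (![0,1,2,3,4,5], ![3,4,5,0,1,2], ![1,2,3,4,5,0], ![3,0,1,0,3,4]),
  (![0,1,2,3,4,5], ![3,4,5,0,1,2], ![1,2,3,4,5,0], ![3,0,5,0,3,2]),
  (![0,1,2,3,4,5], ![3,4,5,0,1,2], ![1,2,3,4,5,0], ![3,4,5,0,1,2]),
  (![0,1,2,3,4,5], ![3,4,5,0,1,2], ![1,2,3,4,5,0], ![4,5,0,1,2,3]),
  (![0,1,2,3,4,5], ![3,4,5,0,1,2], ![1,2,3,4,5,0], ![5,0,1,2,3,4]),
  (![0,1,2,3,4,5], ![4,5,0,1,2,3], ![1,2,3,4,5,0], ![3,4,5,0,1,2]),
  (![0,1,2,3,4,5], ![4,5,0,1,2,3], ![1,2,3,4,5,0], ![4,5,0,1,2,3])]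

/-- the six-fold event number `n` occurs at the time `u`, with labels `σ` -/
def At6 (U : Fin 6 → Set ℂ) (T : ℂ → Set (Fin 6)) (z : ℂ) (u : ℝ) (σ : Fin 6 → Fin 6) (n : Fin 16) :
    Prop :=
  (∀ k, (SL U T z u).1 k = (σ ((tab6 n).1 k), σ ((tab6 n).2.1 k))) ∧
  ∀ k, (SR U T z u).1 k = (σ ((tab6 n).2.2.1 k), σ ((tab6 n).2.2.2 k))

/-- **One-class table**: a six-fold event occurs at every six-coloured point. -/
def Rot6 : Prop := ∀ (U : Fin 6 → Set ℂ) (T : ℂ → Set (Fin 6)) (z : ℂ), C6 U T z →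
  ∃ (u : ℝ) (σ : Fin 6 → Fin 6) (n : Fin 16), Function.Injective σ ∧ At6 U T z u σ n

/-- **Two-class closure of the diametral word** -/
def Stable : Prop := ∀ (U : Fin 6 → Set ℂ) (T : ℂ → Set (Fin 6)) (z : ℂ), C6 U T z →
  ∀ (τ : ℝ) (σ : Fin 6 → Fin 6), Function.Injective σ → (∀ k, (SR U T z τ).1 k = (σ k, σ (k + 3))) →
    ∀ v ∈ Ioo τ (τ + 1), ¬ Chg U T z v

/-- **Two-class closures** of the other words -/
def Dead (n : Fin 16) : Prop := ∀ (U : Fin 6 → Set ℂ) (T : ℂ → Set (Fin 6)) (z : ℂ), C6 U T z →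
  ∀ (u : ℝ) (σ : Fin 6 → Fin 6), Function.Injective σ → ¬ At6 U T z u σ n

variable {U : Fin 6 → Set ℂ} {T : ℂ → Set (Fin 6)} {z : ℂ}

/-- no diametral word just after a time -/
theorem C6.no_diam_R (hS : Stable) (C : C6 U T z) (hct : Ctn U T z) {τ : ℝ} {σ : Fin 6 → Fin 6}
    (inj : Function.Injective σ) (h : ∀ k, (SR U T z τ).1 k = (σ k, σ (k + 3))) : False :=
  C.no_diam hct inj h (hS U T z C τ σ inj h)

/-- no diametral word just before a time -/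
theorem C6.no_diam_L (hS : Stable) (C : C6 U T z) (hct : Ctn U T z) {τ : ℝ} {σ : Fin 6 → Fin 6}
    (inj : Function.Injective σ) (h : ∀ k, (SL U T z τ).1 k = (σ k, σ (k + 3))) : False := by
  refine C.mirror.no_diam_R hS (ctn_isom cj (by rw [cj_cj]; exact hct)) (τ := -τ) (σ := fun k => σ (-k))
    (fun a b hab => neg_injective (inj hab)) fun k => ?_
  rw [C.sr_mirror, neg_neg]
  show (SL U T z τ).1 (-k) = (σ (-k), σ (-(k + 3)))
  rw [h]
  have : ∀ k : Fin 6, -k + 3 = -(k + 3) := by decide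
  rw [this]

theorem Stable.dead_after (hS : Stable) {n : Fin 16}
    (hn : (tab6 n).2.2.1 = ![1,2,3,4,5,0] ∧ (tab6 n).2.2.2 = ![4,5,0,1,2,3])
    (C : C6 U T z) (hct : Ctn U T z) {u : ℝ} {σ : Fin 6 → Fin 6} (inj : Function.Injective σ)
    (h : At6 U T z u σ n) : False := by
  refine C.no_diam_R hS hct (τ := u) (σ := fun k => σ (k + 1)) (fun a b hab => ?_) fun k => ?_
  · exact add_right_cancel (inj hab)
  · rw [h.2 k, hn.1, hn.2]
    have : ∀ k : Fin 6, (![1,2,3,4,5,0] : Fin 6 → Fin 6) k = k + 1 ∧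
      (![4,5,0,1,2,3] : Fin 6 → Fin 6) k = k + 3 + 1 := by decide
    rw [(this k).1, (this k).2]

theorem Stable.dead_before (hS : Stable) {n : Fin 16}
    (hn : (tab6 n).1 = ![0,1,2,3,4,5] ∧ (tab6 n).2.1 = ![3,4,5,0,1,2])
    (C : C6 U T z) (hct : Ctn U T z) {u : ℝ} {σ : Fin 6 → Fin 6} (inj : Function.Injective σ)
    (h : At6 U T z u σ n) : False := by
  refine C.no_diam_L hS hct (τ := u) (σ := σ) inj fun k => ?_
  rw [h.1 k, hn.1, hn.2]
  have : ∀ k : Fin 6, (![0,1,2,3,4,5] : Fin 6 → Fin 6) k = k ∧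
    (![3,4,5,0,1,2] : Fin 6 → Fin 6) k = k + 3 := by decide
  rw [(this k).1, (this k).2]

/-- the crystal flip -/
theorem dead_flip (C : C6 U T z) {u : ℝ} {σ : Fin 6 → Fin 6} (inj : Function.Injective σ)
    (h : At6 U T z u σ 14) : False := by
  have h1 : ∀ k : Fin 6, (tab6 14).1 k = k ∧ (tab6 14).2.1 k = k + 4 ∧ (tab6 14).2.2.1 k = k + 1 ∧
      (tab6 14).2.2.2 k = k + 3 := by
    intro k
    fin_cases k <;> exact ⟨rfl, rfl, rfl, rfl⟩
  refine C.no_flip (u := u) (σ := fun k => σ (k + 1)) (fun a b hab => ?_) (fun k => ?_) fun k => ?_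
  · exact add_right_cancel (inj hab)
  · have := h.1 k
    rw [(h1 k).1, (h1 k).2.1] at this
    have e1 : k - 1 + 1 = k := sub_add_cancel k 1
    have e2 : ∀ k : Fin 6, k + 3 + 1 = k + 4 := by decide
    show LL U T z (u + k.val) = (σ (k - 1 + 1), σ (k + 3 + 1))
    rw [e1, e2]; exact this
  · have := h.2 k
    rw [(h1 k).2.2.1, (h1 k).2.2.2] at this
    have e2 : ∀ k : Fin 6, k + 2 + 1 = k + 3 := by decide
    show LR U T z (u + k.val) = (σ (k + 1), σ (k + 2 + 1))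
    rw [e2]; exact this

/-- **Assembly**: no six-coloured point with connected colours. -/
theorem C6.no6_of (hR : Rot6) (hS : Stable) (h2 : Dead 2) (h3 : Dead 3) (h4 : Dead 4) (h5 : Dead 5)
    (h6 : Dead 6) (h7 : Dead 7) (C : C6 U T z) (hct : Ctn U T z) : False := by
  obtain ⟨u, σ, n, inj, h⟩ := hR U T z C
  fin_cases n
  · exact hS.dead_after (n := 0) ⟨rfl, rfl⟩ C hct inj h
  · exact hS.dead_after (n := 1) ⟨rfl, rfl⟩ C hct inj h
  · exact h2 U T z C u σ inj h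
  · exact h3 U T z C u σ inj h
  · exact h4 U T z C u σ inj h
  · exact h5 U T z C u σ inj h
  · exact h6 U T z C u σ inj h
  · exact h7 U T z C u σ inj h
  · exact hS.dead_after (n := 8) ⟨rfl, rfl⟩ C hct inj h
  · exact hS.dead_before (n := 9) ⟨rfl, rfl⟩ C hct inj h
  · exact hS.dead_before (n := 10) ⟨rfl, rfl⟩ C hct inj h
  · exact hS.dead_before (n := 11) ⟨rfl, rfl⟩ C hct inj h
  · exact hS.dead_before (n := 12) ⟨rfl, rfl⟩ C hct inj h
  · exact hS.dead_before (n := 13) ⟨rfl, rfl⟩ C hct inj h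
  · exact dead_flip C inj h
  · exact hS.dead_after (n := 15) ⟨rfl, rfl⟩ C hct inj h

end Vale.Agent.P032.H892
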