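import Vale.Agent.P032.H61.SymG
import Vale.Agent.P032.S5.H483.IrrZ

/-!
# P032: the block of the pairs, frames with a given number of colours at the centre

* `CN n` : frames whose centre has exactly the colours with the numbers below `n`; `CN.rot`, `CN.mir`, `CN.col`,
  `okPT_of` (the table of the permutations),
* `CV n` : frames in `CN n` with a point of at least four colours in the direction `b` (point number 1),
* `eN_ho`, `eV_ho` : the clauses of these facts,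
* `exists_fr` : the frame at a centre with a given direction,
* `pair_of_dead` : if no frame is in `CV n`, no point with `n` colours has distance one from a point with at least four
  colours.
-/

open Set Filter Topology Metric

noncomputable section

namespace Vale.Agent.P032.BlkV

open Vale.Agent.P032.Six Vale.Agent.P032.Words Vale.Agent.P032.S5.H767
  Vale.Agent.P032.H913 Vale.Agent.P032.H357 Vale.Agent.P032.H61
open Vale.Agent.P032.H357.MK (co no co_no co_surj no_co no_lt co_inj of6 ct6 fx0 cf al al_spec Tb nbeq Cn)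
open Vale.Agent.P032.H892 (cj cj_cj)
open Vale.Agent.P032.H820.K (a0 a1 a2 a3 a4 En en_eq dec Md av lv Ho ps ng lv_ps lv_ng nbf lb lb_iff)

/-! ### classes of frames -/

/-- frames whose centre has exactly the colours with the numbers below `n` -/
structure CN (n NW TC : ℕ) (F : Fr) : Prop where
  ok : FOk (kap TC) (cxv NW TC) F
  tz : ∀ q < 6, (co F.σ q ∈ F.T F.z ↔ q < n)

/-- the point in the direction `b` has at least four colours -/
structure CV (n NW TC : ℕ) (F : Fr) : Prop where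
  cn : CN n NW TC F
  v4 : 4 ≤ (F.T (pt F.z F.b)).ncard

section
variable {n NP NW TB TC : ℕ} {tab : ℕ → ℕ → ℕ} {F : Fr}

theorem CN.rot (t : Tabs (kap TC) (Gp NP TC) (Ce NW TC) tab) (hNW : NW ≤ NP) (h : CN n NW TC F) :
    CN n NW TC (F.rot (tab 1)) :=
  ⟨h.ok.rot (fun c => t.rot _ ⟨lt_of_lt_of_le c.2.1 hNW, c.2.2⟩)
    (fun c => ⟨⟨tab 1 c.1, t.cen _ c.2 1 (by norm_num)⟩, rfl⟩), h.tz⟩

theorem CN.mir (t : Tabs (kap TC) (Gp NP TC) (Ce NW TC) tab) (hNW : NW ≤ NP) (h : CN n NW TC F) :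
    CN n NW TC (F.mir (tab 6)) := by
  refine ⟨h.ok.mir (fun c => t.mir _ ⟨lt_of_lt_of_le c.2.1 hNW, c.2.2⟩)
    (fun c => ⟨⟨tab 6 c.1, t.cen _ c.2 6 (by norm_num)⟩, rfl⟩), fun q hq => ?_⟩
  show co F.σ q ∈ F.T (cj (cj F.z)) ↔ q < n
  rw [cj_cj]
  exact h.tz q hq

theorem CN.col (h : CN n NW TC F) (π : Equiv.Perm (Fin 6)) (hπ : ∀ q < 6, (pn π q < n ↔ q < n)) :
    CN n NW TC (F.col π) := by
  refine ⟨h.ok.col π, fun q hq => ?_⟩
  show co (F.σ * π) q ∈ F.T F.z ↔ q < n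
  rw [co_pn, h.tz _ (pn_lt π q), hπ q hq]

theorem CV.mir (t : Tabs (kap TC) (Gp NP TC) (Ce NW TC) tab) (hNW : NW ≤ NP) (h : CV n NW TC F) :
    CV n NW TC (F.mir (tab 6)) := by
  refine ⟨h.cn.mir t hNW, ?_⟩
  show 4 ≤ (F.T (cj (pt (cj F.z) (-F.b)))).ncard
  rw [cj_ptx, cj_cj, neg_neg]
  exact h.v4

theorem CV.col (h : CV n NW TC F) (π : Equiv.Perm (Fin 6)) (hπ : ∀ q < 6, (pn π q < n ↔ q < n)) :
    CV n NW TC (F.col π) := ⟨h.cn.col π hπ, h.v4⟩

/-- the permutation number `i` of a table -/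
def cpt (PT i : ℕ) : ℕ := Nat.land (Nat.shiftRight PT (Nat.mul 18 i)) 262143

/-- check: all permutations of the table respect the colours below `n` -/
def okN (n PT NPM : ℕ) : Bool :=
  al (fun i => isPm (cpt PT i) && al (fun q => bif lb q n then lb (cpf (cpt PT i) q) n
    else !(lb (cpf (cpt PT i) q) n)) 6) NPM

theorem okN_spec {PT NPM : ℕ} (h : okN n PT NPM = true) {i : ℕ} (hi : i < NPM) : ∃ π : Equiv.Perm (Fin 6),
    (∀ q < 6, pn π q = cpf (cpt PT i) q) ∧ ∀ q < 6, (pn π q < n ↔ q < n) := by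
  have h1 := al_spec h i hi
  rw [Bool.and_eq_true] at h1
  obtain ⟨π, hπ⟩ := exists_pm h1.1
  refine ⟨π, hπ, fun q hq => ?_⟩
  have h2 := al_spec h1.2 q hq
  rw [hπ q hq]
  cases h3 : lb q n
  · rw [h3, cond_false, Bool.not_eq_true'] at h2
    have g1 : ¬ q < n := fun hc => by rw [lb_iff.2 hc] at h3; exact Bool.noConfusion h3
    have g2 : ¬ cpf (cpt PT i) q < n := fun hc => by rw [lb_iff.2 hc] at h2; exact Bool.noConfusion h2
    exact ⟨fun hc => absurd hc g2, fun hc => absurd hc g1⟩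
  · rw [h3, cond_true] at h2
    exact ⟨fun _ => lb_iff.1 h3, fun _ => lb_iff.1 h2⟩

theorem okPT_of {PT NPM : ℕ} (h : okN n PT NPM = true) : OkPT (CN n NW TC) PT NPM := by
  intro i hi
  obtain ⟨π, h1, h2⟩ := okN_spec h hi
  exact ⟨π, h1, fun F hF => hF.col π h2⟩

theorem okPTV_of {PT NPM : ℕ} (h : okN n PT NPM = true) : OkPT (CV n NW TC) PT NPM := by
  intro i hi
  obtain ⟨π, h1, h2⟩ := okN_spec h hi
  exact ⟨π, h1, fun F hF => hF.col π h2⟩

/-! ### clauses -/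

theorem wa_t {x q : ℕ} (hx : Gp NP TC x) (hq : q < 6) : Wa (Gp NP TC) (Ce NW TC) 4 x 0 0 q :=
  ⟨⟨Or.inr (Or.inl ⟨Or.inl rfl, rfl, rfl⟩), hx, hq, fun e => by omega⟩, fun e => by omega⟩

theorem wa_p {x q : ℕ} (hx : Gp NP TC x) (hq : q < 6) : Wa (Gp NP TC) (Ce NW TC) 5 x 0 0 q :=
  ⟨⟨Or.inr (Or.inl ⟨Or.inr (Or.inl rfl), rfl, rfl⟩), hx, hq, fun e => by omega⟩, fun e => by omega⟩

theorem wa_x {x : ℕ} (hx : Gp NP TC x) : Wa (Gp NP TC) (Ce NW TC) 6 x 0 0 0 :=
  ⟨⟨Or.inr (Or.inl ⟨Or.inr (Or.inr rfl), rfl, rfl⟩), hx, by norm_num, fun _ => rfl⟩, fun e => by omega⟩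

variable {B : Tb NP NW TB TC} {M : Md 2 NP NW (nbf 2 TB)}

theorem gp_lt (B : Tb NP NW TB TC) (x : ℕ) (hx : Gp NP TC x) : x < 4096 := lt_of_lt_of_le hx.1 B.hNP

/-- the colours of a point -/
theorem av_t (hM : Mdl B F M) {x q : ℕ} (hx : Gp NP TC x) (hq : q < 6) :
    av M (En 4 x 0 0 q) ↔ co F.σ q ∈ F.T (F.P (kap TC) x) := by
  have hw := wa_t (NW := NW) hx hq
  rw [hM.av (wn_of (gp_lt B) hw), tv_en (gp_lt B) hw]
  unfold tva
  norm_num

theorem av_p (hM : Mdl B F M) {x q : ℕ} (hx : Gp NP TC x) (hq : q < 6) :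
    av M (En 5 x 0 0 q) ↔ co F.σ q ∈ Pal F.U (F.P (kap TC) x) := by
  have hw := wa_p (NW := NW) hx hq
  rw [hM.av (wn_of (gp_lt B) hw), tv_en (gp_lt B) hw]
  unfold tva
  norm_num

theorem av_x (hM : Mdl B F M) {x : ℕ} (hx : Gp NP TC x) :
    av M (En 6 x 0 0 0) ↔ F.P (kap TC) x ∈ XX F.U := by
  have hw := wa_x (NW := NW) hx
  rw [hM.av (wn_of (gp_lt B) hw), tv_en (gp_lt B) hw]
  unfold tva
  norm_num

theorem P_zero (h0 : kap TC 0 = (0, 0)) : F.P (kap TC) 0 = F.z := by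
  unfold Fr.P hp
  rw [h0]
  simp

theorem P_one (h1 : kap TC 1 = (1, 0)) : F.P (kap TC) 1 = pt F.z F.b := by
  unfold Fr.P hp
  rw [h1, pt_eq]
  push_cast
  ring

/-- the colours of the centre -/
def eN (n : ℕ) : List (List ℕ) :=
  [[bif lb 0 n then ps (En 4 0 0 0 0) else ng (En 4 0 0 0 0)], [bif lb 1 n then ps (En 4 0 0 0 1) else ng (En 4 0 0 0 1)],
    [bif lb 2 n then ps (En 4 0 0 0 2) else ng (En 4 0 0 0 2)], [bif lb 3 n then ps (En 4 0 0 0 3) else ng (En 4 0 0 0 3)],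
    [bif lb 4 n then ps (En 4 0 0 0 4) else ng (En 4 0 0 0 4)], [bif lb 5 n then ps (En 4 0 0 0 5) else ng (En 4 0 0 0 5)],
    [ps (En 6 0 0 0 0)]]

theorem CN.card (h : CN n NW TC F) (hn : n ≤ 6) : (F.T F.z).ncard = n := by
  have e : F.T F.z = (fun q : Fin n => co F.σ q.val) '' univ := by
    ext i
    constructor
    · intro hi
      obtain ⟨q, hq, rfl⟩ := co_surj F.σ i
      exact ⟨⟨q, (h.tz q hq).1 hi⟩, mem_univ _, rfl⟩
    · rintro ⟨q, -, rfl⟩
      exact (h.tz q.val (by omega)).2 q.isLt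
  rw [e, Set.ncard_image_of_injective _ fun p q hpq => Fin.ext (co_inj F.σ (by omega) (by omega) hpq),
    Set.ncard_univ, Nat.card_eq_fintype_card, Fintype.card_fin]

theorem CN.xz (h : CN n NW TC F) (h4 : 4 ≤ n) (hn : n ≤ 6) : F.z ∈ XX F.U :=
  h.ok.irr.XX_of_four (by rw [h.card hn]; exact h4)

/-- **the clauses of the centre** -/
theorem eN_ho (h0 : kap TC 0 = (0, 0)) (hg : Gp NP TC 0) (h4 : 4 ≤ n) (hn : n ≤ 6) (hF : CN n NW TC F)
    (hM : Mdl B F M) : ∀ c ∈ eN n, Ho M c := by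
  have key : ∀ q < 6, Ho M [bif lb q n then ps (En 4 0 0 0 q) else ng (En 4 0 0 0 q)] := by
    intro q hq
    refine ⟨_, List.mem_singleton_self _, ?_⟩
    have h1 := av_t hM hg hq
    rw [P_zero h0, hF.tz q hq] at h1
    cases h2 : lb q n
    · rw [cond_false, lv_ng, h1]
      intro hc
      rw [lb_iff.2 hc] at h2
      exact Bool.noConfusion h2
    · rw [cond_true, lv_ps, h1]
      exact lb_iff.1 h2
  intro c hc
  unfold eN at hc
  simp only [List.mem_cons, List.not_mem_nil, or_false] at hc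
  rcases hc with rfl | rfl | rfl | rfl | rfl | rfl | rfl
  · exact key 0 (by norm_num)
  · exact key 1 (by norm_num)
  · exact key 2 (by norm_num)
  · exact key 3 (by norm_num)
  · exact key 4 (by norm_num)
  · exact key 5 (by norm_num)
  · refine ⟨_, List.mem_singleton_self _, ?_⟩
    rw [lv_ps, av_x hM hg, P_zero h0]
    exact hF.xz h4 hn

/-- the triples of colours -/
def tri : List (ℕ × ℕ × ℕ) :=
  [(0, 1, 2), (0, 1, 3), (0, 1, 4), (0, 1, 5), (0, 2, 3), (0, 2, 4), (0, 2, 5), (0, 3, 4), (0, 3, 5), (0, 4, 5),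
    (1, 2, 3), (1, 2, 4), (1, 2, 5), (1, 3, 4), (1, 3, 5), (1, 4, 5), (2, 3, 4), (2, 3, 5), (2, 4, 5), (3, 4, 5)]

/-- the point number 1 has at least four colours -/
def eV : List (List ℕ) :=
  tri.map (fun t => [ps (En 4 1 0 0 t.1), ps (En 4 1 0 0 t.2.1), ps (En 4 1 0 0 t.2.2)]) ++ [[ps (En 6 1 0 0 0)]]

theorem tri_spec : ∀ t ∈ tri, t.1 < t.2.1 ∧ t.2.1 < t.2.2 ∧ t.2.2 < 6 := by decide

theorem tri_T {S : Set (Fin 6)} (h : 4 ≤ S.ncard) (σ : Equiv.Perm (Fin 6)) {p q r : ℕ} (hpq : p < q) (hqr : q < r)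
    (hr : r < 6) : co σ p ∈ S ∨ co σ q ∈ S ∨ co σ r ∈ S := by
  by_contra hc
  push Not at hc
  have h1 : ({co σ p, co σ q, co σ r} : Set (Fin 6)) ⊆ Sᶜ := by
    rintro i (rfl | rfl | rfl)
    · exact hc.1
    · exact hc.2.1
    · exact hc.2.2
  have h2 := Set.ncard_le_ncard h1 (Set.toFinite _)
  have h3 : ({co σ p, co σ q, co σ r} : Set (Fin 6)).ncard = 3 := by
    rw [Set.ncard_eq_three]
    refine ⟨_, _, _, fun e => ?_, fun e => ?_, fun e => ?_, rfl⟩
    · have := co_inj σ (by omega) (by omega) e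
      omega
    · have := co_inj σ (by omega) (by omega) e
      omega
    · have := co_inj σ (by omega) (by omega) e
      omega
  have h4 : S.ncard + Sᶜ.ncard = 6 := by
    rw [Set.ncard_add_ncard_compl, Nat.card_eq_fintype_card, Fintype.card_fin]
  omega

/-- **the clauses of the four-coloured point** -/
theorem eV_ho (h1 : kap TC 1 = (1, 0)) (hg : Gp NP TC 1) (hF : CV n NW TC F) (hM : Mdl B F M) :
    ∀ c ∈ eV, Ho M c := by
  intro c hc
  unfold eV at hc
  rcases List.mem_append.1 hc with hc | hc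
  · obtain ⟨t, ht, rfl⟩ := List.mem_map.1 hc
    obtain ⟨g1, g2, g3⟩ := tri_spec t ht
    rcases tri_T hF.v4 F.σ g1 g2 g3 with h2 | h2 | h2
    · refine ⟨_, List.mem_cons_self .., ?_⟩
      rw [lv_ps, av_t hM hg (by omega), P_one h1]
      exact h2
    · refine ⟨_, List.mem_cons_of_mem _ (List.mem_cons_self ..), ?_⟩
      rw [lv_ps, av_t hM hg (by omega), P_one h1]
      exact h2
    · refine ⟨_, List.mem_cons_of_mem _ (List.mem_cons_of_mem _ (List.mem_cons_self ..)), ?_⟩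
      rw [lv_ps, av_t hM hg g3, P_one h1]
      exact h2
  · rw [List.mem_singleton.1 hc]
    refine ⟨_, List.mem_singleton_self _, ?_⟩
    rw [lv_ps, av_x hM hg, P_one h1]
    exact hF.cn.ok.irr.XX_of_four hF.v4

end

/-! ### existence -/

theorem exists_pt {z y : ℂ} (hy : dist y z = 1) : ∃ u, pt z u = y := by
  obtain ⟨t, ht⟩ := exists_cis (u := y - z) (by rw [← dist_eq_norm]; exact hy)
  refine ⟨t / (Real.pi / 3), ?_⟩
  unfold pt
  rw [div_mul_cancel₀ _ (by positivity), ← ht]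
  ring

/-- numbers of the colours of a set -/
theorem exists_num (S : Set (Fin 6)) : ∃ σ : Equiv.Perm (Fin 6), ∀ q < 6, (co σ q ∈ S ↔ q < S.ncard) := by
  classical
  have hc : Fintype.card {q : Fin 6 // q.val < S.ncard} = Fintype.card {i : Fin 6 // i ∈ S} := by
    have h1 : S.ncard ≤ 6 := by
      have := Set.ncard_le_ncard (subset_univ S) (Set.toFinite _)
      rw [Set.ncard_univ, Nat.card_eq_fintype_card, Fintype.card_fin] at this
      exact this
    have h2 : Fintype.card {i : Fin 6 // i ∈ S} = S.ncard := by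
      rw [← Nat.card_eq_fintype_card]
      rfl
    rw [h2, Fintype.card_subtype]
    have h3 : ∀ m ≤ 6, (Finset.univ.filter fun q : Fin 6 => q.val < m).card = m := by decide
    exact h3 _ h1
  obtain ⟨e⟩ := Fintype.card_eq.1 hc
  refine ⟨e.extendSubtype, fun q hq => ?_⟩
  unfold co
  have h1 : (Fin.ofNat 6 q).val = q := Nat.mod_eq_of_lt hq
  constructor
  · intro h2
    by_contra h3
    refine e.extendSubtype_not_mem (Fin.ofNat 6 q) ?_ h2
    rw [h1]
    exact h3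
  · intro h2
    refine e.extendSubtype_mem (Fin.ofNat 6 q) ?_
    rw [h1]
    exact h2

/-- **the frame of a centre and a direction** -/
theorem exists_fr {NW TC : ℕ} {U : Fin 6 → Set ℂ} {T : ℂ → Set (Fin 6)} (h : Irr U T)
    (hl : LF3 U T) (hc : ∀ y, Ctn U T y) (hn : Ln U T) (h5 : ∀ y, (T y).ncard ≤ 5) (z : ℂ) (b : ℝ)
    (σ : Equiv.Perm (Fin 6)) :
    ∃ F : Fr, FOk (kap TC) (cxv NW TC) F ∧ F.U = U ∧ F.T = T ∧ F.z = z ∧ F.b = b ∧ F.σ = σ := by
  classical
  obtain ⟨s, hs⟩ := rst_ne h hl (ct6 fun c : Cn NW TC => hp z b (kap TC c.1)) of6 b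
  obtain ⟨s', hs'⟩ := lst_ne h hl (ct6 fun c : Cn NW TC => hp z b (kap TC c.1)) of6 (b + 1)
  let ex : (Cn NW TC × Fin 6 → Fin 6 × Fin 6) → ℕ × Fin 6 → Fin 6 × Fin 6 := fun s i =>
    if hx : i.1 < NW ∧ fx0 TC i.1 = true then s (⟨i.1, hx⟩, i.2) else (0, 0)
  have hex : ∀ s, rS (cxv NW TC) (ex s) = s := by
    intro s
    funext i
    obtain ⟨⟨x, hx⟩, m⟩ := i
    show (if hx : x < NW ∧ fx0 TC x = true then s (⟨x, hx⟩, m) else (0, 0)) = s (⟨x, hx⟩, m)
    rw [dif_pos hx]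
  refine ⟨⟨U, T, z, b, σ, ex s, ex s'⟩, ⟨h, hc, hl, fun y => ?_, hn, ?_, ?_⟩, rfl, rfl, rfl, rfl, rfl⟩
  · by_contra hcon
    push Not at hcon
    have h1 : T y = univ := Set.eq_univ_of_forall hcon
    have h2 := h5 y
    rw [h1, Set.ncard_univ, Nat.card_eq_fintype_card, Fintype.card_fin] at h2
    omega
  · show rS (cxv NW TC) (ex s) ∈ _
    rw [hex]
    exact hs
  · show rS (cxv NW TC) (ex s') ∈ _
    rw [hex]
    exact hs'

/-- **the pairs**: a point with `n` colours has no point with at least four colours at distance one -/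
theorem pair_of_dead {n NW TC : ℕ} (hD : Dead (kap TC) (CV n NW TC) [])
    {U : Fin 6 → Set ℂ} {T : ℂ → Set (Fin 6)} (h : Irr U T) (hl : LF3 U T) (hc : ∀ y, Ctn U T y) (hn : Ln U T)
    (h5 : ∀ y, (T y).ncard ≤ 5) {z v : ℂ} (hzv : dist v z = 1) (hz : (T z).ncard = n) : (T v).ncard ≤ 3 := by
  by_contra h4
  push Not at h4
  obtain ⟨b, hb⟩ := exists_pt hzv
  obtain ⟨σ, hσ⟩ := exists_num (T z)
  obtain ⟨F, hF, e1, e2, e3, e4, e5⟩ := exists_fr (NW := NW) (TC := TC) h hl hc hn h5 z b σ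
  refine hD F ⟨⟨hF, fun q hq => ?_⟩, ?_⟩ fun l hl => absurd hl List.not_mem_nil
  · rw [e2, e3, e5, hσ q hq, hz]
  · rw [e2, e3, e4, hb]
    exact h4

end Vale.Agent.P032.BlkV
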