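import Vale.Agent.P032.H892.Events
import Vale.Agent.P032.H892.Tab2

/-!
# P032: the number of ends of a word with special points

`WordW.budget` : if the changes of positive cost and the exchanges are covered by a set `E` of at most `b` points of the
circle there is no word (tables `T`, `D`).  `WordW.L1w`, `WordW.L2w` : the two facts.
-/

open Set Filter Topology

namespace Vale.Agent.P032.H892

open Vale.Agent.P032.Words

theorem ps_inj {t : Fin 6} {i j : ℕ} (hi : i < 6) (hj : j < 6) (h : ps t i = ps t j) : i = j := by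
  have h1 := congrArg Fin.val h
  unfold ps at h1
  have h2 : (t.val + i) % 6 = (t.val + j) % 6 := h1
  have := t.isLt
  omega

theorem mem_blk {t : Fin 6} {n : ℕ} {k : Fin 6} : k ∈ blk t n ↔ ∃ i, i ≤ n ∧ ps t i = k := by
  unfold blk
  rw [Finset.mem_image]
  constructor
  · rintro ⟨i, hi, rfl⟩
    exact ⟨i, by rw [Finset.mem_range] at hi; omega, rfl⟩
  · rintro ⟨i, hi, rfl⟩
    exact ⟨i, by rw [Finset.mem_range]; omega, rfl⟩

theorem mix_single {h h' : Hx} {A : Finset (Fin 6)} {k : Fin 6} :
    mix h h' (A ∪ {k}) = Function.update (mix h h' A) k (h' k) := by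
  funext j
  by_cases hj : j = k
  · subst hj
    simp [mix]
  · rw [Function.update_of_ne hj]
    simp only [mix, Finset.mem_union, Finset.mem_singleton, hj, or_false]

/-- partial exchange of a block -/
theorem code_exN {g g' : Hx} {t : Fin 6} {l m : Fin 4} : ∀ n : ℕ, n < 6 → (∀ i ≤ n,
    (g (ps t i) = l ∧ g' (ps t i) = m) ∨ (g (ps t i) = m ∧ g' (ps t i) = l)) →
    code (mix g g' (blk t n)) = exN (l.val + m.val) (code g) t.val n
  | 0, _, h => by
    have h0 := h 0 le_rfl
    have e0 : ps t 0 = t := ps_zero t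
    rw [e0] at h0
    have eb : blk t 0 = ∅ ∪ {t} := by
      ext k; rw [mem_blk]; simp [ps_zero, eq_comm]
    rw [eb, mix_single, mix_empty, code_update]
    unfold exN
    rw [Nat.mod_eq_of_lt t.isLt, dg_code]
    congr 1
    rcases h0 with ⟨a, b⟩ | ⟨a, b⟩ <;> rw [a, b] <;> omega
  | n + 1, hn, h => by
    have ih := code_exN (g := g) (g' := g') (t := t) (l := l) (m := m) n (by omega)
      (fun i hi => h i (by omega))
    have h0 := h (n + 1) le_rfl
    have eb : blk t (n + 1) = blk t n ∪ {ps t (n + 1)} := by
      ext k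
      rw [Finset.mem_union, mem_blk, mem_blk, Finset.mem_singleton]
      constructor
      · rintro ⟨i, hi, rfl⟩
        rcases Nat.lt_or_ge i (n + 1) with h1 | h1
        · exact Or.inl ⟨i, by omega, rfl⟩
        · exact Or.inr (by rw [show i = n + 1 by omega])
      · rintro (⟨i, hi, rfl⟩ | rfl)
        · exact ⟨i, by omega, rfl⟩
        · exact ⟨n + 1, le_rfl, rfl⟩
    rw [eb, mix_single, code_update, ih]
    have ev : (ps t (n + 1)).val = (t.val + n + 1) % 6 := rfl
    have := dg_code g (ps t (n + 1))
    rw [ev] at this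
    show upd _ (ps t (n + 1)).val _ = upd _ ((t.val + n + 1) % 6)
      (l.val + m.val - dg (code g) ((t.val + n + 1) % 6))
    rw [ev, this]
    congr 1
    rcases h0 with ⟨a, b⟩ | ⟨a, b⟩ <;> rw [a, b] <;> omega

theorem popc_msk (p : Fin 6 → Bool) : popc (msk p) = (Finset.univ.filter fun k => p k = true).card := by
  have key : ∀ a b c d e f : Bool, popc (msk ![a, b, c, d, e, f]) =
      (Finset.univ.filter fun k => (![a, b, c, d, e, f] : Fin 6 → Bool) k = true).card := by decide
  have e : p = ![p 0, p 1, p 2, p 3, p 4, p 5] := by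
    funext j; fin_cases j <;> rfl
  rw [e]
  exact key _ _ _ _ _ _

namespace WordW

variable {X : Fin 4 → Set ℝ}

/-- **The budget theorem.** -/
theorem budget (w : WordW X) {T D : ℕ} {cost : ℕ → ℕ → ℕ} {exc : ℕ → Bool} {b : ℕ}
    (hs : chkSingle T D cost = true) (hb : chkBlock T D cost = true) (hl : chkLoop T D b = true)
    (hr : chkRot cost exc b = true)
    (hT : ∀ n, cN T n < 32) (hc : ∀ x y, cost x y ≤ 1) (E : Finset ℝ) (hE : E.card ≤ b)
    (hN : ∀ v, ∀ x y : Fin 4, v ∈ X x → v ∈ X y → cost x.val y.val ≠ 0 →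
      ∃ e ∈ E, ∃ n : ℤ, v = e + 6 * n)
    (hS : ∀ v, ∀ x y : Fin 4, x ≠ y → cost x.val y.val = 0 → v ∈ X x → v ∈ X y → v + 1 ∈ X x →
      v + 1 ∈ X y → ∃ e ∈ E, ∃ n : ℤ, v = e + 6 * n ∨ v + 1 = e + 6 * n)
    (hX : ∀ u, ∀ g : Hx, Prp g → (∀ k, u + (k.val : ℝ) ∈ X (g k)) →
      (∀ k, u + (k.val : ℝ) ∈ X (g (k + 1))) → exc (code g) = true → False) : False := by
  classical
  obtain ⟨u0, h0, hp, hgen⟩ := w.exists_base E
  have hτ : ∀ i : E, u0 < tau u0 i.1 ∧ tau u0 i.1 < u0 + 1 := fun i => tau_mem (hgen i.1 i.2)
  have hleg0 : Leg4 h0 := w.leg u0 (fun k => w.occ_mem (hp.occL) nhdsWithin_le_nhds k) (w.pure_prp hp)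
  set c0 := cN T (code h0) with hc0
  have key := w.events (ι := E) hp (τ := fun i => tau u0 i.1) (κ := fun i => kap u0 i.1) hτ
    (I := fun h s => dN D c0 (cN T (code h)) ≤ s.card) ?_ ?_ ?_
  · have hle : dN D c0 (cN T (code (rot h0))) ≤ E.card := by
      have : (Finset.univ : Finset E).card = E.card := by simp
      rw [← this]; exact key
    have a := all_range hl (code_lt h0)
    rw [legN_code hleg0, Bool.not_true, Bool.false_or, Bool.and_eq_true, Bool.not_eq_true',
      ← code_rot] at a
    have := a.1
    rw [← Bool.not_eq_true, Nat.ble_eq] at this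
    exact this (hle.trans hE)
  · have a := all_range hl (code_lt h0)
    rw [legN_code hleg0, Bool.not_true, Bool.false_or, Bool.and_eq_true, beq_iff_eq] at a
    show dN D c0 (cN T (code h0)) ≤ (∅ : Finset E).card
    rw [← hc0] at a
    rw [← hc0, a.2]; exact Nat.zero_le _
  · intro u hu h h' hh hh' A B hAB hBne hA hB hl1 hl2 hst hI
    have m1 : ∀ k, palT X u k (h k) := w.occ_mem hh nhdsWithin_le_nhds
    have m2 : ∀ k, palT X u k (h' k) := w.occ_mem hh' nhdsWithin_le_nhds
    set pa := past (fun i : E => tau u0 i.1) (fun i => kap u0 i.1) u with hpa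
    have hmono : (pa A).card ≤ (pa (A ∪ B)).card :=
      Finset.card_le_card (past_mono Finset.subset_union_left)
    have hcc0 : c0 < 32 := hT _
    -- the position of a point of `E`
    have atpos : ∀ (k : Fin 6) (e : ℝ) (z : ℤ), (u + (k.val : ℝ) = e + 6 * z ∨
        u + (k.val : ℝ) + 1 = e + 6 * z) → tau u0 e = u ∧ (kap u0 e = k ∨ kap u0 e = k + 1) := by
      rintro k e z (hem | hem)
      · obtain ⟨e1, e2⟩ := tau_kap hu hem
        exact ⟨e1, Or.inl e2⟩
      · by_cases h5 : k = 5
        · have : u + (((k + 1 : Fin 6)).val : ℝ) = e + 6 * ((z - 1 : ℤ) : ℝ) := by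
            rw [h5] at hem ⊢
            have v1 : ((5 : Fin 6) + 1).val = 0 := rfl
            have v2 : (5 : Fin 6).val = 5 := rfl
            rw [v1]; rw [v2] at hem
            push_cast at hem ⊢
            linarith
          obtain ⟨e1, e2⟩ := tau_kap hu this
          exact ⟨e1, Or.inr e2⟩
        · have v1 : (k + 1).val = k.val + 1 := by
            have : k.val ≠ 5 := fun h => h5 (Fin.ext h)
            have h6 := k.isLt
            rw [Fin.val_add_one_of_lt]
            rw [Fin.lt_def]
            show k.val < 5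
            omega
          have : u + (((k + 1 : Fin 6)).val : ℝ) = e + 6 * (z : ℝ) := by
            rw [v1]; push_cast; linarith
          obtain ⟨e1, e2⟩ := tau_kap hu this
          exact ⟨e1, Or.inr e2⟩
    rcases hst with ⟨k, rfl⟩ | ⟨t, n, l0, m0, n1, n6, hlm0, rfl, hlow0⟩ | ⟨rfl, hrot⟩
    · -- a single change
      have kA : k ∉ A := Finset.disjoint_singleton_right.1 hAB
      have gk : mix h h' A k = h k := by simp [mix, kA]
      rw [mix_single] at hl2 ⊢
      have a := all_range hs (code_lt (mix h h' A))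
      rw [legN_code hl1, Bool.not_true, Bool.false_or] at a
      have a2 := all_range (all_range a k.isLt) (h' k).isLt
      rw [← code_update, legN_code hl2, Bool.not_true, Bool.false_or] at a2
      have a3 := all_range a2 hcc0
      rw [Nat.ble_eq, dg_code, gk] at a3
      refine a3.trans ?_
      by_cases hz : cost (h k).val (h' k).val = 0
      · rw [hz, add_zero]; exact hI.trans hmono
      · obtain ⟨e, he, m, hem⟩ := hN _ _ _ (m1 k) (m2 k) hz
        obtain ⟨e1, e2⟩ := tau_kap hu hem
        have hin : (⟨e, he⟩ : E) ∈ pa (A ∪ {k}) := by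
          rw [hpa, mem_past]
          exact Or.inr ⟨e1, by rw [e2]; simp⟩
        have hout : (⟨e, he⟩ : E) ∉ pa A := by
          rw [hpa, mem_past]
          rintro (h3 | ⟨-, h3⟩)
          · rw [e1] at h3; exact lt_irrefl _ h3
          · rw [e2] at h3; exact kA h3
        have hlt : (pa A).card < (pa (A ∪ {k})).card := by
          apply Finset.card_lt_card
          rw [Finset.ssubset_iff_of_subset (past_mono Finset.subset_union_left)]
          exact ⟨_, hin, hout⟩
        have := hc (h k).val (h' k).val
        have hI' : dN D c0 (cN T (code (mix h h' A))) ≤ (pa A).card := hI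
        omega
    · -- a block
      have gB : ∀ k ∈ blk t n, mix h h' A k = h k := by
        intro k hk
        have : k ∉ A := Finset.disjoint_right.1 hAB hk
        simp [mix, this]
      have hmm : mix h h' (A ∪ blk t n) = mix (mix h h' A) h' (blk t n) := by
        funext j
        by_cases hj : j ∈ blk t n
        · simp [mix, hj]
        · simp [mix, hj]
      -- the letters at `t`, `t + 1`
      have t0B : t ∈ blk t n := mem_blk.2 ⟨0, by omega, ps_zero t⟩
      have t1B : t + 1 ∈ blk t n := mem_blk.2 ⟨1, by omega, by rw [ps_succ, ps_zero]⟩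
      obtain ⟨l, m, hl0, hm0, hlm, hlow⟩ : ∃ l m : Fin 4, h t = l ∧ h (t + 1) = m ∧ l ≠ m ∧
          ∀ k ∈ blk t n, (h k = l ∧ h' k = m) ∨ (h k = m ∧ h' k = l) := by
        have hne : h t ≠ h (t + 1) := by
          have := hl1.1 t
          rwa [gB _ t0B, gB _ t1B] at this
        rcases hlow0 _ t0B with ⟨p1, -⟩ | ⟨p1, -⟩ <;> rcases hlow0 _ t1B with ⟨p2, -⟩ | ⟨p2, -⟩
        · exact absurd (p1.trans p2.symm) hne
        · exact ⟨l0, m0, p1, p2, hlm0, hlow0⟩
        · exact ⟨m0, l0, p1, p2, hlm0.symm, fun k hk => (hlow0 k hk).symm⟩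
        · exact absurd (p1.trans p2.symm) hne
      have hcd : code (mix h h' (A ∪ blk t n)) =
          exN (l.val + m.val) (code (mix h h' A)) t.val n := by
        rw [hmm]
        refine code_exN n n6 fun i hi => ?_
        have hin : ps t i ∈ blk t n := mem_blk.2 ⟨i, hi, rfl⟩
        rw [gB _ hin]
        exact hlow _ hin
      have a := all_range hb (code_lt (mix h h' A))
      rw [legN_code hl1, Bool.not_true, Bool.false_or] at a
      have a2 := all_range (all_range a t.isLt) n6
      have dg0 : dg (code (mix h h' A)) (t.val % 6) = l.val := by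
        rw [Nat.mod_eq_of_lt t.isLt, dg_code, gB _ t0B, hl0]
      have dg1 : dg (code (mix h h' A)) ((t.val + 1) % 6) = m.val := by
        have := dg_code (mix h h' A) (t + 1)
        have ev : (t + 1).val = (t.val + 1) % 6 := Fin.val_add t 1
        rw [ev] at this
        rw [this, gB _ t1B, hm0]
      have hlw : lowN (code (mix h h' A)) t.val n = true := by
        unfold lowN
        rw [List.all_eq_true]
        intro i hi
        rw [List.mem_range] at hi
        have hin : ps t i ∈ blk t n := mem_blk.2 ⟨i, by omega, rfl⟩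
        have := dg_code (mix h h' A) (ps t i)
        have ev : (ps t i).val = (t.val + i) % 6 := rfl
        rw [ev] at this
        rw [this, gB _ hin, dg0, dg1]
        rcases hlow _ hin with ⟨p, -⟩ | ⟨p, -⟩ <;> rw [p] <;> simp
      have hn0 : (n == 0) = false := by rw [beq_eq_false_iff_ne]; omega
      unfold chkBlock1 at a2
      rw [dg0, dg1, hlw, ← hcd, legN_code hl2, hn0] at a2
      simp only [Bool.not_true, Bool.false_or] at a2
      have a3 := all_range a2 hcc0
      rw [Nat.ble_eq] at a3
      refine a3.trans ?_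
      have both : ∀ k ∈ blk t n, u + (k.val : ℝ) ∈ X l ∧ u + (k.val : ℝ) ∈ X m := by
        intro k hk
        have p1 := m1 k
        have p2 := m2 k
        rcases hlow k hk with ⟨q1, q2⟩ | ⟨q1, q2⟩
        · rw [q1] at p1; rw [q2] at p2
          exact ⟨p1, p2⟩
        · rw [q1] at p1; rw [q2] at p2
          exact ⟨p2, p1⟩
      have hI' : dN D c0 (cN T (code (mix h h' A))) ≤ (pa A).card := hI
      unfold cblk
      by_cases hz : cost l.val m.val = 0
      swap
      · -- every position is an event
        rw [if_neg (by simpa using hz)]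
        have hev : ∀ j : Fin (n + 1), ∃ i : E, i ∈ pa (A ∪ blk t n) ∧ i ∉ pa A ∧
            kap u0 i.1 = ps t j.val := by
          intro j
          have hj := j.isLt
          have in0 : ps t j.val ∈ blk t n := mem_blk.2 ⟨_, by omega, rfl⟩
          obtain ⟨b1, b2⟩ := both _ in0
          obtain ⟨e, he, z, hem⟩ := hN _ _ _ b1 b2 hz
          obtain ⟨e1, e2⟩ := tau_kap hu hem
          refine ⟨⟨e, he⟩, ?_, ?_, e2⟩
          · rw [hpa, mem_past]
            exact Or.inr ⟨e1, Finset.mem_union_right _ (by rw [e2]; exact in0)⟩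
          · rw [hpa, mem_past]
            rintro (h3 | ⟨-, h3⟩)
            · have h4 : tau u0 e < u := h3
              rw [e1] at h4; exact lt_irrefl _ h4
            · exact Finset.disjoint_right.1 hAB (by rw [e2]; exact in0) h3
        choose f f1 f2 f3 using hev
        have finj : Function.Injective f := by
          intro j j' hjj
          have g1 := f3 j
          have g2 := f3 j'
          rw [hjj] at g1
          have hj := j.isLt
          have hj' := j'.isLt
          exact Fin.ext (ps_inj (by omega) (by omega) (g1.symm.trans g2))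
        have hcard : (pa A).card + (n + 1) ≤ (pa (A ∪ blk t n)).card := by
          have hsub : pa A ∪ Finset.univ.image f ⊆ pa (A ∪ blk t n) := by
            intro i hi
            rcases Finset.mem_union.1 hi with h3 | h3
            · exact past_mono Finset.subset_union_left h3
            · obtain ⟨j, -, rfl⟩ := Finset.mem_image.1 h3
              exact f1 j
          have hdis : Disjoint (pa A) (Finset.univ.image f) := by
            rw [Finset.disjoint_right]
            intro i hi
            obtain ⟨j, -, rfl⟩ := Finset.mem_image.1 hi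
            exact f2 j
          have := Finset.card_le_card hsub
          rw [Finset.card_union_of_disjoint hdis, Finset.card_image_of_injective _ finj,
            Finset.card_univ, Fintype.card_fin] at this
          exact this
        omega
      rw [if_pos (by simpa using hz)]
      -- the pairs of neighbours
      have hpair : ∀ j : Fin ((n + 1) / 2), ∃ i : E, i ∈ pa (A ∪ blk t n) ∧ i ∉ pa A ∧
          (kap u0 i.1 = ps t (2 * j.val) ∨ kap u0 i.1 = ps t (2 * j.val + 1)) := by
        intro j
        have hj := j.isLt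
        have hj1 : 2 * j.val + 1 ≤ n := by omega
        have in0 : ps t (2 * j.val) ∈ blk t n := mem_blk.2 ⟨_, by omega, rfl⟩
        have in1 : ps t (2 * j.val + 1) ∈ blk t n := mem_blk.2 ⟨_, hj1, rfl⟩
        have b0 := both _ in0
        have b1 := both _ in1
        rw [ps_succ] at b1
        obtain ⟨e, he, z, hem⟩ := hS (u + ((ps t (2 * j.val)).val : ℝ)) l m hlm hz b0.1 b0.2
          ((w.mem_add u _ l).1 b1.1) ((w.mem_add u _ m).1 b1.2)
        -- the position of `e`
        have hpos : tau u0 e = u ∧ (kap u0 e = ps t (2 * j.val) ∨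
            kap u0 e = ps t (2 * j.val + 1)) := by
          rw [ps_succ]; exact atpos _ e z hem
        have kin : kap u0 e ∈ blk t n := by
          rcases hpos.2 with h3 | h3
          · rw [h3]; exact in0
          · rw [h3]; exact in1
        refine ⟨⟨e, he⟩, ?_, ?_, hpos.2⟩
        · rw [hpa, mem_past]
          exact Or.inr ⟨hpos.1, Finset.mem_union_right _ kin⟩
        · rw [hpa, mem_past]
          rintro (h3 | ⟨-, h3⟩)
          · have h4 : tau u0 e < u := h3
            rw [hpos.1] at h4; exact lt_irrefl _ h4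
          · exact Finset.disjoint_right.1 hAB kin h3
      choose f f1 f2 f3 using hpair
      have finj : Function.Injective f := by
        intro j j' hjj
        have g1 := f3 j
        have g2 := f3 j'
        rw [hjj] at g1
        have hj := j.isLt
        have hj' := j'.isLt
        apply Fin.ext
        rcases g1 with g1 | g1 <;> rcases g2 with g2 | g2 <;>
          have := ps_inj (by omega) (by omega) (g1.symm.trans g2) <;> omega
      have hcard : (pa A).card + (n + 1) / 2 ≤ (pa (A ∪ blk t n)).card := by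
        have hsub : pa A ∪ Finset.univ.image f ⊆ pa (A ∪ blk t n) := by
          intro i hi
          rcases Finset.mem_union.1 hi with h3 | h3
          · exact past_mono Finset.subset_union_left h3
          · obtain ⟨j, -, rfl⟩ := Finset.mem_image.1 h3
            exact f1 j
        have hdis : Disjoint (pa A) (Finset.univ.image f) := by
          rw [Finset.disjoint_right]
          intro i hi
          obtain ⟨j, -, rfl⟩ := Finset.mem_image.1 hi
          exact f2 j
        have := Finset.card_le_card hsub
        rw [Finset.card_union_of_disjoint hdis, Finset.card_image_of_injective _ finj,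
          Finset.card_univ, Fintype.card_fin] at this
        exact this
      omega
    · -- a rotation
      exfalso
      have hA0 : A = ∅ := by
        rw [Finset.eq_empty_iff_forall_notMem]
        exact fun k hk => Finset.disjoint_left.1 hAB hk (Finset.mem_univ k)
      rw [hA0, mix_empty] at hl1
      rw [mix_eq (fun k _ => Finset.mem_union_right _ (Finset.mem_univ k))] at hl2
      obtain ⟨g, gl, g1, g2⟩ : ∃ g : Hx, Leg4 g ∧ (∀ k, u + (k.val : ℝ) ∈ X (g k)) ∧
          ∀ k, u + (k.val : ℝ) ∈ X (g (k + 1)) := by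
        rcases hrot with h3 | h3
        · exact ⟨h, hl1, m1, fun k => by rw [← h3 k]; exact m2 k⟩
        · exact ⟨h', hl2, m2, fun k => by rw [← h3 k]; exact m1 k⟩
      set M := msk (fun k => decide (∃ e ∈ E, tau u0 e = u ∧ kap u0 e = k)) with hM
      have hMb : ∀ k : Fin 6, M.testBit k.val = true ↔ ∃ e ∈ E, tau u0 e = u ∧ kap u0 e = k := by
        intro k
        rw [hM, msk_bit, decide_eq_true_eq]
      have hpop : popc M ≤ b := by
        rw [hM, popc_msk]
        refine le_trans ?_ hE
        have hsub : (Finset.univ.filter fun k : Fin 6 =>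
            decide (∃ e ∈ E, tau u0 e = u ∧ kap u0 e = k) = true) ⊆ E.image (kap u0) := by
          intro k hk
          rw [Finset.mem_filter, decide_eq_true_eq] at hk
          obtain ⟨-, e, he, -, e2⟩ := hk
          exact Finset.mem_image.2 ⟨e, he, e2⟩
        exact (Finset.card_le_card hsub).trans Finset.card_image_le
      have a := all_range hr (code_lt g)
      rw [legN_code gl, Bool.not_true, Bool.false_or, Bool.or_eq_true] at a
      rcases a with a | a
      · exact hX u g gl.1 g1 g2 a
      have a2 := all_range a (msk_lt _ : M < 64)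
      rw [Bool.or_eq_true] at a2
      rcases a2 with a2 | a2
      · rw [Nat.blt_eq] at a2
        exact absurd (lt_of_lt_of_le a2 hpop) (lt_irrefl _)
      unfold rot1 at a2
      rw [List.any_eq_true] at a2
      obtain ⟨k, hk, a3⟩ := a2
      rw [List.mem_range] at hk
      set κ : Fin 6 := ⟨k, hk⟩ with hκ
      have d0 : dg (code g) k = (g κ).val := dg_code g κ
      have d1 : dg (code g) ((k + 1) % 6) = (g (κ + 1)).val := dg_code g (κ + 1)
      have d2 : dg (code g) ((k + 2) % 6) = (g (κ + 1 + 1)).val := by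
        have := dg_code g (κ + 1 + 1)
        have ev : (κ + 1 + 1).val = (k + 2) % 6 := by
          rw [Fin.val_add, Fin.val_add]
          show (((k + 1) % 6) + 1) % 6 = (k + 2) % 6
          omega
        rw [ev] at this
        exact this
      rw [d0, d1, d2] at a3
      split_ifs at a3 with hz
      · rw [Bool.and_eq_true, Bool.and_eq_true, beq_iff_eq, Bool.not_eq_true', Bool.not_eq_true'] at a3
        obtain ⟨⟨a4, a5⟩, a6⟩ := a3
        have hgg : g κ = g (κ + 1 + 1) := Fin.ext a4
        have b1 := g1 κ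
        have b2 := g2 κ
        have b3 := (w.mem_add u κ _).1 (g1 (κ + 1))
        have b4 := (w.mem_add u κ _).1 (g2 (κ + 1))
        rw [← hgg] at b4
        obtain ⟨e, he, z, hem⟩ := hS _ _ _ (gl.1 κ) (by simpa using hz) b1 b2 b4 b3
        obtain ⟨e1, e2⟩ := atpos κ e z hem
        rcases e2 with e2 | e2
        · have := (hMb κ).2 ⟨e, he, e1, e2⟩
          rw [a5] at this; exact absurd this (by decide)
        · have := (hMb (κ + 1)).2 ⟨e, he, e1, e2⟩
          have ev : (κ + 1).val = (k + 1) % 6 := rfl
          rw [ev, a6] at this; exact absurd this (by decide)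
      · rw [Bool.not_eq_true'] at a3
        obtain ⟨e, he, z, hem⟩ := hN _ _ _ (g1 κ) (g2 κ) (by simpa using hz)
        obtain ⟨e1, e2⟩ := tau_kap hu hem
        have := (hMb κ).2 ⟨e, he, e1, e2⟩
        rw [a3] at this; exact absurd this (by decide)
  · intro u _ h h' _ _ hI
    exact le_trans hI (Finset.card_le_card (past_mono (Finset.subset_univ _)))

/-- **L1**: at least two points where `e` meets `A` or `C`, or of an exchange. -/
theorem L1w (w : WordW X) (e1 : ℝ)
    (hN : ∀ v, v ∈ X 0 → (v ∈ X 2 ∨ v ∈ X 3) → ∃ n : ℤ, v = e1 + 6 * n)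
    (hS : ∀ v, ∀ x y : Fin 4, x ≠ y → v ∈ X x → v ∈ X y → v + 1 ∈ X x → v + 1 ∈ X y →
      ∃ n : ℤ, v = e1 + 6 * n ∨ v + 1 = e1 + 6 * n)
    (hX : ∀ u, ∀ g : Hx, Prp g → (∀ k, u + (k.val : ℝ) ∈ X (g k)) →
      (∀ k, u + (k.val : ℝ) ∈ X (g (k + 1))) → acN (code g) = true → False) : False := by
  refine w.budget chkSingleA chkBlockA chkLoopA chkRotA (fun n => Nat.mod_lt _ (by norm_num)) ?_
    {e1} (by simp) ?_ ?_ hX
  · intro x y; unfold costA; split_ifs <;> omega
  · intro v x y hx hy hxy
    refine ⟨e1, by simp, ?_⟩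
    fin_cases x <;> fin_cases y <;> first
      | exact absurd rfl hxy
      | exact hN v hx (Or.inl hy)
      | exact hN v hx (Or.inr hy)
      | exact hN v hy (Or.inl hx)
      | exact hN v hy (Or.inr hx)
  · intro v x y hxy _ h1 h2 h3 h4
    exact ⟨e1, by simp, hS v x y hxy h1 h2 h3 h4⟩

/-- **L2**: at least three points of the types `e|A`, `f|C`, `A|C`, exchange. -/
theorem L2w (w : WordW X) (e1 e2 : ℝ)
    (hN : ∀ v, (v ∈ X 0 ∧ v ∈ X 2) ∨ (v ∈ X 1 ∧ v ∈ X 3) ∨ (v ∈ X 2 ∧ v ∈ X 3) →
      ∃ n : ℤ, v = e1 + 6 * n ∨ v = e2 + 6 * n)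
    (hS : ∀ v, ∀ x y : Fin 4, x ≠ y → v ∈ X x → v ∈ X y → v + 1 ∈ X x → v + 1 ∈ X y →
      ∃ n : ℤ, (v = e1 + 6 * n ∨ v + 1 = e1 + 6 * n) ∨ (v = e2 + 6 * n ∨ v + 1 = e2 + 6 * n))
    (hX : ∀ u, ∀ g : Hx, Prp g → (∀ k, u + (k.val : ℝ) ∈ X (g k)) →
      (∀ k, u + (k.val : ℝ) ∈ X (g (k + 1))) → excN (code g) = true → False) : False := by
  classical
  refine w.budget chkSingleB chkBlockB chkLoopB chkRotB (fun n => Nat.mod_lt _ (by norm_num)) ?_
    {e1, e2} (Finset.card_le_two) ?_ ?_ hX
  · intro x y; unfold costB; split_ifs <;> omega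
  · intro v x y hx hy hxy
    have h1 : ∃ n : ℤ, v = e1 + 6 * n ∨ v = e2 + 6 * n := by
      apply hN
      fin_cases x <;> fin_cases y <;> first
        | exact absurd rfl hxy
        | exact Or.inl ⟨hx, hy⟩
        | exact Or.inl ⟨hy, hx⟩
        | exact Or.inr (Or.inl ⟨hx, hy⟩)
        | exact Or.inr (Or.inl ⟨hy, hx⟩)
        | exact Or.inr (Or.inr ⟨hx, hy⟩)
        | exact Or.inr (Or.inr ⟨hy, hx⟩)
    obtain ⟨n, h2 | h2⟩ := h1
    · exact ⟨e1, by simp, n, h2⟩
    · exact ⟨e2, by simp, n, h2⟩
  · intro v x y hxy _ h1 h2 h3 h4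
    obtain ⟨n, h5 | h5⟩ := hS v x y hxy h1 h2 h3 h4
    · exact ⟨e1, by simp, n, h5⟩
    · exact ⟨e2, by simp, n, h5⟩

end WordW

end Vale.Agent.P032.H892
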