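import Vale.Agent.P032.H892.Hex
import Vale.Agent.P032.Words.H349.Tie

/-!
# P032: words on the circle of a two-pair centre, with special ends and exchanges

Letters `0 = e`, `1 = f`, `2 = A`, `3 = C`; angles in units of 60 degrees.  `WordW X` : closed letter sets of period
six; a generic point has one letter; the rule of 60 degrees at generic points; `A` and `C` are not antipodal.
At special points (alpha, beta, delta ends) any letters are allowed, any two letters may be exchanged on a block of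
consecutive positions at one time, and the whole word may be rotated at one time.

`WordW.of_open` : the closures of four disjoint open sets with dense union.

`WordW.events` : with finitely many named events `i : ι` (time `τ i` in `(u0, u0 + 1)`, position `κ i`), a predicate
`I` of (hexagon, set of past events) which survives single steps holds after the full turn by 60 degrees.
-/

open Set Filter Topology

namespace Vale.Agent.P032.H892

open Vale.Agent.P032.Words

/-- the letter sets at the six positions -/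
def pos (X : Fin 4 → Set ℝ) (k : Fin 6) (l : Fin 4) : Set ℝ := {u | u + (k.val : ℝ) ∈ X l}

/-- a word with special points -/
structure WordW (X : Fin 4 → Set ℝ) : Prop where
  closed : ∀ l, IsClosed (X l)
  cover : ∀ u, ∃ l, u ∈ X l
  per : ∀ l u, u + 6 ∈ X l ↔ u ∈ X l
  disj : ∀ l m, l ≠ m → ∀ u, u ∈ interior (X l) → u ∉ interior (X m)
  sixty : ∀ l u, u ∈ interior (X l) → u + 1 ∉ interior (X l)
  anti : ∀ u, u ∈ X 2 → u + 3 ∉ X 3

namespace WordW

variable {X : Fin 4 → Set ℝ}

theorem interior_pos (X : Fin 4 → Set ℝ) (k : Fin 6) (l : Fin 4) (u : ℝ) :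
    u ∈ interior (pos X k l) ↔ u + (k.val : ℝ) ∈ interior (X l) := by
  have h := (Homeomorph.addRight (k.val : ℝ)).preimage_interior (X l)
  have e : (Homeomorph.addRight (k.val : ℝ)) ⁻¹' (X l) = pos X k l := rfl
  rw [e] at h
  rw [← h]
  rfl

theorem per_int (w : WordW X) (l : Fin 4) (u : ℝ) : u + 6 ∈ interior (X l) ↔ u ∈ interior (X l) := by
  have h := (Homeomorph.addRight (6 : ℝ)).preimage_interior (X l)
  have e : (Homeomorph.addRight (6 : ℝ)) ⁻¹' (X l) = X l := by
    ext v; exact w.per l v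
  rw [e] at h
  constructor
  · intro hu
    rw [← h]; exact hu
  · intro hu
    rw [← h] at hu; exact hu

theorem fam (w : WordW X) : Fam (pos X) where
  closed := fun k l => (w.closed l).preimage (by fun_prop : Continuous fun u : ℝ => u + (k.val : ℝ))
  cover := fun k u => w.cover _

theorem mem_add (w : WordW X) (u : ℝ) (k : Fin 6) (l : Fin 4) :
    u + ((k + 1).val : ℝ) ∈ X l ↔ u + (k.val : ℝ) + 1 ∈ X l := by
  by_cases hk : k = 5
  · subst hk
    have h1 : ((5 : Fin 6) + 1).val = 0 := rfl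
    have h2 : (5 : Fin 6).val = 5 := rfl
    rw [h1, h2]
    have : u + ((5 : ℕ) : ℝ) + 1 = (u + ((0 : ℕ) : ℝ)) + 6 := by push_cast; ring
    rw [this, w.per]
  · have h1 : (k + 1).val = k.val + 1 := by
      have : k.val ≠ 5 := fun h => hk (Fin.ext h)
      have h6 := k.isLt
      rw [Fin.val_add_one_of_lt]
      rw [Fin.lt_def]
      show k.val < 5
      omega
    rw [h1]
    have : u + (k.val : ℝ) + 1 = u + ((k.val + 1 : ℕ) : ℝ) := by push_cast; ring
    rw [this]

theorem int_add (w : WordW X) (u : ℝ) (k : Fin 6) (l : Fin 4) :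
    u + ((k + 1).val : ℝ) ∈ interior (X l) ↔ u + (k.val : ℝ) + 1 ∈ interior (X l) := by
  by_cases hk : k = 5
  · subst hk
    have h1 : ((5 : Fin 6) + 1).val = 0 := rfl
    have h2 : (5 : Fin 6).val = 5 := rfl
    rw [h1, h2]
    have : u + ((5 : ℕ) : ℝ) + 1 = (u + ((0 : ℕ) : ℝ)) + 6 := by push_cast; ring
    rw [this, w.per_int]
  · have h1 : (k + 1).val = k.val + 1 := by
      have : k.val ≠ 5 := fun h => hk (Fin.ext h)
      have h6 := k.isLt
      rw [Fin.val_add_one_of_lt]
      rw [Fin.lt_def]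
      show k.val < 5
      omega
    rw [h1]
    have : u + (k.val : ℝ) + 1 = u + ((k.val + 1 : ℕ) : ℝ) := by push_cast; ring
    rw [this]

theorem mem_add3 (w : WordW X) (u : ℝ) (k : Fin 6) (l : Fin 4) :
    u + ((k + 3).val : ℝ) ∈ X l ↔ u + (k.val : ℝ) + 3 ∈ X l := by
  have e : k + 3 = k + 1 + 1 + 1 := by revert k; decide
  rw [e, w.mem_add]
  have h1 := w.mem_add (u + 1) (k + 1) l
  have h2 := w.mem_add (u + 2) k l
  have e1 : u + ((k + 1 + 1).val : ℝ) + 1 = u + 1 + ((k + 1 + 1).val : ℝ) := by ring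
  have e2 : u + 1 + ((k + 1).val : ℝ) + 1 = u + 2 + ((k + 1).val : ℝ) := by ring
  have e3 : u + 2 + (k.val : ℝ) + 1 = u + (k.val : ℝ) + 3 := by ring
  rw [e1, h1, e2, h2, e3]

theorem pure_prp (w : WordW X) {h : Hx} {v : ℝ} (hp : Pure (pos X) h v) : Prp h := by
  intro k hk
  have h1 := (interior_pos X k (h k) v).1 (hp k)
  have h2 := (interior_pos X (k + 1) (h (k + 1)) v).1 (hp (k + 1))
  rw [← hk, w.int_add] at h2
  exact w.sixty _ _ h1 h2

theorem occ_prp (w : WordW X) {h : Hx} {F : Filter ℝ} (ho : Occ (pos X) F h) : Prp h := by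
  obtain ⟨v, hv⟩ := ho.exists
  exact w.pure_prp hv

theorem occ_mem (w : WordW X) {h : Hx} {u : ℝ} {F : Filter ℝ} (ho : Occ (pos X) F h) (hF : F ≤ 𝓝 u)
    (k : Fin 6) : u + (k.val : ℝ) ∈ X (h k) := w.fam.mem ho hF k

theorem leg (w : WordW X) (u : ℝ) {g : Hx} (h1 : ∀ k, palT X u k (g k)) (h2 : Prp g) : Leg4 g := by
  refine ⟨h2, ?_⟩
  rintro k ⟨a, b⟩
  have h3 := h1 k
  have h4 := h1 (k + 3)
  rw [a] at h3
  rw [b] at h4
  exact w.anti _ h3 ((w.mem_add3 u k 3).1 h4)

theorem mix_mem {u : ℝ} {h h' : Hx} (hh : ∀ k, palT X u k (h k)) (hh' : ∀ k, palT X u k (h' k))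
    (A : Finset (Fin 6)) : ∀ k, palT X u k (mix h h' A k) := by
  intro k
  unfold mix
  split_ifs
  · exact hh' k
  · exact hh k

/-- pure states at one time are unique -/
theorem unique (w : WordW X) {h g : Hx} {u : ℝ} (hp : Pure (pos X) h u) {F : Filter ℝ} (hF : F ≤ 𝓝 u)
    (ho : Occ (pos X) F g) : g = h := by
  have h1 : ∀ᶠ v in 𝓝 u, Pure (pos X) h v := by
    unfold Pure
    rw [eventually_all]
    exact fun j => isOpen_interior.mem_nhds (hp j)
  obtain ⟨v, hv1, hv2⟩ := (ho.and_eventually (h1.filter_mono hF)).exists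
  funext k
  by_contra hne
  exact w.disj _ _ hne _ ((interior_pos X k _ v).1 (hv1 k)) ((interior_pos X k _ v).1 (hv2 k))

theorem pure_rot (w : WordW X) {h : Hx} {u : ℝ} (hp : Pure (pos X) h u) :
    Pure (pos X) (rot h) (u + 1) := by
  intro k
  rw [interior_pos]
  have h1 := (interior_pos X (k + 1) (h (k + 1)) u).1 (hp (k + 1))
  rw [w.int_add] at h1
  have e : u + 1 + (k.val : ℝ) = u + (k.val : ℝ) + 1 := by ring
  rw [e]
  exact h1

/-- changes at one time -/
theorem path {S : Type} (w : WordW X) {u : ℝ} {h h' : Hx} (hh : Occ (pos X) (𝓝[<] u) h)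
    (hh' : Occ (pos X) (𝓝[>] u) h') {I : Hx → S → Prop} {σ : Finset (Fin 6) → S}
    (h0 : I h (σ ∅))
    (hstep : ∀ A B : Finset (Fin 6), Disjoint A B → B.Nonempty → (∀ k ∈ A, h k ≠ h' k) →
      (∀ k ∈ B, h k ≠ h' k) → Leg4 (mix h h' A) → Leg4 (mix h h' (A ∪ B)) → IsStep h h' B →
      I (mix h h' A) (σ A) → I (mix h h' (A ∪ B)) (σ (A ∪ B))) :
    I h' (σ (Finset.univ.filter fun k => h k ≠ h' k)) := by
  have m1 : ∀ k, palT X u k (h k) := w.occ_mem hh nhdsWithin_le_nhds
  have m2 : ∀ k, palT X u k (h' k) := w.occ_mem hh' nhdsWithin_le_nhds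
  have := exists_path (w.occ_prp hh) (w.occ_prp hh')
    (Φ := fun A => I (mix h h' A) (σ A)) (by rw [mix_empty]; exact h0)
    (fun A B a1 a2 a3 a4 a5 a6 a7 a8 => hstep A B a1 a2 a3 a4
      (w.leg u (mix_mem m1 m2 A) a5) (w.leg u (mix_mem m1 m2 (A ∪ B)) a6) a7 a8)
  rw [mix_eq (fun k hk => by simpa using hk)] at this
  exact this

/-- **The turn by 60 degrees.** -/
theorem loop {S : Type} (w : WordW X) {s sl sr : ℝ → S} {I : Hx → S → Prop} {u0 : ℝ} {h0 : Hx}
    (hp : Pure (pos X) h0 u0)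
    (hl : ∀ u ∈ Ioc u0 (u0 + 1), ∀ᶠ v in 𝓝[<] u, s v = sl u)
    (hr : ∀ u ∈ Ico u0 (u0 + 1), ∀ᶠ v in 𝓝[>] u, s v = sr u)
    (hI : I h0 (sr u0))
    (hstep : ∀ u ∈ Ioo u0 (u0 + 1), ∀ h h', Occ (pos X) (𝓝[<] u) h → Occ (pos X) (𝓝[>] u) h' →
      I h (sl u) → I h' (sr u)) : I (rot h0) (sl (u0 + 1)) := by
  refine run (pos X) (by linarith) hl hr ?_ ?_ _ (w.pure_rot hp).occL
  · intro h hh
    rw [w.unique hp nhdsWithin_le_nhds hh]
    exact hI
  · intro u hu hall h' hh'
    obtain ⟨h, hh⟩ := w.fam.exists_occL u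
    exact hstep u hu h h' hh hh' (hall h hh)

/-- generic base times, away from a finite set modulo `1` -/
theorem exists_base (w : WordW X) (E : Finset ℝ) :
    ∃ u0 h0, Pure (pos X) h0 u0 ∧ ∀ e ∈ E, ∀ n : ℤ, u0 + n ≠ e := by
  have hd := w.fam.dense
  have hc : (⋃ e ∈ E, ⋃ n : ℤ, {e - (n : ℝ)} : Set ℝ).Countable :=
    (Finset.countable_toSet E).biUnion fun e _ => countable_iUnion fun n => countable_singleton _
  have ho : IsOpen {v | ∃ h : Hx, Pure (pos X) h v} := by
    have : {v | ∃ h : Hx, Pure (pos X) h v} = ⋃ h : Hx, ⋂ j, interior (pos X j (h j)) := by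
      ext v
      simp only [mem_ofPred_eq, mem_iUnion, mem_iInter]
      rfl
    rw [this]
    exact isOpen_iUnion fun h => isOpen_iInter_of_finite fun j => isOpen_interior
  obtain ⟨v, hv⟩ := hd.nonempty
  have h1 : ({v | ∃ h : Hx, Pure (pos X) h v} \ (⋃ e ∈ E, ⋃ n : ℤ, {e - (n : ℝ)})).Nonempty := by
    by_contra hne
    rw [not_nonempty_iff_eq_empty, sdiff_eq_empty] at hne
    obtain ⟨ε, hε, hb⟩ := Metric.isOpen_iff.1 ho v hv
    have h2 : (Ioo (v - ε) (v + ε)).Countable := by
      refine hc.mono (Subset.trans ?_ hne)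
      intro x hx
      refine hb ?_
      rw [Metric.mem_ball, Real.dist_eq, abs_lt]
      exact ⟨by linarith [hx.1], by linarith [hx.2]⟩
    exact absurd (Cardinal.Real.Ioo_countable_iff.1 h2) (by linarith)
  obtain ⟨u0, ⟨h0, hp⟩, hn⟩ := h1
  refine ⟨u0, h0, hp, fun e he n hen => hn ?_⟩
  simp only [mem_iUnion, mem_singleton_iff]
  exact ⟨e, he, n, by rw [← hen]; ring⟩

/-- **Words from open sets.** -/
theorem of_open {O : Fin 4 → Set ℝ} (ho : ∀ l, IsOpen (O l)) (hd : Dense (⋃ l, O l))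
    (hdis : ∀ l m, l ≠ m → ∀ u, u ∈ O l → u ∉ O m) (hper : ∀ l u, u + 6 ∈ O l ↔ u ∈ O l)
    (hsix : ∀ l u, u ∈ O l → u + 1 ∉ O l) (hanti : ∀ u, u ∈ closure (O 2) → u + 3 ∉ closure (O 3)) :
    WordW fun l => closure (O l) where
  closed := fun _ => isClosed_closure
  cover := fun u => by
    have h1 : closure (⋃ l, O l) = ⋃ l, closure (O l) := closure_iUnion_of_finite O
    have h2 : u ∈ closure (⋃ l, O l) := hd u
    rw [h1, mem_iUnion] at h2
    exact h2
  per := fun l u => by
    have e : (Homeomorph.addRight (6 : ℝ)) ⁻¹' (O l) = O l := by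
      ext v; exact hper l v
    have h := (Homeomorph.addRight (6 : ℝ)).preimage_closure (O l)
    rw [e] at h
    constructor
    · intro hu
      rw [← h]; exact hu
    · intro hu
      rw [← h] at hu; exact hu
  disj := fun l m hlm u hu hu' => by
    have h1 : u ∈ closure (O l) := interior_subset hu
    obtain ⟨v, ⟨hv1, hv2⟩, hv3⟩ := mem_closure_iff_nhds.1 h1 _
      (Filter.inter_mem (isOpen_interior.mem_nhds hu) (isOpen_interior.mem_nhds hu'))
    have h2 : v ∈ closure (O m) := interior_subset hv2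
    obtain ⟨x, hx1, hx2⟩ := mem_closure_iff_nhds.1 h2 _ ((ho l).mem_nhds hv3)
    exact hdis l m hlm x hx1 hx2
  sixty := fun l u hu hu' => by
    have h1 : u ∈ closure (O l) := interior_subset hu
    have h3 : (fun v : ℝ => v + 1) ⁻¹' interior (closure (O l)) ∈ 𝓝 u :=
      (continuous_id.add continuous_const).continuousAt.preimage_mem_nhds
        (isOpen_interior.mem_nhds hu')
    obtain ⟨v, ⟨hv1, -⟩, hv3⟩ := mem_closure_iff_nhds.1 h1 _ (Filter.inter_mem h3 univ_mem)
    have h2 : v + 1 ∈ closure (O l) := interior_subset hv1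
    have h4 : (fun x : ℝ => x - 1) ⁻¹' (O l) ∈ 𝓝 (v + 1) :=
      (continuous_id.sub continuous_const).continuousAt.preimage_mem_nhds
        (by simpa using (ho l).mem_nhds hv3)
    obtain ⟨x, hx1, hx2⟩ := mem_closure_iff_nhds.1 h2 _ h4
    exact hsix l (x - 1) hx1 (by simpa using hx2)
  anti := hanti

end WordW

end Vale.Agent.P032.H892
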