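import Vale.Agent.P032.H892.Occ
import Vale.Agent.P032.Words.L23

/-!
# P032: hexagons on a circle, changes at one time

Any two proper hexagons are joined by single changes, exchanges of two letters on a block of neighbouring positions,
or one rotation of the whole word (`IsStep`), where every position is changed at most once (`exists_path`).
-/

open Set Filter Topology

namespace Vale.Agent.P032.H892

open Vale.Agent.P032.Words

/-- on `A` the letters of `h'`, elsewhere those of `h` -/
def mix (h h' : Hx) (A : Finset (Fin 6)) : Hx := fun k => if k ∈ A then h' k else h k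

theorem mix_empty (h h' : Hx) : mix h h' ∅ = h := by funext k; simp [mix]

theorem mix_eq {h h' : Hx} {A : Finset (Fin 6)} (hA : ∀ k, h k ≠ h' k → k ∈ A) :
    mix h h' A = h' := by
  funext k
  unfold mix
  split_ifs with h1
  · rfl
  · by_contra h2; exact h1 (hA k h2)

/-- proper hexagons -/
def Prp (h : Hx) : Prop := ∀ k, h k ≠ h (k + 1)

/-- the position `t + i` -/
def ps (t : Fin 6) (i : ℕ) : Fin 6 := ⟨(t.val + i) % 6, Nat.mod_lt _ (by norm_num)⟩

theorem ps_zero (t : Fin 6) : ps t 0 = t := by revert t; decide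

theorem ps_succ (t : Fin 6) (i : ℕ) : ps t (i + 1) = ps t i + 1 := by
  apply Fin.ext
  rw [Fin.val_add]
  unfold ps
  show (t.val + (i + 1)) % 6 = ((t.val + i) % 6 + 1) % 6
  omega

/-- the block of the positions `t, .., t + n` -/
def blk (t : Fin 6) (n : ℕ) : Finset (Fin 6) := (Finset.range (n + 1)).image (ps t)

/-- bit masks: `R`, `L` : position `k` is blocked on the right, on the left side -/
def chkBlk : Bool :=
  (List.range 64).all fun R => (List.range 64).all fun L =>
    -- hypotheses
    !((List.range 6).all fun k =>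
      (!(R.testBit k) || R.testBit ((k + 1) % 6) || L.testBit ((k + 1) % 6)) &&
      (!(L.testBit k) || R.testBit ((k + 5) % 6) || L.testBit ((k + 5) % 6))) ||
    R == 63 || L == 63 || (R == 0 && L == 0) ||
    -- conclusion
    (List.range 6).any fun t => (List.range 6).any fun n => decide (1 ≤ n) &&
      !(L.testBit t) && !(R.testBit ((t + n) % 6)) &&
      (List.range n).all fun i => R.testBit ((t + i) % 6) && L.testBit ((t + i + 1) % 6)

theorem chkBlk_true : chkBlk = true := by decide +kernel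

/-- mask of a predicate -/
def msk (p : Fin 6 → Bool) : ℕ :=
  (p 0).toNat + 2 * (p 1).toNat + 4 * (p 2).toNat + 8 * (p 3).toNat + 16 * (p 4).toNat +
    32 * (p 5).toNat

theorem msk_lt (p : Fin 6 → Bool) : msk p < 64 := by
  unfold msk
  have h : ∀ b : Bool, b.toNat ≤ 1 := by decide
  have := h (p 0); have := h (p 1); have := h (p 2); have := h (p 3); have := h (p 4)
  have := h (p 5)
  omega

theorem msk_bit : ∀ (p : Fin 6 → Bool) (k : Fin 6), (msk p).testBit k.val = p k := by
  have key : ∀ a b c d e f : Bool, ∀ k : Fin 6,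
      (msk ![a, b, c, d, e, f]).testBit k.val = (![a, b, c, d, e, f] : Fin 6 → Bool) k := by decide
  intro p k
  have e : p = ![p 0, p 1, p 2, p 3, p 4, p 5] := by
    funext j; fin_cases j <;> rfl
  rw [e]
  exact key _ _ _ _ _ _ k

/-- the combinatorial core: some block is exchanged -/
theorem exists_blk {R L : Fin 6 → Prop} (hne : ∃ k, R k ∨ L k) (hR : ∀ k, R k → R (k + 1) ∨ L (k + 1))
    (hL : ∀ k, L (k + 1) → R k ∨ L k) (nR : ¬ ∀ k, R k) (nL : ¬ ∀ k, L k) :
    ∃ (t : Fin 6) (n : ℕ), 1 ≤ n ∧ n < 6 ∧ ¬ L t ∧ ¬ R (ps t n) ∧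
      ∀ i < n, R (ps t i) ∧ L (ps t i + 1) := by
  classical
  set r : Fin 6 → Bool := fun k => decide (R k) with hr
  set l : Fin 6 → Bool := fun k => decide (L k) with hl
  have a := all_range (all_range chkBlk_true (msk_lt r)) (msk_lt l)
  have bR : ∀ k : ℕ, k < 6 → ((msk r).testBit k = true ↔ R ⟨k % 6, Nat.mod_lt _ (by norm_num)⟩) := by
    intro k hk
    have := msk_bit r ⟨k, hk⟩
    rw [show ((⟨k, hk⟩ : Fin 6).val) = k from rfl] at this
    rw [this]
    simp only [hr, decide_eq_true_eq]
    have e : (⟨k % 6, Nat.mod_lt _ (by norm_num)⟩ : Fin 6) = ⟨k, hk⟩ := Fin.ext (Nat.mod_eq_of_lt hk)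
    rw [e]
  have bL : ∀ k : ℕ, k < 6 → ((msk l).testBit k = true ↔ L ⟨k % 6, Nat.mod_lt _ (by norm_num)⟩) := by
    intro k hk
    have := msk_bit l ⟨k, hk⟩
    rw [show ((⟨k, hk⟩ : Fin 6).val) = k from rfl] at this
    rw [this]
    simp only [hl, decide_eq_true_eq]
    have e : (⟨k % 6, Nat.mod_lt _ (by norm_num)⟩ : Fin 6) = ⟨k, hk⟩ := Fin.ext (Nat.mod_eq_of_lt hk)
    rw [e]
  have e1 : ∀ k : ℕ, (hk : k < 6) → (⟨(k + 1) % 6 % 6, Nat.mod_lt _ (by norm_num)⟩ : Fin 6) =
      ⟨k % 6, Nat.mod_lt _ (by norm_num)⟩ + 1 := by decide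
  have e5 : ∀ k : ℕ, (hk : k < 6) → (⟨(k + 5) % 6 % 6, Nat.mod_lt _ (by norm_num)⟩ : Fin 6) + 1 =
      ⟨k % 6, Nat.mod_lt _ (by norm_num)⟩ := by decide
  simp only [Bool.or_eq_true, Bool.not_eq_true', beq_iff_eq, Bool.and_eq_true] at a
  rcases a with (((a | a) | a) | a) | a
  · exfalso
    have : ((List.range 6).all fun k =>
      (!((msk r).testBit k) || (msk r).testBit ((k + 1) % 6) || (msk l).testBit ((k + 1) % 6)) &&
      (!((msk l).testBit k) || (msk r).testBit ((k + 5) % 6) || (msk l).testBit ((k + 5) % 6)))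
        = true := by
      rw [List.all_eq_true]
      intro k hk
      rw [List.mem_range] at hk
      have m1 : (k + 1) % 6 < 6 := Nat.mod_lt _ (by norm_num)
      have m5 : (k + 5) % 6 < 6 := Nat.mod_lt _ (by norm_num)
      simp only [Bool.and_eq_true, Bool.or_eq_true, Bool.not_eq_true', ← Bool.not_eq_true,
        bR k hk, bL k hk, bR _ m1, bL _ m1, bR _ m5, bL _ m5, e1 k hk]
      refine ⟨?_, ?_⟩
      · by_cases h1 : R ⟨k % 6, Nat.mod_lt _ (by norm_num)⟩
        · rcases hR _ h1 with h2 | h2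
          · exact Or.inl (Or.inr h2)
          · exact Or.inr h2
        · exact Or.inl (Or.inl h1)
      · by_cases h1 : L ⟨k % 6, Nat.mod_lt _ (by norm_num)⟩
        · rw [← e5 k hk] at h1
          rcases hL _ h1 with h2 | h2
          · exact Or.inl (Or.inr h2)
          · exact Or.inr h2
        · exact Or.inl (Or.inl h1)
    rw [this] at a
    exact absurd a (by decide)
  · exfalso
    refine nR fun k => ?_
    have := (bR k.val k.isLt).1 (by rw [a]; revert k; decide)
    have e : (⟨k.val % 6, Nat.mod_lt _ (by norm_num)⟩ : Fin 6) = k := Fin.ext (Nat.mod_eq_of_lt k.isLt)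
    rwa [e] at this
  · exfalso
    refine nL fun k => ?_
    have := (bL k.val k.isLt).1 (by rw [a]; revert k; decide)
    have e : (⟨k.val % 6, Nat.mod_lt _ (by norm_num)⟩ : Fin 6) = k := Fin.ext (Nat.mod_eq_of_lt k.isLt)
    rwa [e] at this
  · exfalso
    obtain ⟨k, hk⟩ := hne
    have e : (⟨k.val % 6, Nat.mod_lt _ (by norm_num)⟩ : Fin 6) = k := Fin.ext (Nat.mod_eq_of_lt k.isLt)
    rcases hk with hk | hk
    · have := (bR k.val k.isLt).2 (by rw [e]; exact hk)
      rw [a.1, Nat.zero_testBit] at this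
      exact absurd this (by decide)
    · have := (bL k.val k.isLt).2 (by rw [e]; exact hk)
      rw [a.2, Nat.zero_testBit] at this
      exact absurd this (by decide)
  · rw [List.any_eq_true] at a
    obtain ⟨t, ht, a⟩ := a
    rw [List.any_eq_true] at a
    obtain ⟨n, hn, a⟩ := a
    rw [List.mem_range] at ht hn
    simp only [Bool.and_eq_true, Bool.not_eq_true', ← Bool.not_eq_true, decide_eq_true_eq] at a
    obtain ⟨⟨⟨a1, a2⟩, a3⟩, a4⟩ := a
    have pe : ∀ i : ℕ, (⟨(t + i) % 6 % 6, Nat.mod_lt _ (by norm_num)⟩ : Fin 6) = ps ⟨t, ht⟩ i := by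
      intro i; apply Fin.ext
      show (t + i) % 6 % 6 = (t + i) % 6
      omega
    refine ⟨⟨t, ht⟩, n, a1, hn, ?_, ?_, ?_⟩
    · intro h1
      refine a2 ((bL t ht).2 ?_)
      have e : (⟨t % 6, Nat.mod_lt _ (by norm_num)⟩ : Fin 6) = ⟨t, ht⟩ := Fin.ext (Nat.mod_eq_of_lt ht)
      rw [e]; exact h1
    · intro h1
      refine a3 ((bR _ (Nat.mod_lt _ (by norm_num))).2 ?_)
      rw [pe]; exact h1
    · intro i hi
      rw [List.all_eq_true] at a4
      have := a4 i (List.mem_range.2 hi)
      rw [Bool.and_eq_true] at this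
      obtain ⟨b1, b2⟩ := this
      rw [bR _ (Nat.mod_lt _ (by norm_num)), pe] at b1
      rw [bL _ (Nat.mod_lt _ (by norm_num)), Nat.add_assoc, pe, ps_succ] at b2
      exact ⟨b1, b2⟩

/-- the changed positions of one step: one position, or a block on which two letters are exchanged, or a rotation
of the whole word -/
def IsStep (h h' : Hx) (B : Finset (Fin 6)) : Prop :=
  (∃ k, B = {k}) ∨ (∃ t n, ∃ l m : Fin 4, 1 ≤ n ∧ n < 6 ∧ l ≠ m ∧ B = blk t n ∧
    ∀ k ∈ B, (h k = l ∧ h' k = m) ∨ (h k = m ∧ h' k = l)) ∨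
  (B = Finset.univ ∧ ((∀ k, h' k = h (k + 1)) ∨ ∀ k, h k = h' (k + 1)))

theorem add_one_ne : ∀ j : Fin 6, j + 1 ≠ j := by decide

theorem exists_step {h h' : Hx} (hp' : Prp h') {A : Finset (Fin 6)}
    (_ : ∀ k ∈ A, h k ≠ h' k) (hg : Prp (mix h h' A)) (hne : ∃ k, h k ≠ h' k ∧ k ∉ A) :
    ∃ B, Disjoint A B ∧ B.Nonempty ∧ (∀ k ∈ B, h k ≠ h' k) ∧ Prp (mix h h' (A ∪ B)) ∧
      IsStep h h' B := by
  classical
  set g := mix h h' A with hgdef
  have gD : ∀ k, g k ≠ h' k ↔ h k ≠ h' k ∧ k ∉ A := by
    intro k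
    simp only [hgdef, mix]
    split_ifs with h1
    · simp [h1]
    · simp [h1]
  have gh : ∀ k, g k ≠ h' k → g k = h k := by
    intro k hk
    have := ((gD k).1 hk).2
    simp only [hgdef, mix, if_neg this]
  have e1 : ∀ k : Fin 6, k + 1 - 1 = k := fun k => add_sub_cancel_right k 1
  have e2 : ∀ k : Fin 6, k - 1 + 1 = k := fun k => sub_add_cancel k 1
  by_cases hfree : ∃ k, g k ≠ h' k ∧ h' k ≠ g (k + 1) ∧ h' k ≠ g (k - 1)
  · obtain ⟨k, k1, k2, k3⟩ := hfree
    have kA := ((gD k).1 k1).2
    refine ⟨{k}, Finset.disjoint_singleton_right.2 kA, Finset.singleton_nonempty k, ?_, ?_,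
      Or.inl ⟨k, rfl⟩⟩
    · intro j hj
      rw [Finset.mem_singleton] at hj
      subst hj
      exact ((gD _).1 k1).1
    · have val : ∀ j, mix h h' (A ∪ {k}) j = if j = k then h' k else g j := by
        intro j
        by_cases hj : j = k
        · subst hj
          simp [mix]
        · simp only [mix, hgdef, Finset.mem_union, Finset.mem_singleton, hj, or_false, if_false]
      intro j
      rw [val, val]
      by_cases hj : j = k
      · subst hj
        rw [if_pos rfl, if_neg (add_one_ne j)]; exact k2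
      · rw [if_neg hj]
        by_cases hj1 : j + 1 = k
        · rw [if_pos hj1]
          have : j = k - 1 := by rw [← hj1, e1]
          rw [this]; exact k3.symm
        · rw [if_neg hj1]; exact hg j
  · push Not at hfree
    set R : Fin 6 → Prop := fun k => g k ≠ h' k ∧ h' k = g (k + 1) with hR
    set L : Fin 6 → Prop := fun k => g k ≠ h' k ∧ h' k = g (k - 1) with hL
    have hRL : ∀ k, g k ≠ h' k → R k ∨ L k := by
      intro k hk
      by_cases h1 : h' k = g (k + 1)
      · exact Or.inl ⟨hk, h1⟩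
      · exact Or.inr ⟨hk, hfree k hk h1⟩
    -- the rotation of the whole word
    have full : (∀ k, g k ≠ h' k) → ((∀ k, h' k = g (k + 1)) ∨ ∀ k, g k = h' (k + 1)) →
        ∃ B, Disjoint A B ∧ B.Nonempty ∧ (∀ k ∈ B, h k ≠ h' k) ∧ Prp (mix h h' (A ∪ B)) ∧
          IsStep h h' B := by
      intro f1 f2
      have hA0 : A = ∅ := by
        rw [Finset.eq_empty_iff_forall_notMem]
        exact fun k => ((gD k).1 (f1 k)).2
      have h3 : g = h := funext fun k => gh k (f1 k)
      refine ⟨Finset.univ, by rw [hA0]; exact Finset.disjoint_empty_left _,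
        ⟨0, Finset.mem_univ 0⟩, fun k _ => ((gD k).1 (f1 k)).1,
        by rw [mix_eq (fun k _ => Finset.mem_union_right _ (Finset.mem_univ k))]; exact hp',
        Or.inr (Or.inr ⟨rfl, ?_⟩)⟩
      rw [← h3]; exact f2
    by_cases cR : ∀ k, R k
    · exact full (fun k => (cR k).1) (Or.inl fun k => (cR k).2)
    by_cases cL : ∀ k, L k
    · refine full (fun k => (cL k).1) (Or.inr fun k => ?_)
      have := (cL (k + 1)).2
      rw [e1] at this
      exact this.symm
    obtain ⟨t, n, n1, n6, nLt, nRn, hmid⟩ := exists_blk (R := R) (L := L)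
      (by
        obtain ⟨k, hk⟩ := hne
        exact ⟨k, hRL k ((gD k).2 hk)⟩)
      (fun k hk => hRL _ (fun hc => hp' k (by rw [hk.2, hc])))
      (fun k hk => hRL _ (fun hc => hp' k (by
        have := hk.2
        rw [e1] at this
        rw [this, hc]))) cR cL
    have inB : ∀ k, k ∈ blk t n ↔ ∃ i, i ≤ n ∧ ps t i = k := by
      intro k
      unfold blk
      rw [Finset.mem_image]
      constructor
      · rintro ⟨i, hi, rfl⟩
        exact ⟨i, by rw [Finset.mem_range] at hi; omega, rfl⟩
      · rintro ⟨i, hi, rfl⟩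
        exact ⟨i, by rw [Finset.mem_range]; omega, rfl⟩
    -- the two letters of the block
    set l := g t with hl
    set m := g (t + 1) with hm
    have hlm : l ≠ m := hg t
    have h0 := hmid 0 (by omega)
    rw [ps_zero] at h0
    have h0R : h' t = m := h0.1.2
    have h0L : h' (t + 1) = l := by
      have := h0.2.2
      rw [e1] at this
      exact this
    have hBi : ∀ i ≤ n, (g (ps t i) = l ∧ h' (ps t i) = m) ∨ (g (ps t i) = m ∧ h' (ps t i) = l) := by
      intro i
      induction i with
      | zero => intro _; rw [ps_zero]; exact Or.inl ⟨rfl, h0R⟩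
      | succ i ih =>
        intro hi
        obtain ⟨r, l2⟩ := hmid i (by omega)
        have l3 := l2.2
        rw [e1] at l3
        rw [ps_succ]
        rcases ih (by omega) with ⟨a1, a2⟩ | ⟨a1, a2⟩
        · exact Or.inr ⟨by rw [← r.2]; exact a2, by rw [l3]; exact a1⟩
        · exact Or.inl ⟨by rw [← r.2]; exact a2, by rw [l3]; exact a1⟩
    have hB : ∀ k ∈ blk t n, ((g k = l ∧ h' k = m) ∨ (g k = m ∧ h' k = l)) ∧ g k ≠ h' k := by
      intro k hk
      obtain ⟨i, hi, rfl⟩ := (inB k).1 hk
      refine ⟨hBi i hi, ?_⟩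
      rcases hBi i hi with ⟨a1, a2⟩ | ⟨a1, a2⟩
      · rw [a1, a2]; exact hlm
      · rw [a1, a2]; exact hlm.symm
    refine ⟨blk t n, ?_, ⟨t, (inB t).2 ⟨0, Nat.zero_le _, ps_zero t⟩⟩, ?_, ?_,
      Or.inr (Or.inl ⟨t, n, l, m, n1, n6, hlm, rfl, ?_⟩)⟩
    · rw [Finset.disjoint_right]
      intro k hk
      exact ((gD k).1 (hB k hk).2).2
    · intro k hk
      exact ((gD k).1 (hB k hk).2).1
    · have val : ∀ j, mix h h' (A ∪ blk t n) j = if j ∈ blk t n then h' j else g j := by
        intro j
        by_cases hj : j ∈ blk t n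
        · rw [if_pos hj]
          simp only [mix, Finset.mem_union, hj, or_true, if_true]
        · rw [if_neg hj]
          simp only [mix, hgdef, Finset.mem_union, hj, or_false]
      intro j
      rw [val, val]
      by_cases hj : j ∈ blk t n <;> by_cases hj1 : j + 1 ∈ blk t n
      · rw [if_pos hj, if_pos hj1]; exact hp' j
      · rw [if_pos hj, if_neg hj1]
        obtain ⟨i, hi, hi2⟩ := (inB j).1 hj
        have hin : i = n := by
          rcases Nat.lt_or_ge i n with h1 | h1
          · exact absurd ((inB (j + 1)).2 ⟨i + 1, h1, by rw [ps_succ, hi2]⟩) hj1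
          · omega
        rw [hin] at hi2
        rw [← hi2]
        intro hc
        exact nRn ⟨(hB _ (by rw [hi2]; exact hj)).2, hc⟩
      · rw [if_neg hj, if_pos hj1]
        obtain ⟨i, hi, hi2⟩ := (inB (j + 1)).1 hj1
        have hin : i = 0 := by
          by_contra h1
          obtain ⟨m, rfl⟩ := Nat.exists_eq_succ_of_ne_zero h1
          refine hj ((inB j).2 ⟨m, by omega, ?_⟩)
          have : ps t m + 1 = j + 1 := by rw [← ps_succ]; exact hi2
          exact add_right_cancel this
        rw [hin, ps_zero] at hi2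
        rw [← hi2]
        intro hc
        refine nLt ⟨(hB t ((inB t).2 ⟨0, Nat.zero_le _, ps_zero t⟩)).2, ?_⟩
        have e3 : t - 1 = j := by rw [hi2, e1]
        rw [e3]
        exact hc.symm
      · rw [if_neg hj, if_neg hj1]; exact hg j
    · intro k hk
      obtain ⟨a1, a2⟩ := hB k hk
      rw [← gh k a2]; exact a1

/-- **Path lemma.** -/
theorem exists_path {h h' : Hx} (hp : Prp h) (hp' : Prp h')
    {Φ : Finset (Fin 6) → Prop} (h0 : Φ ∅)
    (hstep : ∀ A B : Finset (Fin 6), Disjoint A B → B.Nonempty → (∀ k ∈ A, h k ≠ h' k) →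
      (∀ k ∈ B, h k ≠ h' k) → Prp (mix h h' A) → Prp (mix h h' (A ∪ B)) → IsStep h h' B →
      Φ A → Φ (A ∪ B)) :
    Φ (Finset.univ.filter fun k => h k ≠ h' k) := by
  classical
  set D := Finset.univ.filter fun k => h k ≠ h' k with hD
  have key : ∀ n : ℕ, ∀ A : Finset (Fin 6), (D \ A).card = n → (∀ k ∈ A, h k ≠ h' k) →
      Prp (mix h h' A) → Φ A → Φ D := by
    intro n
    induction n using Nat.strong_induction_on with
    | _ n ih =>
      intro A hn hA hg hΦ
      by_cases hne : ∃ k, h k ≠ h' k ∧ k ∉ A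
      · obtain ⟨B, b1, b2, b3, b4, b5⟩ := exists_step hp' hA hg hne
        have hc : (D \ (A ∪ B)).card < (D \ A).card := by
          apply Finset.card_lt_card
          rw [Finset.ssubset_iff_of_subset]
          · obtain ⟨k, hk⟩ := b2
            refine ⟨k, ?_, ?_⟩
            · rw [Finset.mem_sdiff]
              exact ⟨by simp only [hD, Finset.mem_filter, Finset.mem_univ, true_and]; exact b3 k hk,
                Finset.disjoint_right.1 b1 hk⟩
            · rw [Finset.mem_sdiff, not_and, not_not, Finset.mem_union]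
              exact fun _ => Or.inr hk
          · intro k hk
            rw [Finset.mem_sdiff, Finset.mem_union, not_or] at hk
            rw [Finset.mem_sdiff]
            exact ⟨hk.1, hk.2.1⟩
        refine ih _ (hn ▸ hc) (A ∪ B) rfl ?_ b4 (hstep A B b1 b2 hA b3 hg b4 b5 hΦ)
        intro k hk
        rcases Finset.mem_union.1 hk with h1 | h1
        · exact hA k h1
        · exact b3 k h1
      · push Not at hne
        have : A = D := by
          ext k
          simp only [hD, Finset.mem_filter, Finset.mem_univ, true_and]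
          exact ⟨fun hk => hA k hk, fun hk => hne k hk⟩
        rw [← this]; exact hΦ
  exact key _ ∅ rfl (by simp) (by rw [mix_empty]; exact hp) h0

end Vale.Agent.P032.H892
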