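import Vale.Agent.P032.H556.Wp
import Vale.Agent.P032.H61.GenSt
import Vale.Agent.P032.H892.ArcK

/-!
# P032: the induction of the wild machine (sets of states)

Frame `Irr U T` only.  `DO` is the filter of the dense open sets (`H61.GenSt`).

* `gen_run_all` : if all right states of `a` are in `V`, and at every `u` in `(a, b)`, if all left states are in `V`, then
  all right states are in `V`; then all left states of `b` are in `V`,
* `sol_iff_L`, `sol_iff_R`, `app_iff_L`, `app_iff_R` : a closed property which belongs to all (to some) one sided states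
  holds on a whole half interval (frequently),
* `allOn`, `exOn` : the gap bits and their one sided limits,
* `IPs` : the states (inner and outer colour sets of all nodes); `ips_DO` existence, `ips_unique`, `ips_mem`,
* `sol_arc_L`, `sol_arc_R` : solid half arcs, `rst_famP`, `lst_famP` : families for `H556.Wp`,
* `ext_RW`, `ext_LW` : extension of a state to further nodes,
* `wild_run` : the machine with letters and bits.
-/

open Set Filter Topology Metric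

noncomputable section

namespace Vale.Agent.P032.H892

open Vale.Agent.P032.Six Vale.Agent.P032.S5.H767 Vale.Agent.P032.H61 Vale.Agent.P032.H556 Vale.Agent.P032.H913

/-! ### the induction -/

section ind
variable {S : Type*} {P : ℝ → S → Prop} {a b u : ℝ} {V : Set S}

/-- **The induction for sets of states**, all times -/
theorem gen_run_all' [Finite S] (h0 : RSt DO P a ⊆ V)
    (hstep : ∀ u ∈ Ioo a b, LSt DO P u ⊆ V → RSt DO P u ⊆ V) : ∀ u ∈ Ioo a b, LSt DO P u ⊆ V ∧ RSt DO P u ⊆ V := by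
  have key : ∀ u ∈ Ioo a b, RSt DO P u ⊆ V := by
    by_contra hcon
    push Not at hcon
    set Bad : Set ℝ := {u | u ∈ Ioo a b ∧ ¬ RSt DO P u ⊆ V} with hBad
    have hBne : Bad.Nonempty := by
      obtain ⟨u, h1, h2⟩ := hcon
      exact ⟨u, h1, h2⟩
    have hbdd : BddBelow Bad := ⟨a, fun u hu => hu.1.1.le⟩
    set s := sInf Bad with hs
    have has : a ≤ s := le_csInf hBne fun u hu => hu.1.1.le
    have hsb : s < b := by
      obtain ⟨u, hu⟩ := hBne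
      exact (csInf_le hbdd hu).trans_lt hu.1.2
    have hgood : ∀ u, a < u → u < s → RSt DO P u ⊆ V := by
      intro u h1 h2
      by_contra h3
      exact absurd (csInf_le hbdd (show u ∈ Bad from ⟨⟨h1, h2.trans hsb⟩, h3⟩)) (not_le.2 h2)
    have hgs : RSt DO P s ⊆ V := by
      rcases has.eq_or_lt with h1 | h1
      · rw [← h1]; exact h0
      · refine hstep s ⟨h1, hsb⟩ fun σ hσ => ?_
        obtain ⟨v, hv, hv'⟩ := ((end_of_lst hσ).and_eventually (Ioo_mem_nhdsLT h1)).exists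
        exact hgood v hv'.1 hv'.2 hv.2
    have h1 : ∀ᶠ v in 𝓝[>] s, RSt DO P v ⊆ V := by
      filter_upwards [ev_RSt (E := DO) (P := P) (u := s)] with v hv σ hσ
      exact hgs (hv σ (Or.inr hσ))
    obtain ⟨c, hc, hsub⟩ := (mem_nhdsGT_iff_exists_Ioo_subset (a := s)).1 h1
    obtain ⟨u, hu, huc⟩ := exists_lt_of_csInf_lt hBne (show sInf Bad < c from hc)
    have hsu : s ≤ u := csInf_le hbdd hu
    rcases hsu.eq_or_lt with h2 | h2
    · rw [← h2] at hu; exact hu.2 hgs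
    · exact hu.2 (hsub ⟨h2, huc⟩)
  intro u hu
  refine ⟨fun σ hσ => ?_, key u hu⟩
  obtain ⟨v, hv, hv'⟩ := ((end_of_lst hσ).and_eventually (Ioo_mem_nhdsLT hu.1)).exists
  exact key v ⟨hv'.1, hv'.2.trans hu.2⟩ hv.2

/-- **The induction for sets of states.** -/
theorem gen_run_all [Finite S] (hab : a < b) (h0 : RSt DO P a ⊆ V)
    (hstep : ∀ u ∈ Ioo a b, LSt DO P u ⊆ V → RSt DO P u ⊆ V) : LSt DO P b ⊆ V := by
  intro σ hσ
  obtain ⟨v, hv, hv'⟩ := ((end_of_lst hσ).and_eventually (Ioo_mem_nhdsLT hab)).exists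
  exact (gen_run_all' h0 hstep v hv').2 hv.2

theorem freq_DO_L {O : Set ℝ} (hO : IsOpen O) (h : ∃ᶠ v in 𝓝[<] u, v ∈ O) : ∃ᶠ v in 𝓝[<] u ⊓ DO, v ∈ O := by
  rw [frequently_iff]
  intro N hN
  obtain ⟨s1, h1, s2, ⟨G, hG, hGo, hGd⟩, hs⟩ := mem_inf_iff_superset.1 hN
  obtain ⟨c, hc, hsub⟩ := (mem_nhdsLT_iff_exists_Ioo_subset (a := u)).1 h1
  obtain ⟨v, hv, hv'⟩ := (h.and_eventually (Ioo_mem_nhdsLT hc)).exists
  obtain ⟨w, hw1, hw2⟩ := dense_iff_inter_open.1 hGd (O ∩ Ioo c u) (hO.inter isOpen_Ioo) ⟨v, hv, hv'⟩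
  exact ⟨w, hs ⟨hsub hw1.2, hG hw2⟩, hw1.1⟩

theorem freq_DO_R {O : Set ℝ} (hO : IsOpen O) (h : ∃ᶠ v in 𝓝[>] u, v ∈ O) : ∃ᶠ v in 𝓝[>] u ⊓ DO, v ∈ O := by
  rw [frequently_iff]
  intro N hN
  obtain ⟨s1, h1, s2, ⟨G, hG, hGo, hGd⟩, hs⟩ := mem_inf_iff_superset.1 hN
  obtain ⟨c, hc, hsub⟩ := (mem_nhdsGT_iff_exists_Ioo_subset (a := u)).1 h1
  obtain ⟨v, hv, hv'⟩ := (h.and_eventually (Ioo_mem_nhdsGT hc)).exists
  obtain ⟨w, hw1, hw2⟩ := dense_iff_inter_open.1 hGd (O ∩ Ioo u c) (hO.inter isOpen_Ioo) ⟨v, hv, hv'⟩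
  exact ⟨w, hs ⟨hsub hw1.2, hG hw2⟩, hw1.1⟩

variable [Finite S] {F : Set ℝ} {Q : S → Prop}

/-- **Sol**, left: a closed property of all left states holds on a left half interval -/
theorem sol_iff_L (hex : ∀ᶠ v in DO, ∃ σ, P v σ) (hF : IsClosed F) (hQ : ∀ v σ, P v σ → (Q σ ↔ v ∈ F)) :
    (∀ σ ∈ LSt DO P u, Q σ) ↔ ∀ᶠ v in 𝓝[<] u, v ∈ F := by
  constructor
  · intro h
    by_contra hcon
    have h1 : ∃ᶠ v in 𝓝[<] u, v ∈ Fᶜ := not_eventually.1 hcon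
    have h2 := (freq_DO_L hF.isOpen_compl h1).and_eventually (hex.filter_mono inf_le_right)
    obtain ⟨σ, hσ⟩ := freq_ex (Q := fun σ v => P v σ ∧ v ∉ F) (h2.mono fun v hv => by
      obtain ⟨σ, hσ⟩ := hv.2
      exact ⟨σ, hσ, hv.1⟩)
    obtain ⟨v, hv⟩ := hσ.exists
    exact hv.2 ((hQ v σ hv.1).1 (h σ (hσ.mono fun _ hw => hw.1)))
  · intro h σ hσ
    have hσ : ∃ᶠ v in 𝓝[<] u ⊓ DO, P v σ := hσ
    obtain ⟨v, hv, hvF⟩ := (hσ.and_eventually (h.filter_mono inf_le_left)).exists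
    exact (hQ v σ hv).2 hvF

/-- **Sol**, right -/
theorem sol_iff_R (hex : ∀ᶠ v in DO, ∃ σ, P v σ) (hF : IsClosed F) (hQ : ∀ v σ, P v σ → (Q σ ↔ v ∈ F)) :
    (∀ σ ∈ RSt DO P u, Q σ) ↔ ∀ᶠ v in 𝓝[>] u, v ∈ F := by
  constructor
  · intro h
    by_contra hcon
    have h1 : ∃ᶠ v in 𝓝[>] u, v ∈ Fᶜ := not_eventually.1 hcon
    have h2 := (freq_DO_R hF.isOpen_compl h1).and_eventually (hex.filter_mono inf_le_right)
    obtain ⟨σ, hσ⟩ := freq_ex (Q := fun σ v => P v σ ∧ v ∉ F) (h2.mono fun v hv => by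
      obtain ⟨σ, hσ⟩ := hv.2
      exact ⟨σ, hσ, hv.1⟩)
    obtain ⟨v, hv⟩ := hσ.exists
    exact hv.2 ((hQ v σ hv.1).1 (h σ (hσ.mono fun _ hw => hw.1)))
  · intro h σ hσ
    have hσ : ∃ᶠ v in 𝓝[>] u ⊓ DO, P v σ := hσ
    obtain ⟨v, hv, hvF⟩ := (hσ.and_eventually (h.filter_mono inf_le_left)).exists
    exact (hQ v σ hv).2 hvF

/-- **App**, left: a property of some left state occurs at generic points arbitrarily close -/
theorem app_iff_L (hex : ∀ᶠ v in DO, ∃ σ, P v σ) (hQ : ∀ v σ, P v σ → (Q σ ↔ v ∈ F)) :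
    (∃ σ ∈ LSt DO P u, Q σ) ↔ ∃ᶠ v in 𝓝[<] u ⊓ DO, v ∈ F := by
  constructor
  · rintro ⟨σ, hσ, h1⟩
    have hσ : ∃ᶠ v in 𝓝[<] u ⊓ DO, P v σ := hσ
    exact hσ.mono fun v hv => (hQ v σ hv).1 h1
  · intro h
    obtain ⟨σ, hσ⟩ := freq_ex (Q := fun σ v => P v σ ∧ v ∈ F)
      ((h.and_eventually (hex.filter_mono inf_le_right)).mono fun v hv => by
        obtain ⟨σ, hσ⟩ := hv.2
        exact ⟨σ, hσ, hv.1⟩)
    obtain ⟨v, hv⟩ := hσ.exists
    exact ⟨σ, hσ.mono fun _ hw => hw.1, (hQ v σ hv.1).2 hv.2⟩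

/-- **App**, right -/
theorem app_iff_R (hex : ∀ᶠ v in DO, ∃ σ, P v σ) (hQ : ∀ v σ, P v σ → (Q σ ↔ v ∈ F)) :
    (∃ σ ∈ RSt DO P u, Q σ) ↔ ∃ᶠ v in 𝓝[>] u ⊓ DO, v ∈ F := by
  constructor
  · rintro ⟨σ, hσ, h1⟩
    have hσ : ∃ᶠ v in 𝓝[>] u ⊓ DO, P v σ := hσ
    exact hσ.mono fun v hv => (hQ v σ hv).1 h1
  · intro h
    obtain ⟨σ, hσ⟩ := freq_ex (Q := fun σ v => P v σ ∧ v ∈ F)
      ((h.and_eventually (hex.filter_mono inf_le_right)).mono fun v hv => by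
        obtain ⟨σ, hσ⟩ := hv.2
        exact ⟨σ, hσ, hv.1⟩)
    obtain ⟨v, hv⟩ := hσ.exists
    exact ⟨σ, hσ.mono fun _ hw => hw.1, (hQ v σ hv.1).2 hv.2⟩

end ind

/-! ### the bits of the gaps -/

section bits
variable {D : Set ℝ} {a b u v : ℝ}

/-- the whole open interval is in `D` -/
def allOn (D : Set ℝ) (a v : ℝ) : Prop := ∀ w ∈ Ioo a v, w ∈ D

/-- the open interval meets `D` -/
def exOn (D : Set ℝ) (a v : ℝ) : Prop := ∃ w ∈ Ioo a v, w ∈ D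

theorem exOn_iff : exOn D a v ↔ ¬ allOn Dᶜ a v := by
  unfold exOn allOn
  push Not
  simp only [mem_compl_iff, not_not]

theorem all_since_L (_ : a < u) : ∀ᶠ v in 𝓝[<] u, (allOn D a v ↔ allOn D a u) := by
  by_cases h : allOn D a u
  · filter_upwards [self_mem_nhdsWithin] with v hv
    exact ⟨fun _ => h, fun _ w hw => h w ⟨hw.1, hw.2.trans hv⟩⟩
  · have h' : ∃ w ∈ Ioo a u, w ∉ D := by unfold allOn at h; push Not at h; exact h
    obtain ⟨w0, h1, h2⟩ := h'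
    filter_upwards [Ioo_mem_nhdsLT h1.2] with v hv
    exact ⟨fun h3 => absurd (h3 w0 ⟨h1.1, hv.1⟩) h2, fun h3 => absurd h3 h⟩

theorem all_since_R (hau : a < u) :
    ∀ᶠ v in 𝓝[>] u, (allOn D a v ↔ allOn D a u ∧ u ∈ D ∧ ∀ᶠ w in 𝓝[>] u, w ∈ D) := by
  have hto : ∀ v, u < v → allOn D a v → allOn D a u ∧ u ∈ D ∧ ∀ᶠ w in 𝓝[>] u, w ∈ D := by
    intro v hv h
    refine ⟨fun w hw => h w ⟨hw.1, hw.2.trans hv⟩, h u ⟨hau, hv⟩, ?_⟩
    filter_upwards [Ioo_mem_nhdsGT hv] with w hw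
    exact h w ⟨hau.trans hw.1, hw.2⟩
  by_cases h : allOn D a u ∧ u ∈ D ∧ ∀ᶠ w in 𝓝[>] u, w ∈ D
  · obtain ⟨c, hc, hs⟩ := (mem_nhdsGT_iff_exists_Ioo_subset (a := u)).1 h.2.2
    filter_upwards [Ioo_mem_nhdsGT hc] with v hv
    refine ⟨fun _ => h, fun _ w hw => ?_⟩
    rcases lt_trichotomy w u with h1 | h1 | h1
    · exact h.1 w ⟨hw.1, h1⟩
    · rw [h1]; exact h.2.1
    · exact hs ⟨h1, hw.2.trans hv.2⟩
  · filter_upwards [self_mem_nhdsWithin] with v hv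
    exact ⟨hto v hv, fun h1 => absurd h1 h⟩

theorem all_start : ∀ᶠ v in 𝓝[>] a, (allOn D a v ↔ ∀ᶠ w in 𝓝[>] a, w ∈ D) := by
  by_cases h : ∀ᶠ w in 𝓝[>] a, w ∈ D
  · obtain ⟨c, hc, hs⟩ := (mem_nhdsGT_iff_exists_Ioo_subset (a := a)).1 h
    filter_upwards [Ioo_mem_nhdsGT hc] with v hv
    exact ⟨fun _ => h, fun _ w hw => hs ⟨hw.1, hw.2.trans hv.2⟩⟩
  · filter_upwards [self_mem_nhdsWithin] with v hv
    refine ⟨fun h1 => ?_, fun h1 => absurd h1 h⟩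
    filter_upwards [Ioo_mem_nhdsGT hv] with w hw
    exact h1 w hw

theorem all_until_R (_ : u < b) : ∀ᶠ v in 𝓝[>] u, (allOn D v b ↔ allOn D u b) := by
  by_cases h : allOn D u b
  · filter_upwards [self_mem_nhdsWithin] with v hv
    exact ⟨fun _ => h, fun _ w hw => h w ⟨lt_trans hv hw.1, hw.2⟩⟩
  · have h' : ∃ w ∈ Ioo u b, w ∉ D := by unfold allOn at h; push Not at h; exact h
    obtain ⟨w0, h1, h2⟩ := h'
    filter_upwards [Ioo_mem_nhdsGT h1.1] with v hv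
    exact ⟨fun h3 => absurd (h3 w0 ⟨hv.2, h1.2⟩) h2, fun h3 => absurd h3 h⟩

theorem all_until_L (hub : u < b) :
    ∀ᶠ v in 𝓝[<] u, (allOn D v b ↔ (∀ᶠ w in 𝓝[<] u, w ∈ D) ∧ u ∈ D ∧ allOn D u b) := by
  have hto : ∀ v, v < u → allOn D v b → (∀ᶠ w in 𝓝[<] u, w ∈ D) ∧ u ∈ D ∧ allOn D u b := by
    intro v hv h
    refine ⟨?_, h u ⟨hv, hub⟩, fun w hw => h w ⟨hv.trans hw.1, hw.2⟩⟩
    filter_upwards [Ioo_mem_nhdsLT hv] with w hw
    exact h w ⟨hw.1, hw.2.trans hub⟩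
  by_cases h : (∀ᶠ w in 𝓝[<] u, w ∈ D) ∧ u ∈ D ∧ allOn D u b
  · obtain ⟨c, hc, hs⟩ := (mem_nhdsLT_iff_exists_Ioo_subset (a := u)).1 h.1
    filter_upwards [Ioo_mem_nhdsLT hc] with v hv
    refine ⟨fun _ => h, fun _ w hw => ?_⟩
    rcases lt_trichotomy w u with h1 | h1 | h1
    · exact hs ⟨hv.1.trans hw.1, h1⟩
    · rw [h1]; exact h.2.1
    · exact h.2.2 w ⟨h1, hw.2⟩
  · filter_upwards [self_mem_nhdsWithin] with v hv
    exact ⟨hto v hv, fun h1 => absurd h1 h⟩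

theorem all_end : ∀ᶠ v in 𝓝[<] b, (allOn D v b ↔ ∀ᶠ w in 𝓝[<] b, w ∈ D) := by
  by_cases h : ∀ᶠ w in 𝓝[<] b, w ∈ D
  · obtain ⟨c, hc, hs⟩ := (mem_nhdsLT_iff_exists_Ioo_subset (a := b)).1 h
    filter_upwards [Ioo_mem_nhdsLT hc] with v hv
    exact ⟨fun _ => h, fun _ w hw => hs ⟨hv.1.trans hw.1, hw.2⟩⟩
  · filter_upwards [self_mem_nhdsWithin] with v hv
    refine ⟨fun h1 => ?_, fun h1 => absurd h1 h⟩
    filter_upwards [Ioo_mem_nhdsLT hv] with w hw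
    exact h1 w hw

theorem ex_since_L (hau : a < u) : ∀ᶠ v in 𝓝[<] u, (exOn D a v ↔ exOn D a u) := by
  filter_upwards [all_since_L (D := Dᶜ) hau] with v hv
  rw [exOn_iff, exOn_iff, hv]

theorem ex_since_R (hau : a < u) :
    ∀ᶠ v in 𝓝[>] u, (exOn D a v ↔ exOn D a u ∨ u ∈ D ∨ ∃ᶠ w in 𝓝[>] u, w ∈ D) := by
  filter_upwards [all_since_R (D := Dᶜ) hau] with v hv
  rw [exOn_iff, exOn_iff, hv]
  simp only [mem_compl_iff, Filter.Frequently]
  tauto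

theorem ex_start : ∀ᶠ v in 𝓝[>] a, (exOn D a v ↔ ∃ᶠ w in 𝓝[>] a, w ∈ D) := by
  filter_upwards [all_start (D := Dᶜ) (a := a)] with v hv
  rw [exOn_iff, hv]
  rfl

theorem ex_until_R (hub : u < b) : ∀ᶠ v in 𝓝[>] u, (exOn D v b ↔ exOn D u b) := by
  filter_upwards [all_until_R (D := Dᶜ) hub] with v hv
  rw [exOn_iff, exOn_iff, hv]

theorem ex_until_L (hub : u < b) :
    ∀ᶠ v in 𝓝[<] u, (exOn D v b ↔ (∃ᶠ w in 𝓝[<] u, w ∈ D) ∨ u ∈ D ∨ exOn D u b) := by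
  filter_upwards [all_until_L (D := Dᶜ) hub] with v hv
  rw [exOn_iff, exOn_iff, hv]
  simp only [mem_compl_iff, Filter.Frequently]
  tauto

theorem ex_end : ∀ᶠ v in 𝓝[<] b, (exOn D v b ↔ ∃ᶠ w in 𝓝[<] b, w ∈ D) := by
  filter_upwards [all_end (D := Dᶜ) (b := b)] with v hv
  rw [exOn_iff, hv]
  rfl

end bits

/-! ### the states -/

section states
variable {U : Fin 6 → Set ℂ} {T : ℂ → Set (Fin 6)} {M M' : Type*} {X : M → ℂ} {off : M → ℝ} {X' : M' → ℂ}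
  {off' : M' → ℝ} {u v : ℝ} {σ : M → Set (Fin 6) × Set (Fin 6)} {c : Fin 6} {i : M}

/-- inner and outer colour sets of all nodes at the time `v` -/
def IPs (U : Fin 6 → Set ℂ) (T : ℂ → Set (Fin 6)) {M : Type*} (X : M → ℂ) (off : M → ℝ) (v : ℝ)
    (σ : M → Set (Fin 6) × Set (Fin 6)) : Prop := ∀ i, IP U T (X i) (v + off i) (σ i).1 (σ i).2

/-- an upper semicontinuous function is locally constant at almost all points -/
theorem usc_DO (f : ℝ → Set (Fin 6)) (hf : ∀ s, ∀ᶠ v in 𝓝 s, f v ⊆ f s) :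
    ∀ᶠ v in DO, ∀ᶠ w in 𝓝 v, f w = f v := by
  refine mem_DO (G := {v : ℝ | ∀ᶠ w in 𝓝 v, f w = f v}) ?_ ?_
  · rw [isOpen_iff_mem_nhds]
    intro v hv
    have hv : ∀ᶠ w in 𝓝 v, f w = f v := hv
    filter_upwards [hv.eventually_nhds, hv] with w h1 h2
    show ∀ᶠ w' in 𝓝 w, f w' = f w
    filter_upwards [h1] with w' h3
    rw [h3, h2]
  · intro v
    filter_upwards [self_mem_nhdsWithin] with c hc
    have hc : v < c := hc
    obtain ⟨τ, hτ, h2⟩ := usc_loc (ι := Unit) (fun _ => f) (fun _ => hf) (isOpen_Ioo (a := v) (b := c))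
      (nonempty_Ioo.2 hc)
    exact ⟨τ, h2 (), hτ⟩

theorem usc_DO' {g : ℝ → Set (Fin 6)} (hg : ∀ s, ∀ᶠ v in 𝓝 s, g v ⊆ g s) (o : ℝ) :
    ∀ᶠ v in DO, ∀ᶠ w in 𝓝 (v + o), g w = g (v + o) := by
  have h1 := usc_DO (fun v => g (v + o)) fun s => (tendsto_add_o s o).eventually (hg (s + o))
  filter_upwards [h1] with v hv
  filter_upwards [(tendsto_sub_o v o).eventually hv] with w hw
  rwa [sub_add_cancel] at hw

/-- **existence of the states** -/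
theorem ips_DO (h : Irr U T) [Finite M] (X : M → ℂ) (off : M → ℝ) : ∀ᶠ v in DO, ∃ σ, IPs U T X off v σ := by
  have h1 : ∀ᶠ v in DO, ∀ i, (∀ᶠ w in 𝓝 (v + off i), T (pt (X i) w) = T (pt (X i) (v + off i))) ∧
      (∀ᶠ w in 𝓝 (v + off i), Ins T (X i) w = Ins T (X i) (v + off i)) ∧
      ∀ᶠ w in 𝓝 (v + off i), Ots T (X i) w = Ots T (X i) (v + off i) := by
    refine eventually_all.2 fun i => ?_
    have hc : Continuous fun v : ℝ => pt (X i) v := continuous_pt (X i)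
    exact (usc_DO' (g := fun v => T (pt (X i) v)) (fun s => (hc.tendsto s).eventually (h.nhd _)) (off i)).and
      ((usc_DO' (usc_ins T (X i)) (off i)).and (usc_DO' (usc_ots T (X i)) (off i)))
  filter_upwards [h1] with v hv
  exact ⟨fun i => (Ins T (X i) (v + off i), Ots T (X i) (v + off i)),
    fun i => ⟨(hv i).1, fun p => Iff.rfl, fun p => Iff.rfl, (hv i).2.1, (hv i).2.2⟩⟩

theorem ip_unique {x : ℂ} {s : ℝ} {P Q P' Q' : Set (Fin 6)} (I : IP U T x s P Q) (I' : IP U T x s P' Q') :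
    P = P' ∧ Q = Q' :=
  ⟨Set.ext fun p => (I.inn p).trans (I'.inn p).symm, Set.ext fun p => (I.out p).trans (I'.out p).symm⟩

theorem ips_unique {σ' : M → Set (Fin 6) × Set (Fin 6)} (h1 : IPs U T X off v σ) (h2 : IPs U T X off v σ') :
    σ = σ' := by
  funext i
  obtain ⟨e1, e2⟩ := ip_unique (h1 i) (h2 i)
  exact Prod.ext e1 e2

theorem ips_mem (h : Irr U T) (hI : IPs U T X off v σ) :
    c ∈ (σ i).1 ∪ (σ i).2 ↔ c ∈ T (pt (X i) (v + off i)) := by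
  rw [(hI i).union h]

/-- the directions (moved by `off`) with the colour `c` -/
def dirT (T : ℂ → Set (Fin 6)) (x : ℂ) (o : ℝ) (c : Fin 6) : Set ℝ := {v | c ∈ T (pt x (v + o))}

theorem dirT_closed (h : Irr U T) (x : ℂ) (o : ℝ) (c : Fin 6) : IsClosed (dirT T x o c) :=
  (h.closed c).preimage ((continuous_pt x).comp (by fun_prop))

/-- **solid half arc, left** -/
theorem sol_arc_L (h : Irr U T) [Finite M] (i : M) (c : Fin 6) :
    (∀ σ ∈ LSt DO (IPs U T X off) u, c ∈ (σ i).1 ∪ (σ i).2) ↔ ∀ᶠ v in 𝓝[<] u, c ∈ T (pt (X i) (v + off i)) :=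
  sol_iff_L (F := dirT T (X i) (off i) c) (ips_DO h X off) (dirT_closed h _ _ _)
    fun _ _ hv => ips_mem h hv

/-- **solid half arc, right** -/
theorem sol_arc_R (h : Irr U T) [Finite M] (i : M) (c : Fin 6) :
    (∀ σ ∈ RSt DO (IPs U T X off) u, c ∈ (σ i).1 ∪ (σ i).2) ↔ ∀ᶠ v in 𝓝[>] u, c ∈ T (pt (X i) (v + off i)) :=
  sol_iff_R (F := dirT T (X i) (off i) c) (ips_DO h X off) (dirT_closed h _ _ _)
    fun _ _ hv => ips_mem h hv

/-- a colour of no left state is absent at generic points; its closed set is nowhere dense there -/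
theorem app_arc_L (h : Irr U T) [Finite M] (i : M) (c : Fin 6) :
    (∃ σ ∈ LSt DO (IPs U T X off) u, c ∈ (σ i).1 ∪ (σ i).2) ↔
      ∃ᶠ v in 𝓝[<] u ⊓ DO, c ∈ T (pt (X i) (v + off i)) :=
  app_iff_L (F := dirT T (X i) (off i) c) (ips_DO h X off) fun _ _ hv => ips_mem h hv

theorem app_arc_R (h : Irr U T) [Finite M] (i : M) (c : Fin 6) :
    (∃ σ ∈ RSt DO (IPs U T X off) u, c ∈ (σ i).1 ∪ (σ i).2) ↔
      ∃ᶠ v in 𝓝[>] u ⊓ DO, c ∈ T (pt (X i) (v + off i)) :=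
  app_iff_R (F := dirT T (X i) (off i) c) (ips_DO h X off) fun _ _ hv => ips_mem h hv

/-- a right state is a family -/
theorem rst_famP (hσ : σ ∈ RSt DO (IPs U T X off) u) :
    FamP U T (𝓝[>] 0) X (fun i => u + off i) (fun i => (σ i).1) (fun i => (σ i).2) := by
  have h1 : ∃ᶠ v in 𝓝[>] u, IPs U T X off v σ := hσ.filter_mono inf_le_left
  have h2 : ∃ᶠ τ in 𝓝[>] (0 : ℝ), IPs U T X off (u + τ) σ := by
    refine to_R'.frequently (h1.mono fun v hv => ?_)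
    rwa [add_sub_cancel]
  refine h2.mono fun τ hτ i => ?_
  have := hτ i
  rwa [show u + τ + off i = u + off i + τ by ring] at this

/-- a left state is a family -/
theorem lst_famP (hσ : σ ∈ LSt DO (IPs U T X off) u) :
    FamP U T (𝓝[<] 0) X (fun i => u + off i) (fun i => (σ i).1) (fun i => (σ i).2) := by
  have h1 : ∃ᶠ v in 𝓝[<] u, IPs U T X off v σ := hσ.filter_mono inf_le_left
  have h2 : ∃ᶠ τ in 𝓝[<] (0 : ℝ), IPs U T X off (u + τ) σ := by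
    refine to_L'.frequently (h1.mono fun v hv => ?_)
    rwa [add_sub_cancel]
  refine h2.mono fun τ hτ i => ?_
  have := hτ i
  rwa [show u + τ + off i = u + off i + τ by ring] at this

/-- nodes of `M` are nodes of `M'` -/
theorem ips_restrict {e : M → M'} (he : ∀ i, X' (e i) = X i ∧ ∃ n : ℤ, off' (e i) = off i + 6 * n)
    {σ' : M' → Set (Fin 6) × Set (Fin 6)} (h' : IPs U T X' off' v σ') : IPs U T X off v (fun i => σ' (e i)) := by
  intro i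
  obtain ⟨h1, n, h2⟩ := he i
  have h3 := (h' (e i)).per (-n)
  rw [h1, h2, show v + (off i + 6 * (n : ℝ)) + 6 * ((-n : ℤ) : ℝ) = v + off i by push_cast; ring] at h3
  exact h3

/-- **extension of a right state to further nodes** -/
theorem ext_RW (h : Irr U T) [Finite M'] {e : M → M'}
    (he : ∀ i, X' (e i) = X i ∧ ∃ n : ℤ, off' (e i) = off i + 6 * n) (hσ : σ ∈ RSt DO (IPs U T X off) u) :
    ∃ σ' ∈ RSt DO (IPs U T X' off') u, ∀ i, σ' (e i) = σ i := by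
  have hσ : ∃ᶠ v in 𝓝[>] u ⊓ DO, IPs U T X off v σ := hσ
  obtain ⟨σ', h1⟩ := freq_ex (Q := fun σ' v => IPs U T X off v σ ∧ IPs U T X' off' v σ')
    ((hσ.and_eventually ((ips_DO h X' off').filter_mono inf_le_right)).mono fun v hv => by
      obtain ⟨σ', h2⟩ := hv.2
      exact ⟨σ', hv.1, h2⟩)
  obtain ⟨v, h2, h3⟩ := h1.exists
  exact ⟨σ', h1.mono fun _ h => h.2, fun i => congrFun (ips_unique (ips_restrict he h3) h2) i⟩

/-- **extension of a left state to further nodes** -/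
theorem ext_LW (h : Irr U T) [Finite M'] {e : M → M'}
    (he : ∀ i, X' (e i) = X i ∧ ∃ n : ℤ, off' (e i) = off i + 6 * n) (hσ : σ ∈ LSt DO (IPs U T X off) u) :
    ∃ σ' ∈ LSt DO (IPs U T X' off') u, ∀ i, σ' (e i) = σ i := by
  have hσ : ∃ᶠ v in 𝓝[<] u ⊓ DO, IPs U T X off v σ := hσ
  obtain ⟨σ', h1⟩ := freq_ex (Q := fun σ' v => IPs U T X off v σ ∧ IPs U T X' off' v σ')
    ((hσ.and_eventually ((ips_DO h X' off').filter_mono inf_le_right)).mono fun v hv => by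
      obtain ⟨σ', h2⟩ := hv.2
      exact ⟨σ', hv.1, h2⟩)
  obtain ⟨v, h2, h3⟩ := h1.exists
  exact ⟨σ', h1.mono fun _ h => h.2, fun i => congrFun (ips_unique (ips_restrict he h3) h2) i⟩

/-- restriction of one sided states -/
theorem sub_RW {e : M → M'} (he : ∀ i, X' (e i) = X i ∧ ∃ n : ℤ, off' (e i) = off i + 6 * n)
    {σ' : M' → Set (Fin 6) × Set (Fin 6)} (hσ : σ' ∈ RSt DO (IPs U T X' off') u) :
    (fun i => σ' (e i)) ∈ RSt DO (IPs U T X off) u := by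
  have hσ : ∃ᶠ v in 𝓝[>] u ⊓ DO, IPs U T X' off' v σ' := hσ
  exact hσ.mono fun v hv => ips_restrict he hv

theorem sub_LW {e : M → M'} (he : ∀ i, X' (e i) = X i ∧ ∃ n : ℤ, off' (e i) = off i + 6 * n)
    {σ' : M' → Set (Fin 6) × Set (Fin 6)} (hσ : σ' ∈ LSt DO (IPs U T X' off') u) :
    (fun i => σ' (e i)) ∈ LSt DO (IPs U T X off) u := by
  have hσ : ∃ᶠ v in 𝓝[<] u ⊓ DO, IPs U T X' off' v σ' := hσ
  exact hσ.mono fun v hv => ips_restrict he hv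

/-! ### solid arcs -/

theorem allOn_Icc {D : Set ℝ} {a b : ℝ} (hD : IsClosed D) (hab : a < b) (h : allOn D a b) :
    ∀ w ∈ Icc a b, w ∈ D := by
  intro w hw
  rw [← closure_Ioo hab.ne] at hw
  exact closure_minimal h hD hw

/-- a gap bit of `dirT` is a solid closed arc -/
theorem arc_of_allOn (h : Irr U T) {x : ℂ} {o a b : ℝ} (hab : a < b) (h1 : allOn (dirT T x o c) a b) :
    ∀ s ∈ Icc (a + o) (b + o), c ∈ Pal U (pt x s) := by
  intro s hs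
  have h2 := allOn_Icc (dirT_closed h x o c) hab h1 (s - o) ⟨by linarith [hs.1], by linarith [hs.2]⟩
  have h3 : c ∈ T (pt x (s - o + o)) := h2
  rw [sub_add_cancel] at h3
  exact h.sub _ h3

/-- a solid half arc before `u + o` -/
theorem half_L (h : Irr U T) {x : ℂ} {o : ℝ} (hs : ∀ᶠ v in 𝓝[<] u, c ∈ T (pt x (v + o))) :
    ∃ a < u + o, ∀ s ∈ Icc a (u + o), c ∈ Pal U (pt x s) := by
  obtain ⟨d, hd, hsub⟩ := (mem_nhdsLT_iff_exists_Ioo_subset (a := u)).1 hs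
  have hd : d < u := hd
  exact ⟨d + o, by linarith, arc_of_allOn h hd fun w hw => hsub hw⟩

/-- a solid half arc after `u + o` -/
theorem half_R (h : Irr U T) {x : ℂ} {o : ℝ} (hs : ∀ᶠ v in 𝓝[>] u, c ∈ T (pt x (v + o))) :
    ∃ b > u + o, ∀ s ∈ Icc (u + o) b, c ∈ Pal U (pt x s) := by
  obtain ⟨d, hd, hsub⟩ := (mem_nhdsGT_iff_exists_Ioo_subset (a := u)).1 hs
  have hd : u < d := hd
  exact ⟨d + o, by linarith, arc_of_allOn h hd fun w hw => hsub hw⟩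

/-- **ARC** for a solid letter before `u + o`, near case: `y = pt x (u + o)`, unit neighbour `y + dir s` -/
theorem sol_near_L (h : Irr U T) {x : ℂ} {o s : ℝ} (hs : ∀ᶠ v in 𝓝[<] u, c ∈ T (pt x (v + o)))
    (hn : Real.sin ((s - (u + o)) * (Real.pi / 3)) < 0) :
    ∀ᶠ w in 𝓝 (pt x (u + o) + dir s), w ∈ U c → dist w (pt x (u + o)) < 1 := by
  obtain ⟨a, ha, hF⟩ := half_L h hs
  exact arc_near' h ha hF hn

theorem sol_far_L (h : Irr U T) {x : ℂ} {o s : ℝ} (hs : ∀ᶠ v in 𝓝[<] u, c ∈ T (pt x (v + o)))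
    (hn : 0 < Real.sin ((s - (u + o)) * (Real.pi / 3)) ∨ dir s = dir (u + o)) :
    ∀ᶠ w in 𝓝 (pt x (u + o) + dir s), w ∈ U c → 1 < dist w (pt x (u + o)) := by
  obtain ⟨a, ha, hF⟩ := half_L h hs
  exact arc_far' h ha hF hn

/-- **ARC** for a solid letter after `u + o` -/
theorem sol_near_R (h : Irr U T) {x : ℂ} {o s : ℝ} (hs : ∀ᶠ v in 𝓝[>] u, c ∈ T (pt x (v + o)))
    (hn : 0 < Real.sin ((s - (u + o)) * (Real.pi / 3))) :
    ∀ᶠ w in 𝓝 (pt x (u + o) + dir s), w ∈ U c → dist w (pt x (u + o)) < 1 := by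
  obtain ⟨b, hb, hF⟩ := half_R h hs
  exact arc_near h hb hF hn

theorem sol_far_R (h : Irr U T) {x : ℂ} {o s : ℝ} (hs : ∀ᶠ v in 𝓝[>] u, c ∈ T (pt x (v + o)))
    (hn : Real.sin ((s - (u + o)) * (Real.pi / 3)) < 0 ∨ dir s = dir (u + o)) :
    ∀ᶠ w in 𝓝 (pt x (u + o) + dir s), w ∈ U c → 1 < dist w (pt x (u + o)) := by
  obtain ⟨b, hb, hF⟩ := half_R h hs
  exact arc_far h hb hF hn

/-! ### the machine with bits -/

variable {S B : Type*}

/-- states with bits -/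
def PB (P : ℝ → S → Prop) (bit : ℝ → B → Prop) (v : ℝ) (σ : S × (B → Prop)) : Prop :=
  P v σ.1 ∧ σ.2 = bit v

theorem mem_lst_bits {P : ℝ → S → Prop} {bit : ℝ → B → Prop} {βL β : B → Prop} {s : S}
    (hβ : ∀ᶠ v in 𝓝[<] u, bit v = βL) :
    (s, β) ∈ LSt DO (PB P bit) u ↔ s ∈ LSt DO P u ∧ β = βL := by
  constructor
  · intro hs
    have hs : ∃ᶠ v in 𝓝[<] u ⊓ DO, PB P bit v (s, β) := hs
    refine ⟨hs.mono fun v hv => hv.1, ?_⟩
    obtain ⟨v, h1, h2⟩ := (hs.and_eventually (hβ.filter_mono inf_le_left)).exists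
    rw [← h2]; exact h1.2
  · rintro ⟨hs, rfl⟩
    have hs : ∃ᶠ v in 𝓝[<] u ⊓ DO, P v s := hs
    exact (hs.and_eventually (hβ.filter_mono inf_le_left)).mono fun v hv => ⟨hv.1, hv.2.symm⟩

theorem mem_rst_bits {P : ℝ → S → Prop} {bit : ℝ → B → Prop} {βR β : B → Prop} {s : S}
    (hβ : ∀ᶠ v in 𝓝[>] u, bit v = βR) :
    (s, β) ∈ RSt DO (PB P bit) u ↔ s ∈ RSt DO P u ∧ β = βR := by
  constructor
  · intro hs
    have hs : ∃ᶠ v in 𝓝[>] u ⊓ DO, PB P bit v (s, β) := hs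
    refine ⟨hs.mono fun v hv => hv.1, ?_⟩
    obtain ⟨v, h1, h2⟩ := (hs.and_eventually (hβ.filter_mono inf_le_left)).exists
    rw [← h2]; exact h1.2
  · rintro ⟨hs, rfl⟩
    have hs : ∃ᶠ v in 𝓝[>] u ⊓ DO, P v s := hs
    exact (hs.and_eventually (hβ.filter_mono inf_le_left)).mono fun v hv => ⟨hv.1, hv.2.symm⟩

/-- **The machine with letters and bits**: `bL u`, `bR u` are the values of the bits just before and just after `u`. -/
theorem wild_run [Finite S] [Finite B] {P : ℝ → S → Prop} {bit bL bR : ℝ → B → Prop} {a b : ℝ} (hab : a < b)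
    (hbL : ∀ u ∈ Ioc a b, ∀ᶠ v in 𝓝[<] u, bit v = bL u) (hbR : ∀ u ∈ Ico a b, ∀ᶠ v in 𝓝[>] u, bit v = bR u)
    (V : S → (B → Prop) → Prop) (h0 : ∀ s ∈ RSt DO P a, V s (bR a))
    (hstep : ∀ u ∈ Ioo a b, (∀ s ∈ LSt DO P u, V s (bL u)) → ∀ s ∈ RSt DO P u, V s (bR u)) :
    ∀ s ∈ LSt DO P b, V s (bL b) := by
  have key := gen_run_all (P := PB P bit) (V := {σ : S × (B → Prop) | V σ.1 σ.2}) hab (fun σ hσ => by
      obtain ⟨h1, h2⟩ := (mem_rst_bits (hbR a ⟨le_rfl, hab⟩)).1 (show (σ.1, σ.2) ∈ _ from hσ)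
      show V σ.1 σ.2
      rw [h2]; exact h0 _ h1) (fun u hu hL σ hσ => by
      obtain ⟨h1, h2⟩ := (mem_rst_bits (hbR u ⟨hu.1.le, hu.2⟩)).1 (show (σ.1, σ.2) ∈ _ from hσ)
      show V σ.1 σ.2
      rw [h2]
      exact hstep u hu (fun s hs => hL ((mem_lst_bits (hbL u ⟨hu.1, hu.2.le⟩)).2 ⟨hs, rfl⟩)) _ h1)
  intro s hs
  exact key ((mem_lst_bits (hbL b ⟨hab, le_rfl⟩)).2 ⟨hs, rfl⟩)

end states

end Vale.Agent.P032.H892
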