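import Vale.Agent.P032.H892.Facts
import Vale.Agent.P032.H183.Star22

/-!
# P032: a centre which violates L2 has a special point

`not_L2at` : if the two-pair centre `z` has exactly one clean end `v` and exactly one clean end `q` of complementary
types, then `S(z)` has a four-coloured point `y` of one of the kinds: `Sp1` (an end, containing the palette of `v`, of the
closure of the exact arcs of the type of `v`), the same for `q`, `Sp2` (`T y = T z`, in the closures of the exact arcs
of both types), `SwE` (`y` and a neighbour of `y` on `S(z)` both carry the two colours missing at `z`), `SwP` (`y` and a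
neighbour of `y` are in the closure of the exact arcs of one kind and have a common colour missing at `z`).
-/

open Set Filter Topology Metric

noncomputable section

namespace Vale.Agent.P032.H892

open Vale.Agent.P032.Six Vale.Agent.P032.Words Vale.Agent.P032.S5.H767 Vale.Agent.P032.S5.H349
  Vale.Agent.P032.H757 Vale.Agent.P032.H183

variable {U : Fin 6 → Set ℂ} {T : ℂ → Set (Fin 6)} {X : Set (Fin 6)} {z v q y : ℂ}
  {a b c d e f : Fin 6}

/-- a four-coloured point of `S(z)` with the palette `X` and one more colour, in the closure of the exact arcs with the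
pair `T z ∩ X` -/
def Sp1 (T : ℂ → Set (Fin 6)) (z : ℂ) (X : Set (Fin 6)) (y : ℂ) : Prop :=
  dist y z = 1 ∧ (T y).ncard = 4 ∧ X ⊆ T y ∧ y ∈ closure (Ex T z (T z ∩ X))

/-- a point of `S(z)` with the palette of `z`, in the closures of the exact arcs of both kinds -/
def Sp2 (T : ℂ → Set (Fin 6)) (z : ℂ) (X : Set (Fin 6)) (y : ℂ) : Prop :=
  dist y z = 1 ∧ T y = T z ∧ y ∈ closure (Ex T z (T z ∩ X)) ∧ y ∈ closure (Ex T z (T z ∩ Xᶜ))

/-- a four-coloured point of `S(z)`, such that it and a neighbour carry both colours which are missing at `z` -/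
def SwE (T : ℂ → Set (Fin 6)) (z y : ℂ) : Prop :=
  dist y z = 1 ∧ (T y).ncard = 4 ∧ (T z)ᶜ ⊆ T y ∧
    ∃ y', dist y' z = 1 ∧ dist y y' = 1 ∧ (T z)ᶜ ⊆ T y'

/-- a four-coloured point of `S(z)` in the closure of the exact `P`-arcs, with a neighbour of the same kind and a common
colour missing at `z` -/
def SwP (T : ℂ → Set (Fin 6)) (z : ℂ) (P : Set (Fin 6)) (y : ℂ) : Prop :=
  dist y z = 1 ∧ (T y).ncard = 4 ∧ y ∈ closure (Ex T z P) ∧
    ∃ y', dist y y' = 1 ∧ y' ∈ closure (Ex T z P) ∧ ∃ x, x ∉ T z ∧ x ∈ T y ∧ x ∈ T y'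

/-- special points for the types `X`, `Xᶜ` -/
def SpX (T : ℂ → Set (Fin 6)) (z : ℂ) (X : Set (Fin 6)) (y : ℂ) : Prop :=
  Sp1 T z X y ∨ Sp1 T z Xᶜ y ∨ Sp2 T z X y ∨ SwE T z y ∨ SwP T z (T z ∩ X) y ∨ SwP T z (T z ∩ Xᶜ) y

/-- the colours missing at a centre -/
theorem Ctr.compl (C : Ctr U T z a b c d e f) : (T z)ᶜ = {e, f} := by
  obtain ⟨⟨ab, ac, ad, ae, af⟩, ⟨bc, bd, be, bf⟩, ⟨cd, ce, cf⟩, ⟨de, df⟩, ef⟩ := nd_ne C.nd
  ext i
  constructor
  · exact fun hi => C.miss hi
  · rintro (rfl | rfl)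
    · rw [C.pal]
      simp only [mem_compl_iff, mem_insert_iff, mem_singleton_iff, not_or]
      exact ⟨ae.symm, be.symm, ce.symm, de.symm⟩
    · rw [C.pal]
      simp only [mem_compl_iff, mem_insert_iff, mem_singleton_iff, not_or]
      exact ⟨af.symm, bf.symm, cf.symm, df.symm⟩

/-- **A centre which violates L2.** -/
theorem third_or_special (h : Irr U T) (h4 : ∀ z, (T z).ncard ≤ 4) (hv : EE T z v) (hq : EE T z q)
    (hc : T q = (T v)ᶜ) :
    ((∃ v', v' ≠ v ∧ EE T z v' ∧ T v' = T v) ∨ ∃ q', q' ≠ q ∧ EE T z q' ∧ T q' = T q) ∨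
      ∃ y, SpX T z (T v) y := by
  by_contra hcon
  rw [not_or] at hcon
  obtain ⟨hcon, hsp⟩ := hcon
  rw [not_or] at hcon
  obtain ⟨hu, hu'⟩ := hcon
  push Not at hu hu' hsp
  have hcv : T v = (T q)ᶜ := by rw [hc, compl_compl]
  obtain ⟨a, b, c, d, e, f, C, hX, hXc⟩ := exists_ctr h hv.card_v (hv.pairs h rfl) (hv.en rfl)
    (hq.en hc)
  obtain ⟨⟨ab, ac, ad, ae, af⟩, ⟨bc, bd, be, bf⟩, ⟨cd, ce, cf⟩, ⟨de, df⟩, ef⟩ := nd_ne C.nd
  have hP : T z ∩ T v = {a, b} := by
    rw [C.pal, hX]
    ext i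
    simp only [mem_inter_iff, mem_insert_iff, mem_singleton_iff]
    constructor
    · rintro ⟨h1, h2⟩
      rcases h2 with rfl | rfl | rfl
      · exact Or.inl rfl
      · exact Or.inr rfl
      · rcases h1 with h1 | h1 | h1 | h1
        exacts [Or.inl h1, Or.inr h1, absurd h1.symm ce, absurd h1.symm de]
    · rintro (rfl | rfl)
      · exact ⟨Or.inl rfl, Or.inl rfl⟩
      · exact ⟨Or.inr (Or.inl rfl), Or.inr (Or.inl rfl)⟩
  have hQ : T z ∩ (T v)ᶜ = {c, d} := by
    rw [C.pal, hXc]
    ext i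
    simp only [mem_inter_iff, mem_insert_iff, mem_singleton_iff]
    constructor
    · rintro ⟨h1, h2⟩
      rcases h2 with rfl | rfl | rfl
      · exact Or.inl rfl
      · exact Or.inr rfl
      · rcases h1 with h1 | h1 | h1 | h1
        exacts [absurd h1.symm af, absurd h1.symm bf, Or.inl h1, Or.inr h1]
    · rintro (rfl | rfl)
      · exact ⟨Or.inr (Or.inr (Or.inl rfl)), Or.inl rfl⟩
      · exact ⟨Or.inr (Or.inr (Or.inr rfl)), Or.inr (Or.inl rfl)⟩
  have hE := Ctr.compl C
  -- four-coloured points with the colours of `A` and `e`, of `C` and `f`, of `A` and `C`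
  have sA : ∀ y, y ∈ Lt T z a b c d e f 2 → e ∈ T y → 4 ≤ (T y).ncard → False := by
    intro y h1 h2 h3
    refine hsp y (Or.inl ⟨Lt_dist h1, le_antisymm (h4 y) h3, ?_, by rw [hP]; exact h1⟩)
    have k := Lt_col C.irr h1
    rw [hX]
    rintro i (rfl | rfl | rfl)
    · exact k (Or.inl rfl)
    · exact k (Or.inr rfl)
    · exact h2
  have sC : ∀ y, y ∈ Lt T z a b c d e f 3 → f ∈ T y → 4 ≤ (T y).ncard → False := by
    intro y h1 h2 h3
    refine hsp y (Or.inr (Or.inl ⟨Lt_dist h1, le_antisymm (h4 y) h3, ?_, by rw [hQ]; exact h1⟩))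
    have k := Lt_col C.irr h1
    rw [hXc]
    rintro i (rfl | rfl | rfl)
    · exact k (Or.inl rfl)
    · exact k (Or.inr rfl)
    · exact h2
  have sAC : ∀ y, y ∈ Lt T z a b c d e f 2 → y ∈ Lt T z a b c d e f 3 → False := by
    intro y h1 h2
    refine hsp y (Or.inr (Or.inr (Or.inl ⟨Lt_dist h1, ?_, by rw [hP]; exact h1,
      by rw [hQ]; exact h2⟩)))
    have k := Lt_col C.irr h1
    have k' := Lt_col C.irr h2
    have hsub : T z ⊆ T y := by
      rw [C.pal]
      rintro i (rfl | rfl | rfl | rfl)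
      · exact k (Or.inl rfl)
      · exact k (Or.inr rfl)
      · exact k' (Or.inl rfl)
      · exact k' (Or.inr rfl)
    exact (Set.eq_of_subset_of_ncard_le hsub ((h4 y).trans hv.card_z.ge) (Set.toFinite _)).symm
  -- clean points
  have clA : ∀ y, y ∈ Lt T z a b c d e f 2 → e ∈ T y → y = v := by
    intro y h1 h2
    by_contra hne
    have h3 : (T y).ncard ≤ 3 := by
      by_contra hcon
      push Not at hcon
      exact sA y h1 h2 hcon
    have k := Lt_col C.irr h1
    have hT : T y = T v := by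
      symm
      refine Set.eq_of_subset_of_ncard_le ?_ (by rw [hv.card_v]; exact h3) (Set.toFinite _)
      rw [hX]
      rintro i (rfl | rfl | rfl)
      · exact k (Or.inl rfl)
      · exact k (Or.inr rfl)
      · exact h2
    exact hu y hne (hv.auto h h4 hq hc (Lt_dist h1) hT) hT
  have clC : ∀ y, y ∈ Lt T z a b c d e f 3 → f ∈ T y → y = q := by
    intro y h1 h2
    by_contra hne
    have h3 : (T y).ncard ≤ 3 := by
      by_contra hcon
      push Not at hcon
      exact sC y h1 h2 hcon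
    have k := Lt_col C.irr h1
    have hT : T y = T q := by
      symm
      refine Set.eq_of_subset_of_ncard_le ?_ (by rw [hq.card_v]; exact h3) (Set.toFinite _)
      rw [hc, hXc]
      rintro i (rfl | rfl | rfl)
      · exact k (Or.inl rfl)
      · exact k (Or.inr rfl)
      · exact h2
    exact hu' y hne (hq.auto h h4 hv hcv (Lt_dist h1) hT) hT
  refine Ctr.L2g C (fun y _ => h4 y) v q hv.card_v.le ?_ ?_
  · rintro y (⟨h1, h2⟩ | ⟨h1, h2⟩ | ⟨h1, h2⟩)
    · exact Or.inl (clA y h2 h1.2)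
    · exact Or.inr (clC y h2 h1.2)
    · exact (sAC y h1 h2).elim
  · -- exchanges
    intro y y' hS
    have key : ∀ y y' : ℂ, dist y y' = 1 → 4 ≤ (T y).ncard →
        (∃ l m : Fin 4, l ≠ m ∧ y ∈ Lt T z a b c d e f l ∧ y ∈ Lt T z a b c d e f m ∧
        y' ∈ Lt T z a b c d e f l ∧ y' ∈ Lt T z a b c d e f m) → False := by
      rintro y y' hyy h5 ⟨l, m, hlm, k1, k2, k3, k4⟩
      have he : e ∉ T z := fun h => (by
        have : e ∈ (T z)ᶜ := by rw [hE]; simp
        exact this h)
      have hf : f ∉ T z := fun h => (by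
        have : f ∈ (T z)ᶜ := by rw [hE]; simp
        exact this h)
      have hef : y ∈ Lt T z a b c d e f 0 → y ∈ Lt T z a b c d e f 1 →
          y' ∈ Lt T z a b c d e f 0 → y' ∈ Lt T z a b c d e f 1 → False := by
        intro r1 r2 r3 r4
        refine hsp y (Or.inr (Or.inr (Or.inr (Or.inl
          ⟨Lt_dist r1, le_antisymm (h4 y) h5, ?_, y', Lt_dist r3, hyy, ?_⟩))))
        · rw [hE]; rintro i (rfl | rfl)
          · exact r1.2
          · exact r2.2
        · rw [hE]; rintro i (rfl | rfl)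
          · exact r3.2
          · exact r4.2
      have hfA : y ∈ Lt T z a b c d e f 1 → y ∈ Lt T z a b c d e f 2 →
          y' ∈ Lt T z a b c d e f 1 → y' ∈ Lt T z a b c d e f 2 → False := by
        intro r1 r2 r3 r4
        refine hsp y (Or.inr (Or.inr (Or.inr (Or.inr (Or.inl
          ⟨Lt_dist r1, le_antisymm (h4 y) h5, by rw [hP]; exact r2, y', hyy, by rw [hP]; exact r4,
            f, hf, r1.2, r3.2⟩)))))
      have heC : y ∈ Lt T z a b c d e f 0 → y ∈ Lt T z a b c d e f 3 →
          y' ∈ Lt T z a b c d e f 0 → y' ∈ Lt T z a b c d e f 3 → False := by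
        intro r1 r2 r3 r4
        refine hsp y (Or.inr (Or.inr (Or.inr (Or.inr (Or.inr
          ⟨Lt_dist r1, le_antisymm (h4 y) h5, by rw [hQ]; exact r2, y', hyy, by rw [hQ]; exact r4,
            e, he, r1.2, r3.2⟩)))))
      fin_cases l <;> fin_cases m <;> first
        | exact absurd rfl hlm
        | exact hef k1 k2 k3 k4
        | exact hef k2 k1 k4 k3
        | exact sA y k2 k1.2 h5
        | exact sA y k1 k2.2 h5
        | exact sC y k2 k1.2 h5
        | exact sC y k1 k2.2 h5
        | exact sAC y k1 k2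
        | exact sAC y k2 k1
        | exact hfA k1 k2 k3 k4
        | exact hfA k2 k1 k4 k3
        | exact heC k1 k2 k3 k4
        | exact heC k2 k1 k4 k3
    exfalso
    rcases Swp.high C hS with h5 | h5
    · exact key y y' hS.1 h5 hS.2
    · obtain ⟨d1, l, m, hlm, k1, k2, k3, k4⟩ := hS
      exact key y' y (by rw [dist_comm]; exact d1) h5 ⟨l, m, hlm, k3, k4, k1, k2⟩

/-- **A centre which violates L2 has a special point.** -/
theorem not_L2at (h : Irr U T) (h4 : ∀ z, (T z).ncard ≤ 4) (hn : ¬ L2at T z) :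
    ∃ v q, Cp T z v q ∧ (∀ v', EE T z v' → T v' = T v → v' = v) ∧
      (∀ q', EE T z q' → T q' = T q → q' = q) ∧ ∃ y, SpX T z (T v) y := by
  unfold L2at at hn
  push Not at hn
  obtain ⟨v, q, hc, h1, h2⟩ := hn
  refine ⟨v, q, hc, fun v' h3 h5 => ?_, fun q' h3 h5 => ?_, ?_⟩
  · by_contra hne
    exact h1 v' hne h3 h5
  · by_contra hne
    exact h2 q' hne h3 h5
  · rcases third_or_special h h4 hc.1 hc.2.1 hc.2.2 with (⟨v', a1, a2, a3⟩ | ⟨q', a1, a2, a3⟩) | h3
    · exact absurd a3 (h1 v' a1 a2)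
    · exact absurd a3 (h2 q' a1 a2)
    · exact h3

end Vale.Agent.P032.H892
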