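import Vale.Agent.P032.H892.SixFst

/-!
# P032: states with integer lifts of the sectors of the hull ends

`ZL u`, `ZR u` : letters, and integer sectors `P` (left ends) and `Q` (right ends) just before and just after a time.
A turn by 60 degrees decreases every integer by exactly one, so on a path from `s` to `shZ s` every hull end moves
exactly once.

* `toSt6` : the state of `Six`; `toSt6_ZL`, `toSt6_ZR`,
* `C6.stepZ` : an event moves every end by at most one sector,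
* `C6.monoZ` : monotonicity, `C6.runZ`, `C6.loopZ` : induction,
* `C6.exists_eventZ`, `C6.no_eventZ`, `C6.no_of_tablesZ` : assembly,
* `EvA` : all events of all six-coloured points, closed under permutations of the colours and turns.
-/

open Set Filter Topology Metric

noncomputable section

namespace Vale.Agent.P032.H892

open Vale.Agent.P032.Six Vale.Agent.P032.Words Vale.Agent.P032.S5.H767

variable {U : Fin 6 → Set ℂ} {T : ℂ → Set (Fin 6)} {z : ℂ}

/-- letters, integer sectors of the left ends, integer sectors of the right ends -/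
abbrev StZ := (Fin 6 → L6) × (Fin 6 → ℤ) × (Fin 6 → ℤ)

section
variable (U T z)

/-- the lifted state just before `u` -/
def ZL (u : ℝ) : StZ := (fun k => LL U T z (u + k.val), fun c => ⌊(hl (Dr T z c)).1 - 1 / 2 - u⌋,
  fun c => ⌊(hl (Dr T z c)).2 - 1 / 2 - u⌋)

/-- the lifted state just after `u` -/
def ZR (u : ℝ) : StZ := (fun k => LR U T z (u + k.val), fun c => ⌈(hl (Dr T z c)).1 - 1 / 2 - u⌉ - 1,
  fun c => ⌈(hl (Dr T z c)).2 - 1 / 2 - u⌉ - 1)

end

/-- the turn by 60 degrees -/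
def shZ (s : StZ) : StZ := (fun k => s.1 (k + 1), fun c => s.2.1 c - 1, fun c => s.2.2 c - 1)

/-- forget the lifts -/
def toSt6 (s : StZ) : St6 := (s.1, fun c => enc (s.2.1 c) (s.2.2 c))

theorem toSt6_ZL (u : ℝ) : toSt6 (ZL U T z u) = SL U T z u := rfl

theorem toSt6_ZR (u : ℝ) : toSt6 (ZR U T z u) = SR U T z u := rfl

theorem toSt6_shZ (s : StZ) : toSt6 (shZ s) = sh6 (toSt6 s) := by
  unfold toSt6 shZ sh6
  refine Prod.ext rfl ?_
  funext c
  exact enc_sub _ _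

/-- every end moves by at most one sector -/
def StepZ (s t : StZ) : Prop := (∀ c, t.2.1 c = s.2.1 c ∨ t.2.1 c = s.2.1 c - 1) ∧
  ∀ c, t.2.2 c = s.2.2 c ∨ t.2.2 c = s.2.2 c - 1

/-- the right end is at most three sectors behind the left end -/
def OkZ (s : StZ) : Prop := ∀ c, s.2.1 c ≤ s.2.2 c ∧ s.2.2 c ≤ s.2.1 c + 3

theorem ceil_step (x : ℝ) : ⌈x⌉ - 1 = ⌊x⌋ ∨ ⌈x⌉ - 1 = ⌊x⌋ - 1 := by
  have e4 := Int.floor_le_ceil x
  have e5 := Int.ceil_le_floor_add_one x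
  omega

theorem stepZ (u : ℝ) : StepZ (ZL U T z u) (ZR U T z u) :=
  ⟨fun _ => ceil_step _, fun _ => ceil_step _⟩

theorem ceil_mono {x u v : ℝ} (h : u < v) : ⌊x - v⌋ ≤ ⌈x - u⌉ - 1 := by
  have h1 := Int.floor_le (x - v)
  have h2 := Int.le_ceil (x - u)
  have h3 : ((⌊x - v⌋ : ℤ) : ℝ) < ((⌈x - u⌉ : ℤ) : ℝ) := by linarith
  have h4 : ⌊x - v⌋ < ⌈x - u⌉ := by exact_mod_cast h3
  omega

/-- monotonicity of the lifts -/
theorem monoZ {u v : ℝ} (h : u < v) (c : Fin 6) : (ZL U T z v).2.1 c ≤ (ZR U T z u).2.1 c ∧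
    (ZL U T z v).2.2 c ≤ (ZR U T z u).2.2 c := ⟨ceil_mono h, ceil_mono h⟩

theorem ev_zl (T : ℂ → Set (Fin 6)) (z : ℂ) (u : ℝ) :
    ∀ᶠ v in 𝓝[<] u, ∀ c : Fin 6,
      (⌊(hl (Dr T z c)).1 - 1 / 2 - v⌋ = ⌊(hl (Dr T z c)).1 - 1 / 2 - u⌋ ∧
        ⌈(hl (Dr T z c)).1 - 1 / 2 - v⌉ - 1 = ⌊(hl (Dr T z c)).1 - 1 / 2 - u⌋) ∧
      (⌊(hl (Dr T z c)).2 - 1 / 2 - v⌋ = ⌊(hl (Dr T z c)).2 - 1 / 2 - u⌋ ∧
        ⌈(hl (Dr T z c)).2 - 1 / 2 - v⌉ - 1 = ⌊(hl (Dr T z c)).2 - 1 / 2 - u⌋) := by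
  rw [eventually_all]
  intro c
  exact (fl_left _ u).and (fl_left _ u)

theorem ev_zr (T : ℂ → Set (Fin 6)) (z : ℂ) (u : ℝ) :
    ∀ᶠ v in 𝓝[>] u, ∀ c : Fin 6,
      (⌊(hl (Dr T z c)).1 - 1 / 2 - v⌋ = ⌈(hl (Dr T z c)).1 - 1 / 2 - u⌉ - 1 ∧
        ⌈(hl (Dr T z c)).1 - 1 / 2 - v⌉ - 1 = ⌈(hl (Dr T z c)).1 - 1 / 2 - u⌉ - 1) ∧
      (⌊(hl (Dr T z c)).2 - 1 / 2 - v⌋ = ⌈(hl (Dr T z c)).2 - 1 / 2 - u⌉ - 1 ∧
        ⌈(hl (Dr T z c)).2 - 1 / 2 - v⌉ - 1 = ⌈(hl (Dr T z c)).2 - 1 / 2 - u⌉ - 1) := by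
  rw [eventually_all]
  intro c
  exact (fl_right _ u).and (fl_right _ u)

namespace C6

variable (C : C6 U T z)
include C

theorem okZ_L (u : ℝ) : OkZ (ZL U T z u) := fun c => C.fl_le c u

theorem okZ_R (u : ℝ) : OkZ (ZR U T z u) := fun c => C.cl_le c u

theorem ev_leftZ (u : ℝ) : ∀ᶠ v in 𝓝[<] u, ZR U T z v = ZL U T z u ∧ ZL U T z v = ZL U T z u := by
  filter_upwards [C.ev_left u, ev_zl T z u] with v h1 h2
  have e1 := congrArg (fun s : St6 => s.1) h1.1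
  have e2 := congrArg (fun s : St6 => s.1) h1.2
  refine ⟨Prod.ext e1 (Prod.ext ?_ ?_), Prod.ext e2 (Prod.ext ?_ ?_)⟩
  · funext c; exact (h2 c).1.2
  · funext c; exact (h2 c).2.2
  · funext c; exact (h2 c).1.1
  · funext c; exact (h2 c).2.1

theorem ev_rightZ (u : ℝ) : ∀ᶠ v in 𝓝[>] u, ZR U T z v = ZR U T z u ∧ ZL U T z v = ZR U T z u := by
  filter_upwards [C.ev_right u, ev_zr T z u] with v h1 h2
  have e1 := congrArg (fun s : St6 => s.1) h1.1
  have e2 := congrArg (fun s : St6 => s.1) h1.2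
  refine ⟨Prod.ext e1 (Prod.ext ?_ ?_), Prod.ext e2 (Prod.ext ?_ ?_)⟩
  · funext c; exact (h2 c).1.2
  · funext c; exact (h2 c).2.2
  · funext c; exact (h2 c).1.1
  · funext c; exact (h2 c).2.1

theorem zl_succ (u : ℝ) : ZL U T z (u + 1) = shZ (ZL U T z u) := by
  have e : ∀ x : ℝ, ⌊x - 1 / 2 - (u + 1)⌋ = ⌊x - 1 / 2 - u⌋ - 1 := by
    intro x
    have : x - 1 / 2 - (u + 1) = x - 1 / 2 - u - 1 := by ring
    rw [this, Int.floor_sub_one]
  refine Prod.ext ?_ (Prod.ext ?_ ?_)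
  · funext k; exact (C.ll_succ u k).symm
  · funext c; exact e _
  · funext c; exact e _

theorem zr_succ (u : ℝ) : ZR U T z (u + 1) = shZ (ZR U T z u) := by
  have e : ∀ x : ℝ, ⌈x - 1 / 2 - (u + 1)⌉ - 1 = ⌈x - 1 / 2 - u⌉ - 1 - 1 := by
    intro x
    have : x - 1 / 2 - (u + 1) = x - 1 / 2 - u - 1 := by ring
    rw [this, Int.ceil_sub_one]
  refine Prod.ext ?_ (Prod.ext ?_ ?_)
  · funext k; exact (C.lr_succ u k).symm
  · funext c; exact e _
  · funext c; exact e _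

/-- **Induction over an interval of times**, lifted states. -/
theorem runZ {I : StZ → Prop} {a b : ℝ} (hab : a < b) (h0 : I (ZR U T z a))
    (hstep : ∀ u ∈ Ioo a b, I (ZL U T z u) → I (ZR U T z u)) : I (ZL U T z b) := by
  have key := run (J := Empty) (Λ := Unit) (X := fun _ _ => univ) (s := fun v => ZR U T z v)
    (sl := fun v => ZL U T z v) (sr := fun v => ZR U T z v) (I := fun _ s => I s) hab
    (fun u _ => (C.ev_leftZ u).mono fun v hv => hv.1) (fun u _ => (C.ev_rightZ u).mono fun v hv => hv.1)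
    (fun _ _ => h0) (fun u hu h1 _ _ => hstep u hu (h1 (fun e => e.elim) ?_)) (fun e => e.elim) ?_
  · exact key
  · exact (Eventually.of_forall fun v j => j.elim).frequently
  · exact (Eventually.of_forall fun v j => j.elim).frequently

/-- **Induction with a second monitor**, lifted states. -/
theorem runmZ {S : Type} {σ σl σr : ℝ → S} {I : StZ → S → Prop} {a b : ℝ} (hab : a < b)
    (hl : ∀ u ∈ Ioc a b, ∀ᶠ v in 𝓝[<] u, σ v = σl u) (hr : ∀ u ∈ Ico a b, ∀ᶠ v in 𝓝[>] u, σ v = σr u)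
    (h0 : I (ZR U T z a) (σr a))
    (hstep : ∀ u ∈ Ioo a b, I (ZL U T z u) (σl u) → I (ZR U T z u) (σr u)) :
    I (ZL U T z b) (σl b) := by
  have key := run (J := Empty) (Λ := Unit) (X := fun _ _ => univ) (s := fun v => (ZR U T z v, σ v))
    (sl := fun v => (ZL U T z v, σl v)) (sr := fun v => (ZR U T z v, σr v)) (I := fun _ s => I s.1 s.2) hab
    (fun u hu => ((C.ev_leftZ u).and (hl u hu)).mono fun v hv => Prod.ext hv.1.1 hv.2)
    (fun u hu => ((C.ev_rightZ u).and (hr u hu)).mono fun v hv => Prod.ext hv.1.1 hv.2)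
    (fun _ _ => h0) (fun u hu h1 _ _ => hstep u hu (h1 (fun e => e.elim) ?_)) (fun e => e.elim) ?_
  · exact key
  · exact (Eventually.of_forall fun v j => j.elim).frequently
  · exact (Eventually.of_forall fun v j => j.elim).frequently

/-- **Induction with the flag `some letter has changed since a`**, lifted states. -/
theorem runFZ {I : StZ → Prop → Prop} {a b : ℝ} (hab : a < b) (h0 : I (ZR U T z a) False)
    (hstep : ∀ u ∈ Ioo a b, I (ZL U T z u) (∃ v ∈ Ioo a u, Chg U T z v) →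
      I (ZR U T z u) (∃ v ∈ Ioc a u, Chg U T z v)) :
    I (ZL U T z b) (∃ v ∈ Ioo a b, Chg U T z v) := by
  have key := C.runmZ (S := Prop) (σ := fun u => ∃ v ∈ Ioo a u, Chg U T z v)
    (σl := fun u => ∃ v ∈ Ioo a u, Chg U T z v) (σr := fun u => ∃ v ∈ Ioc a u, Chg U T z v)
    (I := I) hab ?_ ?_ ?_ hstep
  · exact key
  · intro u hu
    obtain ⟨w, hw, hs⟩ := (mem_nhdsLT_iff_exists_Ioo_subset (a := u)).1 (C.no_chg_left u)
    have hw : w < u := hw
    filter_upwards [Ioo_mem_nhdsLT hw] with v hv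
    refine propext ⟨?_, ?_⟩
    · rintro ⟨x, hx, hc⟩
      exact ⟨x, ⟨hx.1, hx.2.trans hv.2⟩, hc⟩
    · rintro ⟨x, hx, hc⟩
      refine ⟨x, ⟨hx.1, ?_⟩, hc⟩
      by_contra hcon
      push Not at hcon
      exact hs ⟨lt_of_lt_of_le hv.1 hcon, hx.2⟩ hc
  · intro u hu
    obtain ⟨w, hw, hs⟩ := (mem_nhdsGT_iff_exists_Ioo_subset (a := u)).1 (C.no_chg_right u)
    have hw : u < w := hw
    filter_upwards [Ioo_mem_nhdsGT hw] with v hv
    refine propext ⟨?_, ?_⟩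
    · rintro ⟨x, hx, hc⟩
      refine ⟨x, ⟨hx.1, ?_⟩, hc⟩
      by_contra hcon
      push Not at hcon
      exact hs ⟨hcon, hx.2.trans hv.2⟩ hc
    · rintro ⟨x, hx, hc⟩
      exact ⟨x, ⟨hx.1, lt_of_le_of_lt hx.2 hv.1⟩, hc⟩
  · have e : (∃ v ∈ Ioc a a, Chg U T z v) = False := by
      simp
    show I (ZR U T z a) (∃ v ∈ Ioc a a, Chg U T z v)
    rw [e]; exact h0

/-- there are generic times -/
theorem exists_genericZ : ∃ a, ZL U T z a = ZR U T z a := by
  obtain ⟨v, hv⟩ := (C.ev_rightZ 0).exists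
  exact ⟨v, by rw [hv.1, hv.2]⟩

/-- **The turn by 60 degrees** from a generic time -/
theorem loopZ {I : StZ → Prop} {a : ℝ} (h0 : I (ZR U T z a)) (ha : ZL U T z a = ZR U T z a)
    (hstep : ∀ u ∈ Ioo a (a + 1), I (ZL U T z u) → I (ZR U T z u)) : I (shZ (ZR U T z a)) := by
  have := C.runZ (b := a + 1) (by linarith) h0 hstep
  rwa [C.zl_succ, ha] at this

/-- **The turn by 60 degrees** from just after a special time to just before it -/
theorem loopZ' {I : StZ → Prop} {a : ℝ} (h0 : I (ZR U T z a))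
    (hstep : ∀ u ∈ Ioo a (a + 1), I (ZL U T z u) → I (ZR U T z u)) : I (shZ (ZL U T z a)) := by
  have := C.runZ (b := a + 1) (by linarith) h0 hstep
  rwa [C.zl_succ] at this

end C6

/-! ### assembly -/

/-- steps of a table, between static states with lifts; every end moves by at most one sector -/
def StpZ (R : St6 → St6 → Prop) (s t : StZ) : Prop :=
  OkZ s ∧ OkZ t ∧ Stat (toSt6 s) ∧ Stat (toSt6 t) ∧ StepZ s t ∧ R (toSt6 s) (toSt6 t)

/-- steps with the flag `some letter has changed` -/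
def StpFZ (R : Prop → St6 → St6 → Prop) (x y : StZ × Prop) : Prop :=
  StpZ (R x.2) x.1 y.1 ∧ (y.2 ↔ x.2 ∨ x.1.1 ≠ y.1.1)

namespace C6

variable (C : C6 U T z)
include C

/-- **One-class table**, with the monotone condition. -/
theorem exists_eventZ {R : St6 → St6 → Prop} {E : St6 → St6 → Prop}
    (hR : ∀ u, E (SL U T z u) (SR U T z u) ∨ R (SL U T z u) (SR U T z u))
    (hpath : ∀ s, OkZ s → Stat (toSt6 s) → ¬ Relation.ReflTransGen (StpZ R) s (shZ s)) :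
    ∃ u, E (SL U T z u) (SR U T z u) := by
  by_contra hcon
  push Not at hcon
  obtain ⟨a, ha⟩ := C.exists_genericZ
  refine hpath (ZR U T z a) (C.okZ_R a) (C.stat_R a) ?_
  refine C.loopZ (I := fun s => Relation.ReflTransGen (StpZ R) (ZR U T z a) s) Relation.ReflTransGen.refl
    ha fun u _ hI => hI.tail ⟨C.okZ_L u, C.okZ_R u, C.stat_L u, C.stat_R u, stepZ u, ?_⟩
  rcases hR u with h | h
  · exact absurd h (hcon u)
  · exact h

/-- **Two-class table**, with the monotone condition. -/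
theorem no_eventZ {u1 : ℝ} {R : Prop → St6 → St6 → Prop}
    (hR : ∀ u ∈ Ioo u1 (u1 + 1), R (∃ v ∈ Ioo u1 u, Chg U T z v) (SL U T z u) (SR U T z u))
    (hpath : ∀ p, ¬ Relation.ReflTransGen (StpFZ R) (ZR U T z u1, False) (shZ (ZL U T z u1), p)) :
    False := by
  refine hpath (∃ v ∈ Ioo u1 (u1 + 1), Chg U T z v) ?_
  have key := C.runFZ (I := fun x p => Relation.ReflTransGen (StpFZ R) (ZR U T z u1, False) (x, p))
    (show u1 < u1 + 1 by linarith) Relation.ReflTransGen.refl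
    fun u hu hI => hI.tail ⟨⟨C.okZ_L u, C.okZ_R u, C.stat_L u, C.stat_R u, stepZ u, hR u hu⟩, ?_⟩
  · rw [C.zl_succ] at key
    exact key
  · show (∃ v ∈ Ioc u1 u, Chg U T z v) ↔ (∃ v ∈ Ioo u1 u, Chg U T z v) ∨ (SL U T z u).1 ≠ (SR U T z u).1
    constructor
    · rintro ⟨v, hv, hc⟩
      rcases hv.2.lt_or_eq with h | h
      · exact Or.inl ⟨v, ⟨hv.1, h⟩, hc⟩
      · subst h; exact Or.inr hc
    · rintro (⟨v, hv, hc⟩ | hc)
      · exact ⟨v, ⟨hv.1, hv.2.le⟩, hc⟩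
      · exact ⟨u, ⟨hu.1, le_rfl⟩, hc⟩

end C6

end Vale.Agent.P032.H892
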