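import Vale.Agent.P032.H892.Lt
import Vale.Agent.P032.H286.Z73

/-!
# P032: the light queries of `Lt` are queries of the model

* `Lt.q`, `Lt.qs` : a light query is a query, `Lt.eqLL`, `Lt.q_of`, `Lt.pat_eq` : with an explicit list of clauses.
-/

namespace Vale.Agent.P032.Lt

open Vale.Agent.P032.H820.K

theorem tbm : TBm = H286.E.TBm := by decide +kernel

/-- **a light query is a query** -/
theorem q {e : List (List ℕ)} (h : Qy e) : H357.MK.Qy 73 73 H286.E.TBm e := by
  rw [← tbm]; exact h

theorem qs {e : List (List ℕ)} {u : List ℕ} (h : Qs e u) : H286.E.Qs e u := q h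

/-! ### explicit lists of clauses -/

/-- equality of lists -/
def eqC (a : List ℕ) : List ℕ → Bool :=
  @List.rec ℕ (fun _ => List ℕ → Bool) (fun b => @List.rec ℕ (fun _ => Bool) true (fun _ _ _ => false) b)
    (fun x _ ih b => @List.rec ℕ (fun _ => Bool) false (fun y t _ => bif Nat.beq x y then ih t else false) b) a

theorem eqC_spec {a b : List ℕ} (h : eqC a b = true) : a = b := by
  induction a generalizing b with
  | nil =>
    cases b with
    | nil => rfl
    | cons y t => exact absurd h Bool.false_ne_true
  | cons x a ih =>
    cases b with
    | nil => exact absurd h Bool.false_ne_true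
    | cons y t =>
      have h1 : (bif Nat.beq x y then eqC a t else false) = true := h
      cases h2 : Nat.beq x y
      · rw [h2, cond_false] at h1; exact absurd h1 Bool.false_ne_true
      · rw [h2, cond_true] at h1
        rw [Nat.eq_of_beq_eq_true h2, ih h1]

/-- equality of lists of clauses -/
def eqLL (a : List (List ℕ)) : List (List ℕ) → Bool :=
  @List.rec (List ℕ) (fun _ => List (List ℕ) → Bool)
    (fun b => @List.rec (List ℕ) (fun _ => Bool) true (fun _ _ _ => false) b)
    (fun x _ ih b => @List.rec (List ℕ) (fun _ => Bool) false (fun y t _ => bif eqC x y then ih t else false) b) a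

theorem eqLL_spec {a b : List (List ℕ)} (h : eqLL a b = true) : a = b := by
  induction a generalizing b with
  | nil =>
    cases b with
    | nil => rfl
    | cons y t => exact absurd h Bool.false_ne_true
  | cons x a ih =>
    cases b with
    | nil => exact absurd h Bool.false_ne_true
    | cons y t =>
      have h1 : (bif eqC x y then eqLL a t else false) = true := h
      cases h2 : eqC x y
      · rw [h2, cond_false] at h1; exact absurd h1 Bool.false_ne_true
      · rw [h2, cond_true] at h1
        rw [eqC_spec h2, ih h1]

/-- a query from a light query with an explicit list of clauses -/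
theorem q_of {e e' : List (List ℕ)} (h : eqLL e e' = true) (hq : Qy e') : H357.MK.Qy 73 73 H286.E.TBm e := by
  rw [eqLL_spec h]; exact q hq

theorem qs_of {e e' : List (List ℕ)} {u : List ℕ} (h : eqLL e e' = true) (hq : Qs e' u) : H286.E.Qs e u := by
  rw [eqLL_spec h]; exact q hq

/-- the base clauses of a certified pattern may be replaced by an explicit list -/
theorem pat_eq {E E' : List (List ℕ)} {P : List ℕ} {I : List (List ℕ)} (h : eqLL E E' = true)
    (hp : H357.MK.Pat 73 73 H286.E.TBm H286.E.TCm E' P I) : H357.MK.Pat 73 73 H286.E.TBm H286.E.TCm E P I := by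
  rw [eqLL_spec h]; exact hp

end Vale.Agent.P032.Lt
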