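import Vale.Agent.P032.H892.SixMk
import Vale.Agent.P032.H913.No16
import Vale.Agent.P032.H61.Rot6

/-!
# P032: no six-coloured point in the locally finite connected frame

`no6` : `Irr`, locally finite three-coloured points, all colours near every point are connected to it (`Ctn`)
and are carried there (`Ct`): then no point has all six colours.
-/

open Set Filter Topology Metric

noncomputable section

namespace Vale.Agent.P032.H892

open Vale.Agent.P032.Six Vale.Agent.P032.Words Vale.Agent.P032.S5.H767

variable {U : Fin 6 → Set ℂ} {T : ℂ → Set (Fin 6)} {z : ℂ}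

/-- no six-coloured point -/
theorem C6.no6 (C : C6 U T z) (hct : Ctn U T z) : False :=
  H913.no6_of_rot6 H61.rot6 C hct

/-- **No six-coloured point** in the locally finite connected frame. -/
theorem no6 (h : Irr U T) (hl : LF3 U T) (hct : ∀ i, Ct U z i) (hctn : Ctn U T z) : ¬ ∀ i, i ∈ T z :=
  fun hz => (C6.of_lf h hl hz hct hctn).no6 hctn

end Vale.Agent.P032.H892
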