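import Mathlib

/-!
# P032: words with moving positions, generic states and monitors

`X j l` is the closed set of times `u` at which the letter `l` is available at the position `j`.
`Pure X h v` : at the time `v` (and near it) the position `j` carries the letter `h j`, all `j`.
`Occ X F h` : the state `h` is realised at generic times arbitrarily far in the filter `F`.
`Fam.run` : an invariant of (state, monitor) which survives at every time survives on an interval.  No finiteness of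
the changes is assumed: the monitor `s` only needs one sided limits (for discrete values).
-/

open Set Filter Topology

namespace Vale.Agent.P032.H892

variable {J Λ S : Type}

/-- closed letter sets at finitely many positions -/
structure Fam (X : J → Λ → Set ℝ) : Prop where
  closed : ∀ j l, IsClosed (X j l)
  cover : ∀ j u, ∃ l, u ∈ X j l

/-- the state `h` is realised near `v` -/
def Pure (X : J → Λ → Set ℝ) (h : J → Λ) (v : ℝ) : Prop := ∀ j, v ∈ interior (X j (h j))

/-- the state `h` occurs in the filter `F` -/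
def Occ (X : J → Λ → Set ℝ) (F : Filter ℝ) (h : J → Λ) : Prop := ∃ᶠ v in F, Pure X h v

variable {X : J → Λ → Set ℝ} {h : J → Λ} {F G : Filter ℝ}

theorem Occ.mono (ho : Occ X F h) (hFG : F ≤ G) : Occ X G h := Frequently.filter_mono ho hFG

theorem Pure.occ [Finite J] {v : ℝ} (hp : Pure X h v) (hF : F ≤ 𝓝 v) [F.NeBot] : Occ X F h := by
  have h1 : ∀ᶠ w in 𝓝 v, Pure X h w := by
    unfold Pure
    rw [eventually_all]
    exact fun j => isOpen_interior.mem_nhds (hp j)
  exact (h1.filter_mono hF).frequently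

theorem Pure.occL [Finite J] {v : ℝ} (hp : Pure X h v) : Occ X (𝓝[<] v) h :=
  hp.occ nhdsWithin_le_nhds

theorem Pure.occR [Finite J] {v : ℝ} (hp : Pure X h v) : Occ X (𝓝[>] v) h :=
  hp.occ nhdsWithin_le_nhds

/-- the letters of a state which occurs near `u` are available at `u` -/
theorem Fam.mem (w : Fam X) {u : ℝ} (ho : Occ X F h) (hF : F ≤ 𝓝 u) (j : J) : u ∈ X j (h j) := by
  have h1 : ∃ᶠ v in 𝓝 u, v ∈ X j (h j) :=
    (ho.filter_mono hF).mono fun v hv => interior_subset (hv j)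
  exact (w.closed j (h j)).closure_subset (mem_closure_iff_frequently.2 h1)

/-- generic times are dense -/
theorem Fam.dense [Finite J] [Finite Λ] (w : Fam X) : Dense {v | ∃ h : J → Λ, Pure X h v} := by
  have h1 : ∀ j, Dense (⋃ l, interior (X j l)) := fun j =>
    dense_iUnion_interior_of_closed (w.closed j) (by
      ext u; simp only [mem_iUnion, mem_univ, iff_true]; exact w.cover j u)
  have h2 : Dense (⋂ j, ⋃ l, interior (X j l)) :=
    dense_iInter_of_isOpen (fun j => isOpen_iUnion fun l => isOpen_interior) h1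
  refine h2.mono fun v hv => ?_
  rw [mem_iInter] at hv
  have h3 : ∀ j, ∃ l, v ∈ interior (X j l) := fun j => by simpa using hv j
  choose g hg using h3
  exact ⟨g, hg⟩

theorem Fam.freq [Finite J] [Finite Λ] (w : Fam X) {s : Set ℝ} (hs : IsOpen s) {u : ℝ}
    (hu : u ∈ closure s) : ∃ᶠ v in 𝓝[s] u, ∃ h : J → Λ, Pure X h v := by
  rw [frequently_nhdsWithin_iff]
  rw [frequently_iff]
  intro N hN
  obtain ⟨O, hO, hOo, huO⟩ := mem_nhds_iff.1 hN
  obtain ⟨x, hxO, hxs⟩ := mem_closure_iff.1 hu O hOo huO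
  obtain ⟨v, hv, hg⟩ := w.dense.exists_mem_open (hOo.inter hs) ⟨x, hxO, hxs⟩
  exact ⟨v, hO hg.1, hv, hg.2⟩

theorem freq_exists {α β : Type*} [Finite α] {F : Filter β} {p : α → β → Prop}
    (h : ∃ᶠ v in F, ∃ a, p a v) : ∃ a, ∃ᶠ v in F, p a v := by
  by_contra hcon
  push Not at hcon
  have : ∀ᶠ v in F, ∀ a, ¬ p a v := by
    rw [eventually_all]
    exact fun a => hcon a
  exact h (this.mono fun v hv ⟨a, ha⟩ => hv a ha)

theorem Fam.exists_occL [Finite J] [Finite Λ] (w : Fam X) (u : ℝ) : ∃ h, Occ X (𝓝[<] u) h :=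
  freq_exists (w.freq isOpen_Iio (by rw [closure_Iio]; exact self_mem_Iic))

theorem Fam.exists_occR [Finite J] [Finite Λ] (w : Fam X) (u : ℝ) : ∃ h, Occ X (𝓝[>] u) h :=
  freq_exists (w.freq isOpen_Ioi (by rw [closure_Ioi]; exact self_mem_Ici))

/-- states which do not occur on the right side of `u` do not occur near `u` on that side -/
theorem evR [Finite J] [Finite Λ] (X : J → Λ → Set ℝ) (u : ℝ) :
    ∀ᶠ v in 𝓝[>] u, ∀ h : J → Λ, Occ X (𝓝 v) h → Occ X (𝓝[>] u) h := by
  rw [eventually_all]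
  intro h
  by_cases ho : Occ X (𝓝[>] u) h
  · exact Eventually.of_forall fun v _ => ho
  · have h1 : ∀ᶠ v in 𝓝[>] u, ¬ Pure X h v := not_frequently.1 ho
    have h2 := eventually_eventually_nhdsWithin.2 h1
    filter_upwards [h2, self_mem_nhdsWithin] with v hv hvu hocc
    rw [isOpen_Ioi.nhdsWithin_eq hvu] at hv
    exact absurd hv (by rw [← not_frequently, not_not]; exact hocc)

theorem evL [Finite J] [Finite Λ] (X : J → Λ → Set ℝ) (u : ℝ) :
    ∀ᶠ v in 𝓝[<] u, ∀ h : J → Λ, Occ X (𝓝 v) h → Occ X (𝓝[<] u) h := by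
  rw [eventually_all]
  intro h
  by_cases ho : Occ X (𝓝[<] u) h
  · exact Eventually.of_forall fun v _ => ho
  · have h1 : ∀ᶠ v in 𝓝[<] u, ¬ Pure X h v := not_frequently.1 ho
    have h2 := eventually_eventually_nhdsWithin.2 h1
    filter_upwards [h2, self_mem_nhdsWithin] with v hv hvu hocc
    rw [isOpen_Iio.nhdsWithin_eq hvu] at hv
    exact absurd hv (by rw [← not_frequently, not_not]; exact hocc)

/-- **The monitor theorem.** `s` has the one sided limits `sl`, `sr`; if `I` survives at every time of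
`(a, b)` then it holds at `b`. -/
theorem run [Finite J] [Finite Λ] (X : J → Λ → Set ℝ) {s sl sr : ℝ → S}
    {I : (J → Λ) → S → Prop} {a b : ℝ} (hab : a < b)
    (hl : ∀ u ∈ Ioc a b, ∀ᶠ v in 𝓝[<] u, s v = sl u)
    (hr : ∀ u ∈ Ico a b, ∀ᶠ v in 𝓝[>] u, s v = sr u)
    (h0 : ∀ h, Occ X (𝓝[>] a) h → I h (sr a))
    (hstep : ∀ u ∈ Ioo a b, (∀ h, Occ X (𝓝[<] u) h → I h (sl u)) →
      ∀ h, Occ X (𝓝[>] u) h → I h (sr u)) :
    ∀ h, Occ X (𝓝[<] b) h → I h (sl b) := by
  -- `Q v` : the invariant holds on the left side of `v`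
  set Q : ℝ → Prop := fun v => ∀ h, Occ X (𝓝[<] v) h → I h (sl v) with hQ
  -- from the right side of `u` to the points after `u`
  have right : ∀ u ∈ Ico a b, (∀ h, Occ X (𝓝[>] u) h → I h (sr u)) →
      ∀ᶠ v in 𝓝[>] u, v ≤ b → Q v := by
    intro u hu hh
    have h1 := hr u hu
    have h2 := eventually_eventually_nhdsWithin.2 h1
    filter_upwards [evR X u, h2, self_mem_nhdsWithin] with v hv1 hv2 hvu hvb h ho
    rw [isOpen_Ioi.nhdsWithin_eq hvu] at hv2
    have hvI : v ∈ Ioc a b := ⟨lt_of_le_of_lt hu.1 hvu, hvb⟩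
    obtain ⟨x, hx1, hx2⟩ := ((hl v hvI).and (hv2.filter_mono nhdsWithin_le_nhds)).exists
    rw [← hx1, hx2]
    exact hh h (hv1 h (ho.mono nhdsWithin_le_nhds))
  -- the set of good times
  set G : Set ℝ := {u | u ∈ Ioc a b ∧ ∀ v ∈ Ioc a u, Q v} with hG
  obtain ⟨c, hc, hcG⟩ : ∃ c, a < c ∧ c ∈ G := by
    have h1 := right a ⟨le_rfl, hab⟩ h0
    obtain ⟨c, hc, hs⟩ := (mem_nhdsGT_iff_exists_Ioo_subset (a := a)).1 h1
    have hc' : a < c := hc
    have hm : a < min c b := lt_min hc' hab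
    refine ⟨(a + min c b) / 2, by linarith, ⟨by linarith, by linarith [min_le_right c b]⟩,
      fun v hv => ?_⟩
    have h3 : v < c := by linarith [hv.2, min_le_left c b]
    exact hs ⟨hv.1, h3⟩ (by linarith [hv.2, min_le_right c b])
  have hbdd : BddAbove G := ⟨b, fun u hu => hu.1.2⟩
  set t := sSup G with ht
  have hct : c ≤ t := le_csSup hbdd hcG
  have htb : t ≤ b := csSup_le ⟨c, hcG⟩ fun u hu => hu.1.2
  have hta : a < t := lt_of_lt_of_le hc hct
  have hlow : ∀ v ∈ Ioo a t, Q v := by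
    intro v hv
    obtain ⟨u, huG, hvu⟩ := exists_lt_of_lt_csSup ⟨c, hcG⟩ hv.2
    exact huG.2 v ⟨hv.1, hvu.le⟩
  have hQt : Q t := by
    intro h ho
    have h1 := hl t ⟨hta, htb⟩
    have h2 := eventually_eventually_nhdsWithin.2 h1
    have h3 : ∀ᶠ v in 𝓝[<] t, v ∈ Ioo a t := Ioo_mem_nhdsLT hta
    obtain ⟨v, hp, hv2, hv3⟩ := (ho.and_eventually (h2.and h3)).exists
    rw [isOpen_Iio.nhdsWithin_eq (show v ∈ Iio t from hv3.2)] at hv2
    have hvI : v ∈ Ioc a b := ⟨hv3.1, hv3.2.le.trans htb⟩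
    obtain ⟨x, hx1, hx2⟩ := ((hl v hvI).and (hv2.filter_mono nhdsWithin_le_nhds)).exists
    have h4 := hlow v hv3 h hp.occL
    rw [← hx1, hx2] at h4
    exact h4
  rcases eq_or_lt_of_le htb with hb | hb
  · rw [← hb]; exact hQt
  · exfalso
    have h1 := hstep t ⟨hta, hb⟩ hQt
    have h2 := right t ⟨hta.le, hb⟩ h1
    obtain ⟨c', hc', hs⟩ := (mem_nhdsGT_iff_exists_Ioo_subset (a := t)).1 h2
    have hc'' : t < c' := hc'
    have hm : t < min c' b := lt_min hc'' hb
    have h3 : (t + min c' b) / 2 ∈ G := by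
      refine ⟨⟨by linarith, by linarith [min_le_right c' b]⟩, fun v hv => ?_⟩
      rcases lt_trichotomy v t with h4 | h4 | h4
      · exact hlow v ⟨hv.1, h4⟩
      · rw [h4]; exact hQt
      · exact hs ⟨h4, by linarith [hv.2, min_le_left c' b]⟩ (by linarith [hv.2, min_le_right c' b])
    have := le_csSup hbdd h3
    linarith

end Vale.Agent.P032.H892
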