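import Vale.Agent.P032.H892.L2at
import Vale.Agent.P032.S5.H496.Start

/-!
# P032: a two-pair centre without complementary clean ends has two special points

`Sp` : a four-coloured point of `S(z)` in the closure of exact arcs.  `cp_of_one` : a two-pair centre with at most one
point of the kinds `Sp`, `SwE` has a complementary pair of clean ends.
-/

open Set Filter Topology Metric

noncomputable section

namespace Vale.Agent.P032.H892

open Vale.Agent.P032.Six Vale.Agent.P032.Words Vale.Agent.P032.S5.H767 Vale.Agent.P032.S5.H349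
  Vale.Agent.P032.H757

variable {U : Fin 6 → Set ℂ} {T : ℂ → Set (Fin 6)} {z : ℂ} {a b c d e f : Fin 6}

/-- a special end: a four-coloured point of `S(z)` in the closure of exact arcs -/
def Sp (T : ℂ → Set (Fin 6)) (z y : ℂ) : Prop :=
  dist y z = 1 ∧ (T y).ncard = 4 ∧ ∃ P : Set (Fin 6), P ⊆ T z ∧ P.ncard = 2 ∧ y ∈ closure (Ex T z P)

/-- an exact `ab`-arc has an end point different from `y1` -/
theorem arc_end1 (h : Irr U T) (hz : DPt T z a b c d) {y1 : ℂ}
    (h3 : ∀ y, y ∈ closure (Ex T z {a, b}) → y ≠ y1 → (T y).ncard ≤ 3) :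
    ∃ y g, dist y z = 1 ∧ g ∉ T z ∧ T y = {a, b, g} := by
  obtain ⟨p, hp⟩ := hz.arc1
  obtain ⟨p2, hp2⟩ := hz.arc2
  obtain ⟨q2, hq2, hne, hop⟩ := hp2.exists_off_line (y := p2)
  obtain ⟨t0, ht0⟩ := exists_cis (u := p - z) (by rw [← dist_eq_norm]; exact hp.1)
  have hgt : p = z + cis t0 := by rw [← ht0]; ring
  rw [hgt] at hp
  obtain ⟨η, hη, hJ⟩ := hp.exists_eta
  have hPz : ({a, b} : Set (Fin 6)) ⊆ T z := by
    rw [hz.pal]; rintro i (rfl | rfl) <;> simp
  -- the two end points
  have key : ∀ o : ℝ, (o = 1 ∨ o = -1) → ∃ l, 0 < l ∧ l ≤ Real.pi / 3 ∧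
      (z + cis (t0 - o * l) ∈ closure (Ex T z {a, b})) ∧
      ({a, b} : Set (Fin 6)) ⊂ T (z + cis (t0 - o * l)) := by
    intro o ho
    obtain ⟨l, hl0, -, hl, hlt, hss⟩ := h.exists_arc (z := z) (P := {a, b}) (θ := t0) (o := o)
      (ε := η) ho (Set.ncard_pair hz.ab) hPz hη
      (fun t ht => hJ _ (by
        have : t0 - o * t - t0 = -(o * t) := by ring
        rw [this, abs_neg, abs_mul]
        have ho1 : |o| = 1 := by rcases ho with rfl | rfl <;> simp
        rw [ho1, one_mul, abs_of_pos ht.1]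
        exact ht.2))
    refine ⟨l, hl0, hl, ?_, hss⟩
    have hcont : Continuous fun t : ℝ => z + cis (t0 - o * t) :=
      continuous_const.add (continuous_cis.comp (by fun_prop))
    have h1 : l ∈ closure (Ioo 0 l) := by
      rw [closure_Ioo hl0.ne]; exact ⟨hl0.le, le_rfl⟩
    have h2 := hcont.continuousWithinAt (s := Ioo 0 l) (x := l)
    refine closure_mono ?_ (h2.mem_closure_image h1)
    rintro _ ⟨t, ht, rfl⟩
    exact ⟨dist_add_cis z _, h.pair_open (Set.ncard_pair hz.ab) hPz (hlt t ht).subset⟩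
  obtain ⟨l1, k1, k2, k3, k4⟩ := key 1 (Or.inl rfl)
  obtain ⟨l2, m1, m2, m3, m4⟩ := key (-1) (Or.inr rfl)
  have hdist : z + cis (t0 - 1 * l1) ≠ z + cis (t0 - -1 * l2) := by
    intro heq
    have h1 : cis (t0 - 1 * l1) = cis (t0 - -1 * l2) := add_left_cancel heq
    unfold cis at h1
    obtain ⟨n, hn⟩ := Complex.exp_eq_exp_iff_exists_int.1 h1
    have h2 : ((t0 - 1 * l1 : ℝ) : ℂ) = ((t0 - -1 * l2 + n * (2 * Real.pi) : ℝ) : ℂ) := by
      have hI := Complex.I_ne_zero
      have : (((t0 - 1 * l1 : ℝ) : ℂ) - ((t0 - -1 * l2 + n * (2 * Real.pi) : ℝ) : ℂ)) *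
          Complex.I = 0 := by
        push_cast
        push_cast at hn
        linear_combination hn
      rcases mul_eq_zero.1 this with h | h
      · exact sub_eq_zero.1 h
      · exact absurd h hI
    have h3 : t0 - 1 * l1 = t0 - -1 * l2 + n * (2 * Real.pi) := by exact_mod_cast h2
    have hpi := Real.pi_pos
    have h4 : l1 + l2 = -n * (2 * Real.pi) := by linarith
    have h5 : 0 < -(n : ℝ) * (2 * Real.pi) := by rw [← h4]; linarith
    have h6 : -(n : ℝ) * (2 * Real.pi) < 2 * Real.pi := by rw [← h4]; linarith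
    have h7 : (0 : ℝ) < -n := by
      by_contra hcon
      push Not at hcon
      nlinarith
    have h8 : (-n : ℝ) < 1 := by
      by_contra hcon
      push Not at hcon
      nlinarith
    have h9 : (0 : ℤ) < -n := by exact_mod_cast h7
    have h10 : -n < (1 : ℤ) := by exact_mod_cast h8
    omega
  -- the palette of an end point different from `y1`
  have fin : ∀ v : ℂ, v ∈ closure (Ex T z {a, b}) → ({a, b} : Set (Fin 6)) ⊂ T v → v ≠ y1 →
      ∃ y g, dist y z = 1 ∧ g ∉ T z ∧ T y = {a, b, g} := by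
    intro v hcl hss hne1
    have hvz : dist v z = 1 := dist_of_closure hcl
    have h3v := h3 v hcl hne1
    obtain ⟨g, hgv, hgP⟩ := exists_of_ssubset hss
    have hT : T v = insert g {a, b} := by
      symm
      refine Set.eq_of_subset_of_ncard_le (insert_subset hgv hss.1) ?_ (Set.toFinite _)
      rw [Set.ncard_insert_of_notMem hgP (Set.toFinite _), Set.ncard_pair hz.ab]
      exact h3v
    refine ⟨v, g, hvz, fun hgz => ?_, ?_⟩
    · have hgQ : g = c ∨ g = d := by
        rw [hz.pal] at hgz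
        rcases hgz with h5 | h5 | h5 | h5
        · exact absurd (Or.inl h5) hgP
        · exact absurd (Or.inr h5) hgP
        · exact Or.inl h5
        · exact Or.inr h5
      obtain ⟨d', hd', hcov⟩ : ∃ d', (d' = c ∨ d' = d) ∧ T z ⊆ insert d' (T v) := by
        rcases hgQ with rfl | rfl
        · refine ⟨d, Or.inr rfl, ?_⟩
          rw [hz.pal, hT]
          rintro i (rfl | rfl | rfl | rfl) <;> simp
        · refine ⟨c, Or.inl rfl, ?_⟩
          rw [hz.pal, hT]
          rintro i (rfl | rfl | rfl | rfl) <;> simp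
      have hQ : ∀ y, Arc T z y {c, d} → d' ∈ T y := by
        intro y hy
        rw [hy.mem]
        rcases hd' with rfl | rfl
        · exact Or.inl rfl
        · exact Or.inr rfl
      by_cases h1 : q2 ≠ v ∧ q2 + v ≠ 2 * z
      · exact h.third_notMem hvz h3v hcov hq2.1 (h.sub _ (hQ _ hq2)) h1.1 h1.2
      · refine h.third_notMem hvz h3v hcov hp2.1 (h.sub _ (hQ _ hp2)) (fun h5 => ?_) fun h5 => ?_
        · by_cases h6 : q2 = v
          · exact hne (h6.trans h5.symm)
          · push Not at h1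
            exact hop (by rw [h5]; exact h1 h6)
        · by_cases h6 : q2 = v
          · exact hop (by rw [h6, add_comm]; exact h5)
          · push Not at h1
            exact hne (by linear_combination (h1 h6) - h5)
    · rw [hT]
      ext i
      simp only [mem_insert_iff, mem_singleton_iff]
      tauto
  by_cases h1 : z + cis (t0 - 1 * l1) = y1
  · exact fin _ m3 m4 (fun h2 => hdist (h1.trans h2.symm))
  · exact fin _ k3 k4 h1

/-- a clean `e`-point -/
theorem e_point (C : Ctr U T z a b c d e f) (h4 : ∀ z, (T z).ncard ≤ 4) {y1 : ℂ}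
    (hs : ∀ y, Sp T z y ∨ SwE T z y → y = y1) :
    ∃ y, dist y z = 1 ∧ (T y = {a, b, e} ∨ T y = {c, d, e}) := by
  obtain ⟨⟨ab, ac, ad, ae, af⟩, ⟨bc, bd, be, bf⟩, ⟨cd, ce, cf⟩, ⟨de, df⟩, ef⟩ := nd_ne C.nd
  by_contra hcon
  push Not at hcon
  have hE := Ctr.compl C
  have sp : ∀ y, (y ∈ Lt T z a b c d e f 2 ∨ y ∈ Lt T z a b c d e f 3) → 4 ≤ (T y).ncard →
      y = y1 := by
    intro y h1 h2
    refine hs y (Or.inl ?_)
    rcases h1 with h1 | h1
    · exact ⟨Lt_dist h1, le_antisymm (h4 y) h2, {a, b}, by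
        rw [C.pal]; rintro i (rfl | rfl) <;> simp, Set.ncard_pair ab, h1⟩
    · exact ⟨Lt_dist h1, le_antisymm (h4 y) h2, {c, d}, by
        rw [C.pal]; rintro i (rfl | rfl) <;> simp, Set.ncard_pair cd, h1⟩
  refine Ctr.L1g C (fun y _ => h4 y) {y1} (by simp) ?_ ?_
  · intro y h1 h2
    rw [Finset.mem_singleton]
    by_contra hne
    have h3 : (T y).ncard ≤ 3 := by
      by_contra hc
      push Not at hc
      exact hne (sp y h2 hc)
    obtain ⟨n1, n2⟩ := hcon y h1.1
    rcases h2 with h2 | h2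
    · have k := Lt_col C.irr h2
      refine n1 (Set.eq_of_subset_of_ncard_le ?_ ?_ (Set.toFinite _)).symm
      · rintro i (rfl | rfl | rfl)
        · exact k (Or.inl rfl)
        · exact k (Or.inr rfl)
        · exact h1.2
      · rw [Set.ncard_eq_three.2 ⟨a, b, e, ab, ae, be, rfl⟩]; exact h3
    · have k := Lt_col C.irr h2
      refine n2 (Set.eq_of_subset_of_ncard_le ?_ ?_ (Set.toFinite _)).symm
      · rintro i (rfl | rfl | rfl)
        · exact k (Or.inl rfl)
        · exact k (Or.inr rfl)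
        · exact h1.2
      · rw [Set.ncard_eq_three.2 ⟨c, d, e, cd, ce, de, rfl⟩]; exact h3
  · intro y y' hS
    have key : ∀ y y' : ℂ, dist y y' = 1 → 4 ≤ (T y).ncard →
        (∃ l m : Fin 4, l ≠ m ∧ y ∈ Lt T z a b c d e f l ∧ y ∈ Lt T z a b c d e f m ∧
        y' ∈ Lt T z a b c d e f l ∧ y' ∈ Lt T z a b c d e f m) → y = y1 := by
      rintro y y' hyy h5 ⟨l, m, hlm, k1, k2, k3, k4⟩
      have hef : y ∈ Lt T z a b c d e f 0 → y ∈ Lt T z a b c d e f 1 →
          y' ∈ Lt T z a b c d e f 0 → y' ∈ Lt T z a b c d e f 1 → y = y1 := by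
        intro r1 r2 r3 r4
        refine hs y (Or.inr ⟨Lt_dist r1, le_antisymm (h4 y) h5, ?_, y', Lt_dist r3, hyy, ?_⟩)
        · rw [hE]; rintro i (rfl | rfl)
          · exact r1.2
          · exact r2.2
        · rw [hE]; rintro i (rfl | rfl)
          · exact r3.2
          · exact r4.2
      fin_cases l <;> fin_cases m <;> first
        | exact absurd rfl hlm
        | exact hef k1 k2 k3 k4
        | exact hef k2 k1 k4 k3
        | exact sp y (Or.inl k1) h5
        | exact sp y (Or.inl k2) h5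
        | exact sp y (Or.inr k1) h5
        | exact sp y (Or.inr k2) h5
    rw [Finset.mem_singleton, Finset.mem_singleton]
    rcases Swp.high C hS with h5 | h5
    · exact Or.inl (key y y' hS.1 h5 hS.2)
    · obtain ⟨d1, l, m, hlm, k1, k2, k3, k4⟩ := hS
      exact Or.inr (key y' y (by rw [dist_comm]; exact d1) h5 ⟨l, m, hlm, k3, k4, k1, k2⟩)

/-- **A two-pair centre with at most one special point has a complementary pair of clean ends.** -/
theorem cp_of_one (h : Irr U T) (h4 : ∀ z, (T z).ncard ≤ 4) (hz : DPt T z a b c d) {y1 : ℂ}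
    (hs : ∀ y, Sp T z y ∨ SwE T z y → y = y1) : ∃ v q, Cp T z v q := by
  obtain ⟨e, f, nd⟩ := hz.exists_nodup
  have C := hz.ctr' h nd
  have nd' : [a, b, c, d, f, e].Nodup := by
    have : [a, b, c, d, f, e].Perm [a, b, c, d, e, f] := by
      refine List.Perm.cons _ (List.Perm.cons _ (List.Perm.cons _ (List.Perm.cons _ ?_)))
      exact List.Perm.swap _ _ _
    exact this.nodup_iff.2 nd
  have C' := hz.ctr' h nd'
  obtain ⟨⟨ab, ac, ad, ae, af⟩, ⟨bc, bd, be, bf⟩, ⟨cd, ce, cf⟩, ⟨de, df⟩, ef⟩ := nd_ne nd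
  have he : e ∉ T z := by
    rw [hz.pal]
    simp only [mem_insert_iff, mem_singleton_iff, not_or]
    exact ⟨ae.symm, be.symm, ce.symm, de.symm⟩
  have hf : f ∉ T z := by
    rw [hz.pal]
    simp only [mem_insert_iff, mem_singleton_iff, not_or]
    exact ⟨af.symm, bf.symm, cf.symm, df.symm⟩
  have fin1 : ∀ {V Q : ℂ}, dist V z = 1 → dist Q z = 1 → T V = {a, b, e} → T Q = {c, d, f} →
      ∃ v q, Cp T z v q := by
    intro V Q hV hQ h1 h2
    exact ⟨V, Q, Cfg.ends h ⟨hz, hV, hQ, h1, h2, he, hf, ef⟩ (h4 _)⟩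
  have fin2 : ∀ {V Q : ℂ}, dist V z = 1 → dist Q z = 1 → T V = {a, b, f} → T Q = {c, d, e} →
      ∃ v q, Cp T z v q := by
    intro V Q hV hQ h1 h2
    exact ⟨V, Q, Cfg.ends h ⟨hz, hV, hQ, h1, h2, hf, he, ef.symm⟩ (h4 _)⟩
  have hcl : ∀ P : Set (Fin 6), P ⊆ T z → P.ncard = 2 → ∀ y, y ∈ closure (Ex T z P) → y ≠ y1 →
      (T y).ncard ≤ 3 := by
    intro P hP hP2 y hy hne
    by_contra hcon
    push Not at hcon
    exact hne (hs y (Or.inl ⟨dist_of_closure hy, le_antisymm (h4 y) hcon, P, hP, hP2, hy⟩))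
  obtain ⟨y2, d2, k2⟩ := e_point C h4 hs
  obtain ⟨y3, d3, k3⟩ := e_point C' h4 hs
  rcases k2 with k2 | k2
  · rcases k3 with k3 | k3
    · -- `abe`, `abf`
      obtain ⟨y, g, dy, hg, hy⟩ := arc_end1 h hz.swap (y1 := y1)
        (hcl _ (by rw [hz.pal]; rintro i (rfl | rfl) <;> simp) (Set.ncard_pair cd))
      rcases C.miss hg with rfl | rfl
      · exact fin2 d3 dy k3 hy
      · exact fin1 d2 dy k2 hy
    · exact fin1 d2 d3 k2 k3
  · rcases k3 with k3 | k3
    · exact fin2 d3 d2 k3 k2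
    · obtain ⟨y, g, dy, hg, hy⟩ := arc_end1 h hz (y1 := y1)
        (hcl _ (by rw [hz.pal]; rintro i (rfl | rfl) <;> simp) (Set.ncard_pair ab))
      rcases C.miss hg with rfl | rfl
      · exact fin1 dy d3 hy k3
      · exact fin2 dy d2 hy k2

end Vale.Agent.P032.H892
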