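import Vale.Agent.P032.H892.Lift

/-!
# P032: symmetries of the events at six-coloured points

`EvA s t` : at some six-coloured point of some frame the state is `s` just before and `t` just after some time.
`EvA.rot`, `EvA.perm` : closed under the turn by 60 degrees and under permutations of the colours.
-/

open Set Filter Topology Metric

noncomputable section

namespace Vale.Agent.P032.H892

open Vale.Agent.P032.Six Vale.Agent.P032.Words Vale.Agent.P032.S5.H767

variable {U : Fin 6 → Set ℂ} {T : ℂ → Set (Fin 6)} {z : ℂ}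

theorem xx_perm (σ : Equiv.Perm (Fin 6)) : XX (fun i => U (σ i)) = XX U := by
  ext x
  constructor
  · intro h i
    have := h (σ.symm i)
    simpa using this
  · intro h i
    exact h (σ i)

theorem mx_perm (h : Mx U) (σ : Equiv.Perm (Fin 6)) : Mx (fun i => U (σ i)) := by
  obtain ⟨h1, h2, h3, h4, C, hC⟩ := h
  refine ⟨fun i => h1 _, ?_, fun i => h3 _, fun i x hx => ?_, fun z => σ ⁻¹' C z, fun z => ?_⟩
  · refine h2.mono ?_
    intro x hx
    obtain ⟨i, hi⟩ := mem_iUnion.1 hx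
    exact mem_iUnion.2 ⟨σ.symm i, by simpa using hi⟩
  · refine h4 (σ i) x fun j hj => ?_
    have h5 : σ.symm j ∈ Pal (fun i => U (σ i)) x := by
      show x ∈ closure (U (σ (σ.symm j)))
      rw [Equiv.apply_symm_apply]; exact hj
    have h6 : σ.symm j = i := hx h5
    rw [mem_singleton_iff, ← h6, Equiv.apply_symm_apply]
  · obtain ⟨c1, c2, c3⟩ := hC z
    refine ⟨fun i hi => c1 hi, ?_, fun hz i hi => ?_⟩
    · filter_upwards [c2] with w hw
      obtain ⟨i, hi, hiw⟩ := hw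
      refine ⟨σ.symm i, ?_, ?_⟩
      · show σ (σ.symm i) ∈ C z
        rw [Equiv.apply_symm_apply]; exact hi
      · show w ∈ closure (U (σ (σ.symm i)))
        rw [Equiv.apply_symm_apply]; exact hiw
    · rw [xx_perm] at hz
      exact c3 hz (σ i) hi

theorem irr_perm (h : Irr U T) (σ : Equiv.Perm (Fin 6)) :
    Irr (fun i => U (σ i)) (fun x => σ ⁻¹' T x) where
  mx := mx_perm h.mx σ
  max := by
    first
      | exact fun i x hx => h.max (σ i) x hx
      | exact fun i x hT hx => h.max (σ i) x (by rwa [xx_perm] at hT) hx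
  closed := fun i => h.closed (σ i)
  ne := fun x => by
    obtain ⟨i, hi⟩ := h.ne x
    exact ⟨σ.symm i, by simpa using hi⟩
  sub := fun x i hi => h.sub x hi
  off := fun x hx i hi => h.off x (by rwa [xx_perm] at hx) (σ i) hi
  pure := fun x i hi => (h.pure x (σ i) hi).mono fun w hw => by
    rw [hw]
    ext j
    simp

theorem ncard_perm (σ : Equiv.Perm (Fin 6)) (s : Set (Fin 6)) : (σ ⁻¹' s).ncard = s.ncard := by
  refine Set.ncard_preimage_of_injective_subset_range σ.injective fun x _ => ?_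
  exact ⟨σ.symm x, σ.apply_symm_apply x⟩

theorem C6.perm (C : C6 U T z) (σ : Equiv.Perm (Fin 6)) :
    C6 (fun i => U (σ i)) (fun x => σ ⁻¹' T x) z where
  irr := irr_perm C.irr σ
  pal := fun i => C.pal (σ i)
  ct := fun i => C.ct (σ i)
  lf := fun u => (C.lf u).mono fun v hv => by rw [ncard_perm]; exact hv
  hp := fun c => C.hp (σ c)

theorem dr_perm (σ : Equiv.Perm (Fin 6)) (c : Fin 6) :
    Dr (fun x => σ ⁻¹' T x) z c = Dr T z (σ c) := rfl

theorem o6_perm (σ : Equiv.Perm (Fin 6)) (l : L6) :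
    O6 (fun i => U (σ i)) (fun x => σ ⁻¹' T x) z l = O6 U T z (σ l.1, σ l.2) := by
  ext u
  have e : (σ ⁻¹' T (pt z u) = {l.1, l.2}) ↔ T (pt z u) = {σ l.1, σ l.2} := by
    constructor
    · intro h
      have : T (pt z u) = σ '' (σ ⁻¹' T (pt z u)) := (σ.image_preimage _).symm
      rw [this, h, Set.image_pair]
    · intro h
      rw [h]
      ext j
      simp
  constructor
  · rintro ⟨h1, h2, h3⟩
    exact ⟨e.1 h1, fun h => h2 (σ.injective h), h3⟩
  · rintro ⟨h1, h2, h3⟩
    exact ⟨e.2 h1, fun h => h2 (congrArg σ h), h3⟩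

/-- relabelling of states -/
def prm (σ : Equiv.Perm (Fin 6)) (s : St6) : St6 :=
  (fun k => (σ (s.1 k).1, σ (s.1 k).2), fun c => s.2 (σ.symm c))

/-- relabelling of lifted states -/
def prmZ (σ : Equiv.Perm (Fin 6)) (s : StZ) : StZ :=
  (fun k => (σ (s.1 k).1, σ (s.1 k).2), fun c => s.2.1 (σ.symm c), fun c => s.2.2 (σ.symm c))

theorem toSt6_prmZ (σ : Equiv.Perm (Fin 6)) (s : StZ) : toSt6 (prmZ σ s) = prm σ (toSt6 s) := rfl

theorem prm_sh6 (σ : Equiv.Perm (Fin 6)) (s : St6) : prm σ (sh6 s) = sh6 (prm σ s) := rfl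

theorem prmZ_shZ (σ : Equiv.Perm (Fin 6)) (s : StZ) : prmZ σ (shZ s) = shZ (prmZ σ s) := rfl

namespace C6

variable (C : C6 U T z)
include C

theorem lr_perm (σ : Equiv.Perm (Fin 6)) (u : ℝ) :
    LR (fun i => U (σ i)) (fun x => σ ⁻¹' T x) z u =
      (σ.symm (LR U T z u).1, σ.symm (LR U T z u).2) := by
  refine (C.perm σ).lr_eq ((C.lr_spec u).mono fun v hv => ?_).frequently
  rw [o6_perm]
  simpa using hv

theorem ll_perm (σ : Equiv.Perm (Fin 6)) (u : ℝ) :
    LL (fun i => U (σ i)) (fun x => σ ⁻¹' T x) z u =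
      (σ.symm (LL U T z u).1, σ.symm (LL U T z u).2) := by
  refine (C.perm σ).ll_eq ((C.ll_spec u).mono fun v hv => ?_).frequently
  rw [o6_perm]
  simpa using hv

theorem zl_perm (σ : Equiv.Perm (Fin 6)) (u : ℝ) :
    ZL (fun i => U (σ i)) (fun x => σ ⁻¹' T x) z u = prmZ σ.symm (ZL U T z u) := by
  refine Prod.ext ?_ (Prod.ext ?_ ?_)
  · funext k; exact C.ll_perm σ _
  · funext c; rfl
  · funext c; rfl

theorem zr_perm (σ : Equiv.Perm (Fin 6)) (u : ℝ) :
    ZR (fun i => U (σ i)) (fun x => σ ⁻¹' T x) z u = prmZ σ.symm (ZR U T z u) := by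
  refine Prod.ext ?_ (Prod.ext ?_ ?_)
  · funext k; exact C.lr_perm σ _
  · funext c; rfl
  · funext c; rfl

end C6

/-- **All events** at six-coloured points -/
def EvA (s t : St6) : Prop :=
  ∃ (U : Fin 6 → Set ℂ) (T : ℂ → Set (Fin 6)) (z : ℂ) (_ : C6 U T z) (u : ℝ),
    SL U T z u = s ∧ SR U T z u = t

/-- **All lifted events** at six-coloured points -/
def EvZ (s t : StZ) : Prop :=
  ∃ (U : Fin 6 → Set ℂ) (T : ℂ → Set (Fin 6)) (z : ℂ) (_ : C6 U T z) (u : ℝ),
    ZL U T z u = s ∧ ZR U T z u = t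

theorem EvZ.eva {s t : StZ} (h : EvZ s t) : EvA (toSt6 s) (toSt6 t) := by
  obtain ⟨U, T, z, C, u, rfl, rfl⟩ := h
  exact ⟨U, T, z, C, u, rfl, rfl⟩

theorem EvZ.rot {s t : StZ} (h : EvZ s t) : EvZ (shZ s) (shZ t) := by
  obtain ⟨U, T, z, C, u, rfl, rfl⟩ := h
  exact ⟨U, T, z, C, u + 1, C.zl_succ u, C.zr_succ u⟩

theorem EvZ.perm {s t : StZ} (h : EvZ s t) (σ : Equiv.Perm (Fin 6)) : EvZ (prmZ σ s) (prmZ σ t) := by
  obtain ⟨U, T, z, C, u, rfl, rfl⟩ := h
  exact ⟨_, _, z, C.perm σ.symm, u, C.zl_perm σ.symm u, C.zr_perm σ.symm u⟩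

theorem EvA.rot {s t : St6} (h : EvA s t) : EvA (sh6 s) (sh6 t) := by
  obtain ⟨U, T, z, C, u, rfl, rfl⟩ := h
  exact ⟨U, T, z, C, u + 1, C.sl_succ u, C.sr_succ u⟩

theorem EvA.perm {s t : St6} (h : EvA s t) (σ : Equiv.Perm (Fin 6)) : EvA (prm σ s) (prm σ t) := by
  obtain ⟨U, T, z, C, u, rfl, rfl⟩ := h
  refine ⟨_, _, z, C.perm σ.symm, u, ?_, ?_⟩
  · have := congrArg toSt6 (C.zl_perm σ.symm u)
    rw [toSt6_prmZ] at this
    exact this
  · have := congrArg toSt6 (C.zr_perm σ.symm u)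
    rw [toSt6_prmZ] at this
    exact this

/-- static facts of an event -/
theorem EvA.stat {s t : St6} (h : EvA s t) : Stat s ∧ Stat t := by
  obtain ⟨U, T, z, C, u, rfl, rfl⟩ := h
  exact ⟨C.stat_L u, C.stat_R u⟩

theorem EvZ.stat {s t : StZ} (h : EvZ s t) :
    OkZ s ∧ OkZ t ∧ StepZ s t ∧ Stat (toSt6 s) ∧ Stat (toSt6 t) := by
  obtain ⟨U, T, z, C, u, rfl, rfl⟩ := h
  exact ⟨C.okZ_L u, C.okZ_R u, stepZ u, C.stat_L u, C.stat_R u⟩

/-- **The loop in terms of `EvZ`**: if no path of events outside `E` leads from a lifted state to its shift, then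
an event of `E` occurs at every six-coloured point. -/
theorem C6.exists_of_paths (C : C6 U T z) {E : StZ → StZ → Prop}
    (hpath : ∀ s, OkZ s → Stat (toSt6 s) →
      ¬ Relation.ReflTransGen (fun s t => EvZ s t ∧ ¬ E s t) s (shZ s)) :
    ∃ u, E (ZL U T z u) (ZR U T z u) := by
  by_contra hcon
  push Not at hcon
  obtain ⟨a, ha⟩ := C.exists_genericZ
  refine hpath (ZR U T z a) (C.okZ_R a) (C.stat_R a) ?_
  exact C.loopZ (I := fun s => Relation.ReflTransGen (fun s t => EvZ s t ∧ ¬ E s t) (ZR U T z a) s)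
    Relation.ReflTransGen.refl ha fun u _ hI => hI.tail ⟨⟨U, T, z, C, u, rfl, rfl⟩, hcon u⟩

/-- **Closure form of the two-class argument** (letters only): if after the event at `u1` the letters are in `V`,
no later event before `u1 + 1` leaves `V`, and the turned word before the event is not in `V`: contradiction.
`p` is the flag `some letter has changed in between`. -/
theorem C6.no_closure (C : C6 U T z) {u1 : ℝ} {V : Prop → (Fin 6 → L6) → Prop}
    (h0 : V False (SR U T z u1).1)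
    (hstep : ∀ u ∈ Ioo u1 (u1 + 1), V (∃ v ∈ Ioo u1 u, Chg U T z v) (SL U T z u).1 →
      V (∃ v ∈ Ioc u1 u, Chg U T z v) (SR U T z u).1)
    (hend : ∀ p, ¬ V p fun k => (SL U T z u1).1 (k + 1)) : False := by
  have key := C.run6f (I := fun x p => V p x.1) (show u1 < u1 + 1 by linarith) h0 hstep
  rw [C.sl_succ] at key
  exact hend _ key

end Vale.Agent.P032.H892
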