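import Vale.Agent.P032.H892.Dir
import Vale.Agent.P032.H684.Side

/-!
# P032: the circle of a six-coloured point as a discrete word with hulls

`C6 U T z` : all six colours are in `T z`, each of them has a continuum through `z` (`Ct`), the points of `S(z)`
with three or more colours are isolated on `S(z)`, and the limit directions of every colour are in a closed half plane.
Angles in units of 60 degrees.  Letters are pairs (inner colour, outer colour).

* `O6 l` : the times of the letter `l`; `LL u`, `LR u` : letters just before and just after a time,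
* `hl D` : the hull `[a, b]`, `b ≤ a + 3`, of the limit directions; `HL`, `HR` : the sectors of its end points just
  before and just after a time, sector `m` = `(u+m+1/2, u+m+3/2)`,
* `SL`, `SR` : states (letters, sectors); `Stat` : static conditions of all states,
* `C6.loop6` : a predicate of states which survives all events holds after a turn by 60 degrees.
-/

open Set Filter Topology Metric

noncomputable section

namespace Vale.Agent.P032.H892

open Vale.Agent.P032.Six Vale.Agent.P032.Words Vale.Agent.P032.S5.H767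

variable {U : Fin 6 → Set ℂ} {T : ℂ → Set (Fin 6)} {z : ℂ}

/-- a six-coloured point in a locally finite frame -/
structure C6 (U : Fin 6 → Set ℂ) (T : ℂ → Set (Fin 6)) (z : ℂ) : Prop where
  irr : Irr U T
  pal : ∀ i, i ∈ T z
  ct : ∀ i, Ct U z i
  lf : ∀ u : ℝ, ∀ᶠ v in 𝓝[≠] u, (T (pt z v)).ncard ≤ 2
  hp : ∀ c, ∃ V : ℝ, ∀ θ ∈ Dr T z c, 0 ≤ Real.cos ((θ - V) * (Real.pi / 3))

/-- letters: inner colour, outer colour -/
abbrev L6 := Fin 6 × Fin 6

/-- the times of a letter -/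
def O6 (U : Fin 6 → Set ℂ) (T : ℂ → Set (Fin 6)) (z : ℂ) (l : L6) : Set ℝ :=
  {u | T (pt z u) = {l.1, l.2} ∧ l.1 ≠ l.2 ∧ Sd U z (pt z u) l.1 l.2}

namespace C6

variable (C : C6 U T z)
include C

theorem two_le {y : ℂ} (hy : dist y z = 1) : ∃ i ∈ T y, ∃ j ∈ T y, i ≠ j := by
  by_contra hcon
  push Not at hcon
  obtain ⟨i, hi⟩ := C.irr.ne y
  have h1 : y ∈ U i := C.irr.mem_of_single fun j hj => (hcon j hj i hi)
  exact C.irr.mx.free i y h1 z (C.irr.sub _ (C.pal i)) hy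

theorem o6_open (l : L6) : IsOpen (O6 U T z l) := by
  rw [isOpen_iff_mem_nhds]
  rintro u ⟨h1, h2, h3⟩
  have h4 := ev_pt z (C.irr.arc_of_pair (C.pal l.1) (C.pal l.2) h1)
  have h5 : ∀ᶠ v in 𝓝 u, Sd U z (pt z v) l.1 l.2 :=
    (continuous_pt z).continuousAt.eventually (Filter.Eventually.eventually_nhds h3)
  filter_upwards [h4, h5] with v hv1 hv2
  exact ⟨hv1, h2, hv2⟩

theorem o6_disj {l m : L6} (hlm : l ≠ m) {u : ℝ} (h1 : u ∈ O6 U T z l) (h2 : u ∈ O6 U T z m) :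
    False := by
  obtain ⟨i, j⟩ := l
  obtain ⟨i', j'⟩ := m
  obtain ⟨a1, a2, a3⟩ := h1
  obtain ⟨b1, b2, b3⟩ := h2
  simp only at a1 a2 a3 b1 b2 b3
  rw [a1] at b1
  have h5 : i = i' ∨ i = j' := by
    have : i ∈ ({i', j'} : Set (Fin 6)) := by rw [← b1]; simp
    simpa using this
  have h6 : j = i' ∨ j = j' := by
    have : j ∈ ({i', j'} : Set (Fin 6)) := by rw [← b1]; simp
    simpa using this
  rcases h5 with rfl | rfl
  · rcases h6 with rfl | rfl
    · exact a2 rfl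
    · exact hlm rfl
  · rcases h6 with rfl | rfl
    · exact C.irr.sd_unique (by rw [a1]; simp) a3 b3
    · exact a2 rfl

theorem o6_of_two {u : ℝ} (h : (T (pt z u)).ncard ≤ 2) : ∃ l, u ∈ O6 U T z l := by
  obtain ⟨i, hi, j, hj, hij⟩ := C.two_le (dist_pt z u)
  have hT : T (pt z u) = {i, j} := by
    symm
    apply Set.eq_of_subset_of_ncard_le
    · intro m hm
      rcases hm with rfl | hm
      · exact hi
      · rw [mem_singleton_iff.1 hm]; exact hj
    · rw [Set.ncard_pair hij]; exact h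
    · exact Set.toFinite _
  rcases C.irr.sides_of_sided (dist_pt z u) hT.le (C.irr.mx.sided_of_ct (C.ct i))
    (C.irr.mx.sided_of_ct (C.ct j)) with h1 | h1
  · exact ⟨(i, j), hT, hij, h1⟩
  · exact ⟨(j, i), by rw [hT, pair_comm], hij.symm, h1⟩

theorem o6_of_pre {s : Set ℝ} (hs : IsPreconnected s) (hne : s.Nonempty)
    (h : ∀ u ∈ s, ∃ l, u ∈ O6 U T z l) : ∃ l, s ⊆ O6 U T z l := by
  obtain ⟨x, hx⟩ := hne
  obtain ⟨l, hl⟩ := h x hx
  refine ⟨l, ?_⟩
  refine IsPreconnected.subset_left_of_subset_union (C.o6_open l)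
    (isOpen_iUnion fun m => isOpen_iUnion fun _ : m ≠ l => C.o6_open m) ?_ ?_ ⟨x, hx, hl⟩ hs
  · rw [Set.disjoint_left]
    intro u h1 h2
    simp only [mem_iUnion] at h2
    obtain ⟨m, hm, h3⟩ := h2
    exact C.o6_disj hm h3 h1
  · intro u hu
    obtain ⟨m, hm⟩ := h u hu
    by_cases hml : m = l
    · subst hml; exact Or.inl hm
    · exact Or.inr (by simp only [mem_iUnion]; exact ⟨m, hml, hm⟩)

theorem exists_R (u : ℝ) : ∃ l, ∀ᶠ v in 𝓝[>] u, v ∈ O6 U T z l := by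
  have h1 : ∀ᶠ v in 𝓝[>] u, (T (pt z v)).ncard ≤ 2 :=
    (C.lf u).filter_mono (nhdsWithin_mono _ fun x hx => ne_of_gt hx)
  obtain ⟨w, hw, hs⟩ := (mem_nhdsGT_iff_exists_Ioo_subset (a := u)).1 h1
  obtain ⟨l, hl⟩ := C.o6_of_pre isPreconnected_Ioo (nonempty_Ioo.2 hw) fun v hv => C.o6_of_two (hs hv)
  exact ⟨l, mem_of_superset (Ioo_mem_nhdsGT hw) hl⟩

theorem exists_L (u : ℝ) : ∃ l, ∀ᶠ v in 𝓝[<] u, v ∈ O6 U T z l := by
  have h1 : ∀ᶠ v in 𝓝[<] u, (T (pt z v)).ncard ≤ 2 :=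
    (C.lf u).filter_mono (nhdsWithin_mono _ fun x hx => ne_of_lt hx)
  obtain ⟨w, hw, hs⟩ := (mem_nhdsLT_iff_exists_Ioo_subset (a := u)).1 h1
  obtain ⟨l, hl⟩ := C.o6_of_pre isPreconnected_Ioo (nonempty_Ioo.2 hw) fun v hv => C.o6_of_two (hs hv)
  exact ⟨l, mem_of_superset (Ioo_mem_nhdsLT hw) hl⟩

end C6

/-! ### hulls -/

/-- `[a, b]` is the hull of the periodic set `D` -/
structure IsHull (D : Set ℝ) (a b : ℝ) : Prop where
  left : a ∈ D
  right : b ∈ D
  le : a ≤ b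
  len : b ≤ a + 3
  sub : ∀ θ ∈ D, ∃ n : ℤ, a ≤ θ + 6 * n ∧ θ + 6 * n ≤ b

theorem cos_pos6 {t : ℝ} {n : ℤ} (h1 : 6 * n - 3 / 2 < t) (h2 : t < 6 * n + 3 / 2) :
    0 < Real.cos (t * (Real.pi / 3)) := by
  have e : Real.cos (t * (Real.pi / 3)) = Real.cos ((t - 6 * n) * (Real.pi / 3)) := by
    have : t * (Real.pi / 3) = (t - 6 * n) * (Real.pi / 3) + n * (2 * Real.pi) := by ring
    rw [this, Real.cos_add_int_mul_two_pi]
  rw [e]
  have hpi := Real.pi_pos
  refine Real.cos_pos_of_mem_Ioo ⟨?_, ?_⟩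
  · nlinarith
  · nlinarith

theorem cos_neg6 {t : ℝ} {n : ℤ} (h1 : 6 * n + 3 / 2 < t) (h2 : t < 6 * n + 9 / 2) :
    Real.cos (t * (Real.pi / 3)) < 0 := by
  have h := cos_pos6 (t := t - 3) (n := n) (by linarith) (by linarith)
  have e : (t - 3) * (Real.pi / 3) = t * (Real.pi / 3) - Real.pi := by ring
  rw [e, Real.cos_sub_pi] at h
  linarith

/-- angles with nonnegative cosine -/
theorem exists_of_cos {t : ℝ} (h : 0 ≤ Real.cos (t * (Real.pi / 3))) :
    ∃ n : ℤ, -(3 / 2) ≤ t + 6 * n ∧ t + 6 * n ≤ 3 / 2 := by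
  refine ⟨-⌊(t + 3 / 2) / 6⌋, ?_⟩
  have h1 := Int.floor_le ((t + 3 / 2) / 6)
  have h2 := Int.lt_floor_add_one ((t + 3 / 2) / 6)
  set n := ⌊(t + 3 / 2) / 6⌋ with hn
  push_cast
  refine ⟨by linarith, ?_⟩
  by_contra hcon
  push Not at hcon
  exact absurd h (not_le.2 (cos_neg6 (n := n) (by linarith) (by linarith)))

theorem exists_hull {D : Set ℝ} (hD : IsClosed D) (hne : D.Nonempty)
    (hper : ∀ θ : ℝ, ∀ n : ℤ, θ + 6 * n ∈ D ↔ θ ∈ D) {V : ℝ}
    (hV : ∀ θ ∈ D, 0 ≤ Real.cos ((θ - V) * (Real.pi / 3))) : ∃ p : ℝ × ℝ, IsHull D p.1 p.2 := by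
  have key : ∀ θ ∈ D, ∃ n : ℤ, θ + 6 * n ∈ D ∩ Icc (V - 3 / 2) (V + 3 / 2) := by
    intro θ hθ
    obtain ⟨n, h1, h2⟩ := exists_of_cos (hV θ hθ)
    exact ⟨n, (hper θ n).2 hθ, by linarith, by linarith⟩
  have hc : IsCompact (D ∩ Icc (V - 3 / 2) (V + 3 / 2)) := isCompact_Icc.inter_left hD
  obtain ⟨x, hx⟩ := hne
  obtain ⟨n0, hn0⟩ := key x hx
  have hK : (D ∩ Icc (V - 3 / 2) (V + 3 / 2)).Nonempty := ⟨_, hn0⟩
  obtain ⟨a, ha, ha2⟩ := hc.exists_isLeast hK
  obtain ⟨b, hb, hb2⟩ := hc.exists_isGreatest hK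
  refine ⟨(a, b), ha.1, hb.1, ha2 hb, by linarith [ha.2.1, hb.2.2], fun θ hθ => ?_⟩
  obtain ⟨n, hn⟩ := key θ hθ
  exact ⟨n, ha2 hn, hb2 hn⟩

open Classical in
/-- the hull -/
def hl (D : Set ℝ) : ℝ × ℝ := if h : ∃ p : ℝ × ℝ, IsHull D p.1 p.2 then h.choose else (0, 0)

/-- integers modulo six -/
def m6 (n : ℤ) : Fin 6 := ⟨(n % 6).toNat, by
  have h1 := Int.emod_nonneg n (by norm_num : (6 : ℤ) ≠ 0)
  have h2 := Int.emod_lt_of_pos n (by norm_num : (0 : ℤ) < 6)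
  omega⟩

theorem m6_val (n : ℤ) : ((m6 n).val : ℤ) = n % 6 := by
  have h1 := Int.emod_nonneg n (by norm_num : (6 : ℤ) ≠ 0)
  show ((n % 6).toNat : ℤ) = n % 6
  omega

theorem m6_of {n : ℤ} {k : Fin 6} (h : (n - k.val) % 6 = 0) : m6 n = k := by
  apply Fin.ext
  have h1 := m6_val n
  have h2 := k.isLt
  omega

theorem m6_add (n : ℤ) (j : ℕ) (hj : j < 6) : m6 (n + j) = m6 n + ⟨j, hj⟩ := by
  apply m6_of
  have h1 := m6_val n
  rw [Fin.val_add]
  push_cast
  rw [h1]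
  omega

theorem m6_sub_one (n : ℤ) : m6 (n - 1) = m6 n - 1 := by
  have h := m6_add (n - 1) 1 (by norm_num)
  have e : (n - 1 : ℤ) + (1 : ℕ) = n := by push_cast; ring
  rw [e] at h
  rw [h]
  exact (add_sub_cancel_right _ _).symm

/-- sectors of the two end points of a hull: the first one modulo six, and their difference -/
abbrev Hu := Fin 6 × Fin 4

/-- coding of the sectors -/
def enc (p q : ℤ) : Hu := (m6 p, ⟨min (q - p).toNat 3, by omega⟩)

section
variable (U T z)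

/-- sectors of the hull of the colour `c` just before `u` -/
def HL (u : ℝ) (c : Fin 6) : Hu :=
  enc ⌊(hl (Dr T z c)).1 - 1 / 2 - u⌋ ⌊(hl (Dr T z c)).2 - 1 / 2 - u⌋

/-- sectors of the hull of the colour `c` just after `u` -/
def HR (u : ℝ) (c : Fin 6) : Hu :=
  enc (⌈(hl (Dr T z c)).1 - 1 / 2 - u⌉ - 1) (⌈(hl (Dr T z c)).2 - 1 / 2 - u⌉ - 1)

end

theorem ev_sub {u : ℝ} {F : Filter ℝ} (hF : F ≤ 𝓝 u) {p : ℝ → Prop} (h : ∀ᶠ v in 𝓝 u, p v) :
    ∀ᶠ v in F, p v := h.filter_mono hF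

theorem fl_left (x u : ℝ) : ∀ᶠ v in 𝓝[<] u, ⌊x - v⌋ = ⌊x - u⌋ ∧ ⌈x - v⌉ - 1 = ⌊x - u⌋ := by
  have h1 := Int.floor_le (x - u)
  have h2 := Int.lt_floor_add_one (x - u)
  have h3 : ∀ᶠ v in 𝓝[<] u, x - ⌊x - u⌋ - 1 < v :=
    ev_sub nhdsWithin_le_nhds (Ioi_mem_nhds (by linarith))
  filter_upwards [h3, self_mem_nhdsWithin] with v h4 h5
  have h5 : v < u := h5
  refine ⟨?_, ?_⟩
  · rw [Int.floor_eq_iff]
    constructor <;> linarith
  · have : ⌈x - v⌉ = ⌊x - u⌋ + 1 := by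
      rw [Int.ceil_eq_iff]
      push_cast
      constructor <;> linarith
    rw [this]; ring

theorem fl_right (x u : ℝ) : ∀ᶠ v in 𝓝[>] u, ⌊x - v⌋ = ⌈x - u⌉ - 1 ∧ ⌈x - v⌉ - 1 = ⌈x - u⌉ - 1 := by
  have h1 := Int.le_ceil (x - u)
  have h2 := Int.ceil_lt_add_one (x - u)
  have h3 : ∀ᶠ v in 𝓝[>] u, v < x - ⌈x - u⌉ + 1 :=
    ev_sub nhdsWithin_le_nhds (Iio_mem_nhds (by linarith))
  filter_upwards [h3, self_mem_nhdsWithin] with v h4 h5
  have h5 : u < v := h5
  refine ⟨?_, ?_⟩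
  · rw [Int.floor_eq_iff]
    push_cast
    constructor <;> linarith
  · have : ⌈x - v⌉ = ⌈x - u⌉ := by
      rw [Int.ceil_eq_iff]
      constructor <;> linarith
    rw [this]

theorem ev_hl (T : ℂ → Set (Fin 6)) (z : ℂ) (u : ℝ) :
    ∀ᶠ v in 𝓝[<] u, HL T z v = HL T z u ∧ HR T z v = HL T z u := by
  have key : ∀ c : Fin 6, ∀ᶠ v in 𝓝[<] u, HL T z v c = HL T z u c ∧ HR T z v c = HL T z u c := by
    intro c
    filter_upwards [fl_left ((hl (Dr T z c)).1 - 1 / 2) u, fl_left ((hl (Dr T z c)).2 - 1 / 2) u]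
      with v h1 h2
    unfold HL HR
    rw [h1.1, h2.1, h1.2, h2.2]
    exact ⟨rfl, rfl⟩
  have h2 : ∀ᶠ v in 𝓝[<] u, ∀ c : Fin 6, HL T z v c = HL T z u c ∧ HR T z v c = HL T z u c := by
    rw [eventually_all]; exact key
  filter_upwards [h2] with v hv
  exact ⟨funext fun c => (hv c).1, funext fun c => (hv c).2⟩

theorem ev_hr (T : ℂ → Set (Fin 6)) (z : ℂ) (u : ℝ) :
    ∀ᶠ v in 𝓝[>] u, HL T z v = HR T z u ∧ HR T z v = HR T z u := by
  have key : ∀ c : Fin 6, ∀ᶠ v in 𝓝[>] u, HL T z v c = HR T z u c ∧ HR T z v c = HR T z u c := by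
    intro c
    filter_upwards [fl_right ((hl (Dr T z c)).1 - 1 / 2) u, fl_right ((hl (Dr T z c)).2 - 1 / 2) u]
      with v h1 h2
    unfold HL HR
    rw [h1.1, h2.1, h1.2, h2.2]
    exact ⟨rfl, rfl⟩
  have h2 : ∀ᶠ v in 𝓝[>] u, ∀ c : Fin 6, HL T z v c = HR T z u c ∧ HR T z v c = HR T z u c := by
    rw [eventually_all]; exact key
  filter_upwards [h2] with v hv
  exact ⟨funext fun c => (hv c).1, funext fun c => (hv c).2⟩

/-- shift of the sectors -/
def shH (h : Hu) : Hu := (h.1 - 1, h.2)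

theorem enc_sub (p q : ℤ) : enc (p - 1) (q - 1) = shH (enc p q) := by
  unfold enc shH
  refine Prod.ext (m6_sub_one p) ?_
  apply Fin.ext
  show min (q - 1 - (p - 1)).toNat 3 = min (q - p).toNat 3
  congr 2; ring

theorem hl_succ (T : ℂ → Set (Fin 6)) (z : ℂ) (u : ℝ) (c : Fin 6) :
    HL T z (u + 1) c = shH (HL T z u c) := by
  unfold HL
  rw [← enc_sub]
  have e : ∀ x : ℝ, ⌊x - 1 / 2 - (u + 1)⌋ = ⌊x - 1 / 2 - u⌋ - 1 := by
    intro x
    have : x - 1 / 2 - (u + 1) = x - 1 / 2 - u - 1 := by ring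
    rw [this, Int.floor_sub_one]
  rw [e, e]

theorem hr_succ (T : ℂ → Set (Fin 6)) (z : ℂ) (u : ℝ) (c : Fin 6) :
    HR T z (u + 1) c = shH (HR T z u c) := by
  unfold HR
  rw [← enc_sub]
  have e : ∀ x : ℝ, ⌈x - 1 / 2 - (u + 1)⌉ = ⌈x - 1 / 2 - u⌉ - 1 := by
    intro x
    have : x - 1 / 2 - (u + 1) = x - 1 / 2 - u - 1 := by ring
    rw [this, Int.ceil_sub_one]
  rw [e, e]

/-! ### letters at and near a time -/

section
variable (U T z)

open Classical in
/-- the letter just after `u` -/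
def LR (u : ℝ) : L6 := if h : ∃ l, ∀ᶠ v in 𝓝[>] u, v ∈ O6 U T z l then h.choose else (0, 0)

open Classical in
/-- the letter just before `u` -/
def LL (u : ℝ) : L6 := if h : ∃ l, ∀ᶠ v in 𝓝[<] u, v ∈ O6 U T z l then h.choose else (0, 0)

end

/-- states: letters at the six positions, sectors of the hulls of the six colours -/
abbrev St6 := (Fin 6 → L6) × (Fin 6 → Hu)

section
variable (U T z)

/-- the state just after `u` -/
def SR (u : ℝ) : St6 := (fun k => LR U T z (u + k.val), HR T z u)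

/-- the state just before `u` -/
def SL (u : ℝ) : St6 := (fun k => LL U T z (u + k.val), HL T z u)

end

/-- turn by 60 degrees -/
def sh6 (s : St6) : St6 := (fun k => s.1 (k + 1), fun c => shH (s.2 c))

namespace C6

variable (C : C6 U T z)
include C

theorem lr_spec (u : ℝ) : ∀ᶠ v in 𝓝[>] u, v ∈ O6 U T z (LR U T z u) := by
  have h := C.exists_R u
  have e : LR U T z u = h.choose := by unfold LR; rw [dif_pos h]
  rw [e]; exact h.choose_spec

theorem ll_spec (u : ℝ) : ∀ᶠ v in 𝓝[<] u, v ∈ O6 U T z (LL U T z u) := by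
  have h := C.exists_L u
  have e : LL U T z u = h.choose := by unfold LL; rw [dif_pos h]
  rw [e]; exact h.choose_spec

theorem lr_eq {u : ℝ} {l : L6} (h : ∃ᶠ v in 𝓝[>] u, v ∈ O6 U T z l) : LR U T z u = l := by
  by_contra hne
  obtain ⟨v, h1, h2⟩ := (h.and_eventually (C.lr_spec u)).exists
  exact C.o6_disj hne h2 h1

theorem ll_eq {u : ℝ} {l : L6} (h : ∃ᶠ v in 𝓝[<] u, v ∈ O6 U T z l) : LL U T z u = l := by
  by_contra hne
  obtain ⟨v, h1, h2⟩ := (h.and_eventually (C.ll_spec u)).exists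
  exact C.o6_disj hne h2 h1

theorem lr_of_mem {u : ℝ} {l : L6} (h : u ∈ O6 U T z l) : LR U T z u = l :=
  C.lr_eq (((C.o6_open l).mem_nhds h |> fun k => ev_sub nhdsWithin_le_nhds k).frequently)

theorem ll_of_mem {u : ℝ} {l : L6} (h : u ∈ O6 U T z l) : LL U T z u = l :=
  C.ll_eq (((C.o6_open l).mem_nhds h |> fun k => ev_sub nhdsWithin_le_nhds k).frequently)

omit C in
theorem o6_six {u : ℝ} {l : L6} : u + 6 ∈ O6 U T z l ↔ u ∈ O6 U T z l := by
  unfold O6
  simp only [mem_ofPred_eq, pt_six]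

omit C in
theorem tendsto_add_right (u : ℝ) : Tendsto (fun v : ℝ => v + 6) (𝓝[>] u) (𝓝[>] (u + 6)) := by
  refine tendsto_nhdsWithin_iff.2 ⟨?_, ?_⟩
  · exact ((by fun_prop : Continuous fun v : ℝ => v + 6).tendsto u).mono_left nhdsWithin_le_nhds
  · filter_upwards [self_mem_nhdsWithin] with v hv
    have hv : u < v := hv
    show u + 6 < v + 6
    linarith

omit C in
theorem tendsto_add_left (u : ℝ) : Tendsto (fun v : ℝ => v + 6) (𝓝[<] u) (𝓝[<] (u + 6)) := by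
  refine tendsto_nhdsWithin_iff.2 ⟨?_, ?_⟩
  · exact ((by fun_prop : Continuous fun v : ℝ => v + 6).tendsto u).mono_left nhdsWithin_le_nhds
  · filter_upwards [self_mem_nhdsWithin] with v hv
    have hv : v < u := hv
    show v + 6 < u + 6
    linarith

theorem lr_six (u : ℝ) : LR U T z (u + 6) = LR U T z u :=
  (C.lr_eq (((tendsto_add_right u).eventually (C.lr_spec (u + 6))).mono fun _ hv =>
    o6_six.1 hv).frequently).symm

theorem ll_six (u : ℝ) : LL U T z (u + 6) = LL U T z u :=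
  (C.ll_eq (((tendsto_add_left u).eventually (C.ll_spec (u + 6))).mono fun _ hv =>
    o6_six.1 hv).frequently).symm

/-- the real angle of the next position -/
theorem lr_succ (u : ℝ) (k : Fin 6) : LR U T z (u + ((k + 1).val : ℝ)) = LR U T z (u + 1 + (k.val : ℝ)) := by
  by_cases hk : k = 5
  · subst hk
    have h1 : ((5 : Fin 6) + 1).val = 0 := rfl
    have h2 : (5 : Fin 6).val = 5 := rfl
    rw [h1, h2]
    have : u + 1 + ((5 : ℕ) : ℝ) = (u + ((0 : ℕ) : ℝ)) + 6 := by push_cast; ring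
    rw [this, C.lr_six]
  · have h1 : (k + 1).val = k.val + 1 := by
      have : k.val ≠ 5 := fun h => hk (Fin.ext h)
      have h6 := k.isLt
      rw [Fin.val_add_one_of_lt]
      rw [Fin.lt_def]
      show k.val < 5
      omega
    rw [h1]
    congr 1
    push_cast; ring

theorem ll_succ (u : ℝ) (k : Fin 6) : LL U T z (u + ((k + 1).val : ℝ)) = LL U T z (u + 1 + (k.val : ℝ)) := by
  by_cases hk : k = 5
  · subst hk
    have h1 : ((5 : Fin 6) + 1).val = 0 := rfl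
    have h2 : (5 : Fin 6).val = 5 := rfl
    rw [h1, h2]
    have : u + 1 + ((5 : ℕ) : ℝ) = (u + ((0 : ℕ) : ℝ)) + 6 := by push_cast; ring
    rw [this, C.ll_six]
  · have h1 : (k + 1).val = k.val + 1 := by
      have : k.val ≠ 5 := fun h => hk (Fin.ext h)
      have h6 := k.isLt
      rw [Fin.val_add_one_of_lt]
      rw [Fin.lt_def]
      show k.val < 5
      omega
    rw [h1]
    congr 1
    push_cast; ring

theorem sl_succ (u : ℝ) : SL U T z (u + 1) = sh6 (SL U T z u) := by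
  unfold SL sh6
  refine Prod.ext ?_ ?_
  · funext k
    exact (C.ll_succ u k).symm
  · funext c
    exact hl_succ T z u c

theorem sr_succ (u : ℝ) : SR U T z (u + 1) = sh6 (SR U T z u) := by
  unfold SR sh6
  refine Prod.ext ?_ ?_
  · funext k
    exact (C.lr_succ u k).symm
  · funext c
    exact hr_succ T z u c

/-- the state at a time, an arbitrary choice at special times -/
theorem ev_right (u : ℝ) : ∀ᶠ v in 𝓝[>] u, SR U T z v = SR U T z u ∧ SL U T z v = SR U T z u := by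
  have h1 : ∀ᶠ v in 𝓝[>] u, ∀ k : Fin 6, v + (k.val : ℝ) ∈ O6 U T z (LR U T z (u + (k.val : ℝ))) := by
    rw [eventually_all]
    intro k
    have ht : Tendsto (fun v : ℝ => v + (k.val : ℝ)) (𝓝[>] u) (𝓝[>] (u + (k.val : ℝ))) := by
      refine tendsto_nhdsWithin_iff.2 ⟨?_, ?_⟩
      · exact ((by fun_prop : Continuous fun v : ℝ => v + (k.val : ℝ)).tendsto u).mono_left
          nhdsWithin_le_nhds
      · filter_upwards [self_mem_nhdsWithin] with v hv
        have hv : u < v := hv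
        show u + (k.val : ℝ) < v + (k.val : ℝ)
        linarith
    exact ht.eventually (C.lr_spec _)
  filter_upwards [h1, ev_hr T z u] with v hv1 hv2
  refine ⟨Prod.ext ?_ hv2.2, Prod.ext ?_ hv2.1⟩
  · funext k; exact C.lr_of_mem (hv1 k)
  · funext k; exact C.ll_of_mem (hv1 k)

theorem ev_left (u : ℝ) : ∀ᶠ v in 𝓝[<] u, SR U T z v = SL U T z u ∧ SL U T z v = SL U T z u := by
  have h1 : ∀ᶠ v in 𝓝[<] u, ∀ k : Fin 6, v + (k.val : ℝ) ∈ O6 U T z (LL U T z (u + (k.val : ℝ))) := by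
    rw [eventually_all]
    intro k
    have ht : Tendsto (fun v : ℝ => v + (k.val : ℝ)) (𝓝[<] u) (𝓝[<] (u + (k.val : ℝ))) := by
      refine tendsto_nhdsWithin_iff.2 ⟨?_, ?_⟩
      · exact ((by fun_prop : Continuous fun v : ℝ => v + (k.val : ℝ)).tendsto u).mono_left
          nhdsWithin_le_nhds
      · filter_upwards [self_mem_nhdsWithin] with v hv
        have hv : v < u := hv
        show v + (k.val : ℝ) < u + (k.val : ℝ)
        linarith
    exact ht.eventually (C.ll_spec _)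
  filter_upwards [h1, ev_hl T z u] with v hv1 hv2
  refine ⟨Prod.ext ?_ hv2.2, Prod.ext ?_ hv2.1⟩
  · funext k; exact C.lr_of_mem (hv1 k)
  · funext k; exact C.ll_of_mem (hv1 k)

/-- **Induction over an interval of times.** -/
theorem run6 {I : St6 → Prop} {a b : ℝ} (hab : a < b) (h0 : I (SR U T z a))
    (hstep : ∀ u ∈ Ioo a b, I (SL U T z u) → I (SR U T z u)) : I (SL U T z b) := by
  have key := run (J := Empty) (Λ := Unit) (X := fun _ _ => univ) (s := fun v => SR U T z v)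
    (sl := fun v => SL U T z v) (sr := fun v => SR U T z v) (I := fun _ s => I s) hab
    (fun u _ => (C.ev_left u).mono fun v hv => hv.1) (fun u _ => (C.ev_right u).mono fun v hv => hv.1)
    (fun _ _ => h0) (fun u hu h1 _ _ => hstep u hu (h1 (fun e => e.elim) ?_)) (fun e => e.elim) ?_
  · exact key
  · exact (Eventually.of_forall fun v j => j.elim).frequently
  · exact (Eventually.of_forall fun v j => j.elim).frequently

/-- **The turn by 60 degrees.** -/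
theorem loop6 {I : St6 → Prop} {a : ℝ} (h0 : I (SR U T z a)) (ha : SL U T z a = SR U T z a)
    (hstep : ∀ u ∈ Ioo a (a + 1), I (SL U T z u) → I (SR U T z u)) : I (sh6 (SR U T z a)) := by
  have := C.run6 (b := a + 1) (by linarith) h0 hstep
  rwa [C.sl_succ, ha] at this

/-- there are generic times -/
theorem exists_generic6 : ∃ a, SL U T z a = SR U T z a := by
  obtain ⟨v, hv⟩ := (C.ev_right 0).exists
  exact ⟨v, by rw [hv.1, hv.2]⟩

theorem dir_in {u θ : ℝ} {l : L6} (hu : u ∈ O6 U T z l) (hθ : θ ∈ Dr T z l.1) :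
    0 ≤ Real.cos ((θ - u) * (Real.pi / 3)) := by
  have harc : Arc T z (pt z u) {l.1, l.2} :=
    ⟨dist_pt z u, C.irr.arc_of_pair (C.pal l.1) (C.pal l.2) hu.1⟩
  exact dr_in C.irr hθ ((C.irr.sd_center harc hu.2.2).mono fun x hx => hx.1)

theorem dir_out {u θ : ℝ} {l : L6} (hu : u ∈ O6 U T z l) (hθ : θ ∈ Dr T z l.2) :
    Real.cos ((θ - u) * (Real.pi / 3)) ≤ 0 := by
  have harc : Arc T z (pt z u) {l.1, l.2} :=
    ⟨dist_pt z u, C.irr.arc_of_pair (C.pal l.1) (C.pal l.2) hu.1⟩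
  exact dr_out C.irr hθ ((C.irr.sd_center harc hu.2.2).mono fun x hx => hx.2)

/-- **Half planes** before `u` -/
theorem dir_L_in {u θ : ℝ} (hθ : θ ∈ Dr T z (LL U T z u).1) : 0 ≤ Real.cos ((θ - u) * (Real.pi / 3)) := by
  have h1 : ∀ᶠ v in 𝓝[<] u, 0 ≤ Real.cos ((θ - v) * (Real.pi / 3)) :=
    (C.ll_spec u).mono fun v hv => C.dir_in hv hθ
  exact ge_of_tendsto (((by fun_prop : Continuous fun v : ℝ =>
    Real.cos ((θ - v) * (Real.pi / 3))).tendsto u).mono_left nhdsWithin_le_nhds) h1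

theorem dir_R_in {u θ : ℝ} (hθ : θ ∈ Dr T z (LR U T z u).1) : 0 ≤ Real.cos ((θ - u) * (Real.pi / 3)) := by
  have h1 : ∀ᶠ v in 𝓝[>] u, 0 ≤ Real.cos ((θ - v) * (Real.pi / 3)) :=
    (C.lr_spec u).mono fun v hv => C.dir_in hv hθ
  exact ge_of_tendsto (((by fun_prop : Continuous fun v : ℝ =>
    Real.cos ((θ - v) * (Real.pi / 3))).tendsto u).mono_left nhdsWithin_le_nhds) h1

theorem dir_L_out {u θ : ℝ} (hθ : θ ∈ Dr T z (LL U T z u).2) : Real.cos ((θ - u) * (Real.pi / 3)) ≤ 0 := by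
  have h1 : ∀ᶠ v in 𝓝[<] u, Real.cos ((θ - v) * (Real.pi / 3)) ≤ 0 :=
    (C.ll_spec u).mono fun v hv => C.dir_out hv hθ
  exact le_of_tendsto (((by fun_prop : Continuous fun v : ℝ =>
    Real.cos ((θ - v) * (Real.pi / 3))).tendsto u).mono_left nhdsWithin_le_nhds) h1

theorem dir_R_out {u θ : ℝ} (hθ : θ ∈ Dr T z (LR U T z u).2) : Real.cos ((θ - u) * (Real.pi / 3)) ≤ 0 := by
  have h1 : ∀ᶠ v in 𝓝[>] u, Real.cos ((θ - v) * (Real.pi / 3)) ≤ 0 :=
    (C.lr_spec u).mono fun v hv => C.dir_out hv hθ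
  exact le_of_tendsto (((by fun_prop : Continuous fun v : ℝ =>
    Real.cos ((θ - v) * (Real.pi / 3))).tendsto u).mono_left nhdsWithin_le_nhds) h1

/-- the hull of a colour -/
theorem hull (c : Fin 6) : IsHull (Dr T z c) (hl (Dr T z c)).1 (hl (Dr T z c)).2 := by
  obtain ⟨d, hd⟩ : ∃ d : Fin 6, d ≠ c := exists_ne c
  obtain ⟨θ, hθ⟩ := dr_nonempty C.irr (C.pal c) (C.pal d) hd
  obtain ⟨V, hV⟩ := C.hp c
  have h := exists_hull (dr_closed T z c) ⟨θ, hθ⟩ (fun θ n => dr_per_int T z c θ n) hV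
  have e : hl (Dr T z c) = h.choose := by unfold hl; rw [dif_pos h]
  rw [e]; exact h.choose_spec

end C6

/-- the sectors of an inner letter at the position `k` -/
def okIn (k : Fin 6) (h : Hu) : Prop :=
  (h.1 = k ∨ h.1 + 1 = k ∨ h.1 + 2 = k) ∧
    (h.1 + h.2.castLE (by norm_num) = k ∨ h.1 + h.2.castLE (by norm_num) + 1 = k ∨
      h.1 + h.2.castLE (by norm_num) + 2 = k)

/-- the sectors of an outer letter at the position `k` -/
def okOut (k : Fin 6) (h : Hu) : Prop :=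
  (h.1 = k + 1 ∨ h.1 = k + 2 ∨ h.1 = k + 3) ∧
    (h.1 + h.2.castLE (by norm_num) = k + 1 ∨ h.1 + h.2.castLE (by norm_num) = k + 2 ∨
      h.1 + h.2.castLE (by norm_num) = k + 3)

/-- the ray `m + 1` is inside the hull: the sectors `m` and `m + 1` are between the sectors of the end points -/
def rayIn (m : Fin 6) (h : Hu) : Prop := (m - h.1).val < h.2.val

instance (k : Fin 6) (h : Hu) : Decidable (okIn k h) := by unfold okIn; infer_instance
instance (k : Fin 6) (h : Hu) : Decidable (okOut k h) := by unfold okOut; infer_instance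
instance (m : Fin 6) (h : Hu) : Decidable (rayIn m h) := by unfold rayIn; infer_instance

/-- the static conditions of a state -/
structure Stat (s : St6) : Prop where
  two : ∀ k, (s.1 k).1 ≠ (s.1 k).2
  sixty : ∀ k, (s.1 k).1 ≠ (s.1 (k + 1)).1 ∧ (s.1 k).1 ≠ (s.1 (k + 1)).2 ∧
    (s.1 k).2 ≠ (s.1 (k + 1)).1 ∧ (s.1 k).2 ≠ (s.1 (k + 1)).2
  win_in : ∀ k, okIn k (s.2 (s.1 k).1)
  win_out : ∀ k, okOut k (s.2 (s.1 k).2)
  ray : ∀ m, ∃ c, rayIn m (s.2 c)

theorem comb_in : ∀ k m : Fin 6, ¬ (1 ≤ (m.val : ℤ) - k.val ∧ (m.val : ℤ) - k.val ≤ 3) →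
    ¬ (-5 ≤ (m.val : ℤ) - k.val ∧ (m.val : ℤ) - k.val ≤ -3) → m = k ∨ m + 1 = k ∨ m + 2 = k := by
  decide

theorem comb_out : ∀ k m : Fin 6, ¬ (-2 ≤ (m.val : ℤ) - k.val ∧ (m.val : ℤ) - k.val ≤ 0) →
    ¬ (4 ≤ (m.val : ℤ) - k.val ∧ (m.val : ℤ) - k.val ≤ 6) → m = k + 1 ∨ m = k + 2 ∨ m = k + 3 := by
  decide

/-- the sector before `u` of a point where the cosine is nonnegative -/
theorem sec_in {x u : ℝ} {k : Fin 6}
    (h : ∀ᶠ v in 𝓝[<] (u + (k.val : ℝ)), 0 ≤ Real.cos ((x - v) * (Real.pi / 3))) :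
    m6 ⌊x - 1 / 2 - u⌋ = k ∨ m6 ⌊x - 1 / 2 - u⌋ + 1 = k ∨ m6 ⌊x - 1 / 2 - u⌋ + 2 = k := by
  set p := ⌊x - 1 / 2 - u⌋ with hp
  have h2 := Int.floor_le (x - 1 / 2 - u)
  have h3 := Int.lt_floor_add_one (x - 1 / 2 - u)
  rw [← hp] at h2 h3
  have h6 : ∀ᶠ v in 𝓝[<] (u + (k.val : ℝ)), x - p - 3 / 2 + k.val < v :=
    ev_sub nhdsWithin_le_nhds (Ioi_mem_nhds (by linarith))
  obtain ⟨v, hv1, hv2, hv3⟩ := (h.and (h6.and self_mem_nhdsWithin)).exists
  have hv3 : v < u + (k.val : ℝ) := hv3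
  have key : ∀ n : ℤ, ¬ (6 * n + 1 ≤ p - k.val ∧ p - k.val ≤ 6 * n + 3) := by
    rintro n ⟨a, b⟩
    have a' : (6 * n + 1 : ℝ) ≤ p - k.val := by exact_mod_cast a
    have b' : (p : ℝ) - k.val ≤ 6 * n + 3 := by exact_mod_cast b
    exact absurd hv1 (not_le.2 (cos_neg6 (n := n) (by linarith) (by linarith)))
  have hm := m6_val p
  have hd := Int.emod_add_mul_ediv p 6
  refine comb_in k (m6 p) ?_ ?_
  · have := key (p / 6); omega
  · have := key (p / 6 - 1); omega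

theorem sec_out {x u : ℝ} {k : Fin 6}
    (h : ∀ᶠ v in 𝓝[<] (u + (k.val : ℝ)), Real.cos ((x - v) * (Real.pi / 3)) ≤ 0) :
    m6 ⌊x - 1 / 2 - u⌋ = k + 1 ∨ m6 ⌊x - 1 / 2 - u⌋ = k + 2 ∨ m6 ⌊x - 1 / 2 - u⌋ = k + 3 := by
  set p := ⌊x - 1 / 2 - u⌋ with hp
  have h2 := Int.floor_le (x - 1 / 2 - u)
  have h3 := Int.lt_floor_add_one (x - 1 / 2 - u)
  rw [← hp] at h2 h3
  have h6 : ∀ᶠ v in 𝓝[<] (u + (k.val : ℝ)), x - p - 3 / 2 + k.val < v :=
    ev_sub nhdsWithin_le_nhds (Ioi_mem_nhds (by linarith))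
  obtain ⟨v, hv1, hv2, hv3⟩ := (h.and (h6.and self_mem_nhdsWithin)).exists
  have hv3 : v < u + (k.val : ℝ) := hv3
  have key : ∀ n : ℤ, ¬ (6 * n - 2 ≤ p - k.val ∧ p - k.val ≤ 6 * n) := by
    rintro n ⟨a, b⟩
    have a' : (6 * n - 2 : ℝ) ≤ p - k.val := by exact_mod_cast a
    have b' : (p : ℝ) - k.val ≤ 6 * n := by exact_mod_cast b
    exact absurd hv1 (not_le.2 (cos_pos6 (n := n) (by linarith) (by linarith)))
  have hm := m6_val p
  have hd := Int.emod_add_mul_ediv p 6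
  refine comb_out k (m6 p) ?_ ?_
  · have := key (p / 6); omega
  · have := key (p / 6 + 1); omega

/-- the code of a pair of sectors -/
theorem enc_snd {p q : ℤ} (h1 : p ≤ q) (h2 : q ≤ p + 3) :
    (enc p q).1 + (enc p q).2.castLE (by norm_num) = m6 q := by
  have e : q = p + ((q - p).toNat : ℤ) := by omega
  have hlt : (q - p).toNat < 6 := by omega
  have h := m6_add p (q - p).toNat hlt
  rw [← e] at h
  rw [h]
  unfold enc
  congr 1
  apply Fin.ext
  show min (q - p).toNat 3 = (q - p).toNat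
  omega

namespace C6

variable (C : C6 U T z)
include C

theorem fl_le (c : Fin 6) (u : ℝ) :
    ⌊(hl (Dr T z c)).1 - 1 / 2 - u⌋ ≤ ⌊(hl (Dr T z c)).2 - 1 / 2 - u⌋ ∧
    ⌊(hl (Dr T z c)).2 - 1 / 2 - u⌋ ≤ ⌊(hl (Dr T z c)).1 - 1 / 2 - u⌋ + 3 := by
  have h := C.hull c
  refine ⟨Int.floor_le_floor (by linarith [h.le]), ?_⟩
  have h1 : ⌊(hl (Dr T z c)).2 - 1 / 2 - u⌋ ≤ ⌊(hl (Dr T z c)).1 - 1 / 2 - u + (3 : ℤ)⌋ :=
    Int.floor_le_floor (by push_cast; linarith [h.len])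
  rwa [Int.floor_add_intCast] at h1

/-- **Static facts at generic times** -/
theorem stat_gen {v : ℝ} (hg : SL U T z v = SR U T z v) : Stat (SL U T z v) := by
  refine ⟨fun k => ?_, fun k => ?_, fun k => ?_, fun k => ?_, fun m => ?_⟩
  · obtain ⟨w, hw⟩ := (C.ll_spec (v + (k.val : ℝ))).exists
    exact hw.2.1
  · -- the rule of 60 degrees
    have key : ∀ i j, (i = (LL U T z (v + (k.val : ℝ))).1 ∨ i = (LL U T z (v + (k.val : ℝ))).2) →
        (j = (LL U T z (v + ((k + 1).val : ℝ))).1 ∨ j = (LL U T z (v + ((k + 1).val : ℝ))).2) →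
        i ≠ j := by
      intro i j hi hj hij
      subst hij
      rw [C.ll_succ] at hj
      have s1 := C.ll_spec (v + (k.val : ℝ))
      have ht : Tendsto (fun w : ℝ => w + 1) (𝓝[<] (v + (k.val : ℝ))) (𝓝[<] (v + 1 + (k.val : ℝ))) := by
        refine tendsto_nhdsWithin_iff.2 ⟨?_, ?_⟩
        · have e : v + 1 + (k.val : ℝ) = v + (k.val : ℝ) + 1 := by ring
          rw [e]
          exact ((by fun_prop : Continuous fun w : ℝ => w + 1).tendsto _).mono_left nhdsWithin_le_nhds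
        · filter_upwards [self_mem_nhdsWithin] with w hw
          have hw : w < v + (k.val : ℝ) := hw
          show w + 1 < v + 1 + (k.val : ℝ)
          linarith
      obtain ⟨w, hw1, hw2⟩ := (s1.and (ht.eventually (C.ll_spec _))).exists
      have hJ : ∀ᶠ q in 𝓝[sphere z 1] (pt z w), i ∈ T q := by
        filter_upwards [C.irr.arc_of_pair (C.pal _) (C.pal _) hw1.1] with q hq
        rw [hq]
        rcases hi with h | h
        · exact Or.inl h
        · exact Or.inr h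
      have hi2 : i ∈ T (pt z (w + 1)) := by
        rw [hw2.1]
        rcases hj with h | h
        · exact Or.inl h
        · exact Or.inr h
      obtain ⟨h1, h2⟩ := tri (dist_pt z w) (dist_pt z (w + 1))
      exact line_free C.irr (dist_pt z w) hJ (dist_pt_one z w) (fun h => h1 h.symm)
        (fun h => h2 (by rw [← h]; ring)) (C.irr.sub _ hi2)
    exact ⟨key _ _ (Or.inl rfl) (Or.inl rfl), key _ _ (Or.inl rfl) (Or.inr rfl),
      key _ _ (Or.inr rfl) (Or.inl rfl), key _ _ (Or.inr rfl) (Or.inr rfl)⟩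
  · set c := (LL U T z (v + (k.val : ℝ))).1 with hc
    have h := C.hull c
    obtain ⟨f1, f2⟩ := C.fl_le c v
    show okIn k (enc ⌊(hl (Dr T z c)).1 - 1 / 2 - v⌋ ⌊(hl (Dr T z c)).2 - 1 / 2 - v⌋)
    unfold okIn
    rw [enc_snd f1 f2]
    refine ⟨sec_in ?_, sec_in ?_⟩
    · exact (C.ll_spec _).mono fun w hw => C.dir_in hw (by rw [← hc]; exact h.left)
    · exact (C.ll_spec _).mono fun w hw => C.dir_in hw (by rw [← hc]; exact h.right)
  · set c := (LL U T z (v + (k.val : ℝ))).2 with hc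
    have h := C.hull c
    obtain ⟨f1, f2⟩ := C.fl_le c v
    show okOut k (enc ⌊(hl (Dr T z c)).1 - 1 / 2 - v⌋ ⌊(hl (Dr T z c)).2 - 1 / 2 - v⌋)
    unfold okOut
    rw [enc_snd f1 f2]
    refine ⟨sec_out ?_, sec_out ?_⟩
    · exact (C.ll_spec _).mono fun w hw => C.dir_out hw (by rw [← hc]; exact h.left)
    · exact (C.ll_spec _).mono fun w hw => C.dir_out hw (by rw [← hc]; exact h.right)
  · obtain ⟨c, hc⟩ := dr_cover C.irr z (v + (m.val : ℝ) + 3 / 2)
    obtain ⟨n, n1, n2⟩ := (C.hull c).sub _ hc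
    obtain ⟨f1, f2⟩ := C.fl_le c v
    refine ⟨c, ?_⟩
    have e2 : HL T z v c = HR T z v c := congrFun (congrArg Prod.snd hg) c
    set a := (hl (Dr T z c)).1 with ha
    set b := (hl (Dr T z c)).2 with hb
    -- generic times: the end points are not on rays
    have e3 : m6 ⌊a - 1 / 2 - v⌋ = m6 (⌈a - 1 / 2 - v⌉ - 1) := congrArg Prod.fst e2
    have e4 := Int.floor_le_ceil (a - 1 / 2 - v)
    have e5 := Int.ceil_le_floor_add_one (a - 1 / 2 - v)
    have v1 := m6_val ⌊a - 1 / 2 - v⌋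
    have v2 := m6_val (⌈a - 1 / 2 - v⌉ - 1)
    rw [e3] at v1
    have e6 : ⌊a - 1 / 2 - v⌋ = ⌈a - 1 / 2 - v⌉ - 1 := by omega
    have g1 : ⌊a - 1 / 2 - v⌋ ≤ m.val + 6 * n := by
      have : ⌈a - 1 / 2 - v⌉ ≤ m.val + 6 * n + 1 := by
        rw [Int.ceil_le]; push_cast; linarith
      omega
    have g2 : (m.val : ℤ) + 6 * n + 1 ≤ ⌊b - 1 / 2 - v⌋ := by
      rw [Int.le_floor]; push_cast; linarith
    show rayIn m (enc _ _)
    unfold rayIn enc
    simp only
    have v3 := m6_val ⌊a - 1 / 2 - v⌋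
    rw [← ha, ← hb]
    set p := ⌊a - 1 / 2 - v⌋ with hp
    set q := ⌊b - 1 / 2 - v⌋ with hq
    have hm := m.isLt
    have hlt := (m6 p).isLt
    rw [Fin.sub_def]
    simp only
    omega

/-- **Static facts** -/
theorem stat_R (u : ℝ) : Stat (SR U T z u) := by
  obtain ⟨v, hv⟩ := (C.ev_right u).exists
  rw [← hv.2]
  exact C.stat_gen (by rw [hv.1, hv.2])

theorem stat_L (u : ℝ) : Stat (SL U T z u) := by
  obtain ⟨v, hv⟩ := (C.ev_left u).exists
  rw [← hv.2]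
  exact C.stat_gen (by rw [hv.1, hv.2])

end C6

end Vale.Agent.P032.H892
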