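import Vale.Agent.P032.H892.SixFst

/-!
# P032: assembly of event tables at a six-coloured point

`Ev U T z s t` : the state `s` just before and the state `t` just after some time.

* `C6.exists_event` : if no path of events outside `E` leads from a state to its shift, then an event of `E` occurs,
* `C6.no_of_tables` : if, moreover, for no event `(s, t)` of `E` there is a path of compatible later events
  from `t` to the shift of `s`, then there is no six-coloured point.
-/

open Set Filter Topology Metric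

noncomputable section

namespace Vale.Agent.P032.H892

open Vale.Agent.P032.Six Vale.Agent.P032.Words Vale.Agent.P032.S5.H767

variable {U : Fin 6 → Set ℂ} {T : ℂ → Set (Fin 6)} {z : ℂ}

/-- steps of a table, between static states -/
def Stp (R : St6 → St6 → Prop) (s t : St6) : Prop := Stat s ∧ Stat t ∧ R s t

/-- steps with the flag `some letter has changed` -/
def StpF (R : Prop → St6 → St6 → Prop) (x y : St6 × Prop) : Prop :=
  Stat x.1 ∧ Stat y.1 ∧ R x.2 x.1 y.1 ∧ (y.2 ↔ x.2 ∨ x.1.1 ≠ y.1.1)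

namespace C6

variable (C : C6 U T z)
include C

/-- **One-class table.** -/
theorem exists_event {R : St6 → St6 → Prop} {E : St6 → St6 → Prop}
    (hR : ∀ u, E (SL U T z u) (SR U T z u) ∨ R (SL U T z u) (SR U T z u))
    (hpath : ∀ s, Stat s → ¬ Relation.ReflTransGen (Stp R) s (sh6 s)) :
    ∃ u, E (SL U T z u) (SR U T z u) := by
  by_contra hcon
  push Not at hcon
  obtain ⟨a, ha⟩ := C.exists_generic6
  refine hpath (SR U T z a) (C.stat_R a) ?_
  refine C.loop6 (I := fun s => Relation.ReflTransGen (Stp R) (SR U T z a) s) Relation.ReflTransGen.refl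
    ha fun u _ hI => hI.tail ⟨C.stat_L u, C.stat_R u, ?_⟩
  rcases hR u with h | h
  · exact absurd h (hcon u)
  · exact h

/-- **Two-class table.** -/
theorem no_event {s t : St6} {u1 : ℝ} (hs : SL U T z u1 = s) (ht : SR U T z u1 = t)
    {R : Prop → St6 → St6 → Prop}
    (hR : ∀ u ∈ Ioo u1 (u1 + 1), R (∃ v ∈ Ioo u1 u, Chg U T z v) (SL U T z u) (SR U T z u))
    (hpath : ∀ p, ¬ Relation.ReflTransGen (StpF R) (t, False) (sh6 s, p)) : False := by
  refine hpath (∃ v ∈ Ioo u1 (u1 + 1), Chg U T z v) ?_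
  have key := C.run6f (I := fun x p => Relation.ReflTransGen (StpF R) (t, False) (x, p))
    (show u1 < u1 + 1 by linarith) (by rw [ht]) fun u hu hI => hI.tail ⟨C.stat_L u, C.stat_R u, hR u hu, ?_⟩
  · rw [C.sl_succ, hs] at key
    exact key
  · show (∃ v ∈ Ioc u1 u, Chg U T z v) ↔ (∃ v ∈ Ioo u1 u, Chg U T z v) ∨ (SL U T z u).1 ≠ (SR U T z u).1
    constructor
    · rintro ⟨v, hv, hc⟩
      rcases hv.2.lt_or_eq with h | h
      · exact Or.inl ⟨v, ⟨hv.1, h⟩, hc⟩
      · subst h; exact Or.inr hc
    · rintro (⟨v, hv, hc⟩ | hc)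
      · exact ⟨v, ⟨hv.1, hv.2.le⟩, hc⟩
      · exact ⟨u, ⟨hu.1, le_rfl⟩, hc⟩

/-- **Assembly.**  `E` : distinguished events; `R` : the other events; `R2 s t` : the events compatible with an
earlier event `(s, t)` of `E` (flag: some letter has changed in between). -/
theorem no_of_tables {R E : St6 → St6 → Prop} {R2 : St6 → St6 → Prop → St6 → St6 → Prop}
    (hR : ∀ u, E (SL U T z u) (SR U T z u) ∨ R (SL U T z u) (SR U T z u))
    (hpath : ∀ s, Stat s → ¬ Relation.ReflTransGen (Stp R) s (sh6 s))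
    (hR2 : ∀ u1, E (SL U T z u1) (SR U T z u1) → ∀ u ∈ Ioo u1 (u1 + 1),
      R2 (SL U T z u1) (SR U T z u1) (∃ v ∈ Ioo u1 u, Chg U T z v) (SL U T z u) (SR U T z u))
    (hpath2 : ∀ s t, Stat s → Stat t → E s t → ∀ p,
      ¬ Relation.ReflTransGen (StpF (R2 s t)) (t, False) (sh6 s, p)) : False := by
  obtain ⟨u1, hE⟩ := C.exists_event hR hpath
  exact C.no_event rfl rfl (hR2 u1 hE) (hpath2 _ _ (C.stat_L u1) (C.stat_R u1) hE)

end C6

end Vale.Agent.P032.H892
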