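import Vale.Agent.P032.H892.ImB
import Vale.Agent.P032.H61.TabF

/-!
# P032: the table of the moving class for the 73 points
-/

set_option maxRecDepth 100000

noncomputable section

namespace Vale.Agent.P032.ImB

open Vale.Agent.P032.H61 Vale.Agent.P032.H357.MK
open Vale.Agent.P032.H820.K (nbf Ho Md)
open Vale.Agent.P032.BlkV (CN)

/-- the points of the moving class -/
def TSB : ℕ := 0x4800000004604500000004204100000003e03d00000003a03900000000003603503400000000000000000000000000000000000000000000000000000000000000000000000000000000000000000000000000000000000000000c00000a000008000006000004000002000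

theorem b73 : bchk 73 73 TF.TC TSB = true := by decide +kernel

theorem btab73 : BTab 73 73 TF.TC TSB := btab_of b73

/-- **images of certified patterns (class `CN n`) at the moving class, 73 points** -/
theorem imB73_ho {n : ℕ} {F : Fr} {M : Md 2 73 73 (nbf 2 TF.TB)} (hM : Mdl (TF.tb (le_refl 73)) F M)
    (hF : CN n 73 TF.TC F) (hP : BlkV.okN n TF.PX 120 = true) {tr : PTr}
    (ht : tr.All fun p => Dead (kap TF.TC) (CN n 73 TF.TC) (pk p) ∧ Vl (Gp 73 TF.TC) (Ce 73 TF.TC) (pk p)) (c : ℕ) :
    Ho M (imB gA tr TF.PX 120 TF.TG TSB c) := by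
  have t : Tabs (kap TF.TC) (Gp 73 TF.TC) (Ce 73 TF.TC) (ptb TF.TG) := tabs_of_gchk (by norm_num) le_rfl TF.g73
  exact imB_ho t btab73 hM hF.ok (clB_cn hF) (gA_ok t (fun _ h => h.rot t le_rfl) fun _ h => h.mir t le_rfl)
    (BlkV.okPT_of hP) ht c

end Vale.Agent.P032.ImB
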